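import Vale.Agent.P225.Defs
import Vale.Agent.P255.Chr

/-! The Berger type metrics `e^{2h} (E g_H + g_rad + F g_V)` on `ℝ^σ`. -/

namespace Vale.Agent.P225

open Matrix Filter
open scoped ContDiff Topology

variable {σ : Type} [Fintype σ] [DecidableEq σ]

/-- orthogonal complex structure -/
def IsCx (J : Matrix σ σ ℝ) : Prop := Jᵀ = -J ∧ J * J = -1

/-- `log |x|` -/
noncomputable def sl (x : σ → ℝ) : ℝ := Real.log (x ⬝ᵥ x) / 2

/-- bilinear form of a matrix -/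
noncomputable def bil (G : Matrix σ σ ℝ) : (σ → ℝ) →L[ℝ] (σ → ℝ) →L[ℝ] ℝ :=
  ∑ i, ∑ j, G i j • (ContinuousLinearMap.proj i : (σ → ℝ) →L[ℝ] ℝ).smulRight
    (ContinuousLinearMap.proj j : (σ → ℝ) →L[ℝ] ℝ)

omit [DecidableEq σ] in
theorem bil_apply (G : Matrix σ σ ℝ) (v w : σ → ℝ) : bil G v w = v ⬝ᵥ G *ᵥ w := by
  simp only [bil, _root_.sum_apply, _root_.smul_apply, ContinuousLinearMap.smulRight_apply,
    ContinuousLinearMap.proj_apply, smul_eq_mul, dotProduct, mulVec, Finset.mul_sum]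
  exact Finset.sum_congr rfl fun i _ => Finset.sum_congr rfl fun j _ => by ring

noncomputable def metM (m : ℕ) (h η : ℝ → ℝ) (J : Matrix σ σ ℝ) (x : σ → ℝ) : Matrix σ σ ℝ :=
  Real.exp (2 * h (sl x)) • (Real.exp (-2 * η (sl x)) • (1 : Matrix σ σ ℝ)
    + ((1 - Real.exp (-2 * η (sl x))) / (x ⬝ᵥ x)) • vecMulVec x x
    + ((Real.exp (4 * m * η (sl x)) - Real.exp (-2 * η (sl x))) / (x ⬝ᵥ x)) •
      vecMulVec (J *ᵥ x) (J *ᵥ x))

/-- the metric for a fixed complex structure -/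
noncomputable def met (m : ℕ) (h η : ℝ → ℝ) (J : Matrix σ σ ℝ) : Met σ :=
  fun x => bil (metM m h η J x)

theorem met_apply (m : ℕ) (h η : ℝ → ℝ) (J : Matrix σ σ ℝ) (x v w : σ → ℝ) :
    met m h η J x v w = Real.exp (2 * h (sl x)) * (Real.exp (-2 * η (sl x)) * (v ⬝ᵥ w)
      + (1 - Real.exp (-2 * η (sl x))) / (x ⬝ᵥ x) * ((x ⬝ᵥ v) * (x ⬝ᵥ w))
      + (Real.exp (4 * m * η (sl x)) - Real.exp (-2 * η (sl x))) / (x ⬝ᵥ x) *
        (((J *ᵥ x) ⬝ᵥ v) * ((J *ᵥ x) ⬝ᵥ w))) := by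
  simp only [met, bil_apply, metM, smul_mulVec, add_mulVec, one_mulVec, vecMulVec_mulVec,
    dotProduct_smul, dotProduct_add, smul_eq_mul, op_smul_eq_smul]
  rw [dotProduct_comm v x, dotProduct_comm v (J *ᵥ x)]
  ring

/-- the metric with a complex structure depending on the radius -/
noncomputable def gmet (m : ℕ) (h η : ℝ → ℝ) (Js : ℝ → Matrix σ σ ℝ) : Met σ :=
  fun x => met m h η (Js (sl x)) x

/-- smooth profile functions vanishing on the unit ball -/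
structure Prof (h η : ℝ → ℝ) : Prop where
  hs : ContDiff ℝ ∞ h
  es : ContDiff ℝ ∞ η
  h0 : ∀ s ≤ 0, h s = 0
  e0 : ∀ s ≤ 0, η s = 0

/-- the complex structure only changes where the metric is round -/
structure Adm (η : ℝ → ℝ) (Js : ℝ → Matrix σ σ ℝ) : Prop where
  cx : ∀ s, IsCx (Js s)
  loc : ∀ s, ∀ᶠ t in 𝓝 s, η t = 0 ∨ Js t = Js s

/-- second derivative -/
noncomputable def D2 (u : (σ → ℝ) → ℝ) (x a b : σ → ℝ) : ℝ :=
  fderiv ℝ (fun y => fderiv ℝ u y b) x a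

/-- a symmetric `U(J)`-invariant connection with coefficient functions `q 0, …, q 5` -/
noncomputable def GamQ (q : Fin 6 → ℝ → ℝ) (J : Matrix σ σ ℝ) (x v w : σ → ℝ) : σ → ℝ :=
  (q 0 (sl x) / (x ⬝ᵥ x)) • ((x ⬝ᵥ v) • w + (x ⬝ᵥ w) • v)
  + (q 1 (sl x) / (x ⬝ᵥ x)) • (((J *ᵥ x) ⬝ᵥ w) • J *ᵥ v + ((J *ᵥ x) ⬝ᵥ v) • J *ᵥ w)
  + (q 2 (sl x) / (x ⬝ᵥ x) * (v ⬝ᵥ w) + q 3 (sl x) / (x ⬝ᵥ x) ^ 2 * ((x ⬝ᵥ v) * (x ⬝ᵥ w))
      + q 4 (sl x) / (x ⬝ᵥ x) ^ 2 * (((J *ᵥ x) ⬝ᵥ v) * ((J *ᵥ x) ⬝ᵥ w))) • x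
  + (q 5 (sl x) / (x ⬝ᵥ x) ^ 2 *
      ((x ⬝ᵥ v) * ((J *ᵥ x) ⬝ᵥ w) + (x ⬝ᵥ w) * ((J *ᵥ x) ⬝ᵥ v))) • J *ᵥ x

/-- the coefficient functions of the Levi-Civita connection of `met` -/
noncomputable def qf (m : ℕ) (h η : ℝ → ℝ) : Fin 6 → ℝ → ℝ :=
  ![fun s => deriv h s - deriv η s,
    fun s => Real.exp ((4 * m + 2) * η s) - 1,
    fun s => 1 - Real.exp (-2 * η s) * (1 + deriv h s - deriv η s),
    fun s => deriv h s - 1 + Real.exp (-2 * η s) * (1 + deriv h s - deriv η s)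
      - 2 * (deriv h s - deriv η s),
    fun s => -Real.exp (4 * m * η s) * (1 + deriv h s + 2 * m * deriv η s)
      + Real.exp (-2 * η s) * (1 + deriv h s - deriv η s) + 2 * (Real.exp ((4 * m + 2) * η s) - 1),
    fun s => (2 * m + 1) * deriv η s - (Real.exp ((4 * m + 2) * η s) - 1)]

end Vale.Agent.P225
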