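import Vale.Agent.P225.Met
import Vale.Agent.P225.GDefs

namespace Vale.Agent.P225

open Vale.Agent.P255 Matrix Filter
open scoped ContDiff Topology

variable {σ : Type} [Fintype σ] [DecidableEq σ] {g : Met σ}

set_option linter.unusedSectionVars false

namespace DistAux

theorem nn (g : Met σ) (x y : σ → ℝ) :
    ∀ l ∈ {l | ∃ γ : ℝ → σ → ℝ, ContDiff ℝ 1 γ ∧ γ 0 = x ∧ γ 1 = y ∧ l = len g γ}, 0 ≤ l := by
  rintro _ ⟨γ, -, -, -, rfl⟩
  exact intervalIntegral.integral_nonneg zero_le_one fun _ _ => Real.sqrt_nonneg _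

theorem seg (x y : σ → ℝ) : ContDiff ℝ 1 (fun t : ℝ => x + t • (y - x)) ∧
    ∀ t, deriv (fun t : ℝ => x + t • (y - x)) t = y - x :=
  ⟨by fun_prop, fun t => (((hasDerivAt_id' t).smul_const _).const_add x).deriv.trans (one_smul _ _)⟩

theorem cont (hg : IsMetric g) {γ : ℝ → σ → ℝ} (h : ContDiff ℝ 1 γ) :
    Continuous fun t => √(g (γ t) (deriv γ t) (deriv γ t)) :=
  (((hg.smooth.continuous.comp h.continuous).clm_apply (h.continuous_deriv le_rfl)).clm_apply
    (h.continuous_deriv le_rfl)).sqrt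

theorem cs (x v : σ → ℝ) : (x ⬝ᵥ v) ^ 2 ≤ x ⬝ᵥ x * v ⬝ᵥ v := by
  simpa only [dotProduct, sq] using Finset.sum_mul_sq_le_sq_mul_sq Finset.univ x v

end DistAux

theorem gdist_nonneg (g : Met σ) (x y : σ → ℝ) : 0 ≤ gdist g x y := Real.sInf_nonneg (DistAux.nn g x y)

theorem le_gdist (hg : IsMetric g) {ψ : (σ → ℝ) → ℝ} (hψ : ContDiff ℝ 1 ψ)
    (h : ∀ x v, fderiv ℝ ψ x v ^ 2 ≤ g x v v) (x y : σ → ℝ) : |ψ y - ψ x| ≤ gdist g x y := by
  refine le_csInf ⟨_, _, (DistAux.seg x y).1, by simp, by simp, rfl⟩ ?_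
  rintro _ ⟨γ, h1, rfl, rfl, rfl⟩
  have c1 := h1.continuous
  have c2 := h1.continuous_deriv le_rfl
  have c3 : Continuous fun t => fderiv ℝ ψ (γ t) (deriv γ t) :=
    ((hψ.continuous_fderiv (by simp)).comp c1).clm_apply c2
  rw [← intervalIntegral.integral_eq_sub_of_hasDerivAt (f := fun t => ψ (γ t)) (fun t _ =>
    (hψ.differentiable (by simp) _).hasFDerivAt.comp_hasDerivAt t
      (h1.differentiable (by simp) t).hasDerivAt) (c3.intervalIntegrable _ _)]
  refine (intervalIntegral.abs_integral_le_integral_abs zero_le_one).trans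
    (intervalIntegral.integral_mono_on zero_le_one (c3.abs.intervalIntegrable _ _)
      ((DistAux.cont hg h1).intervalIntegrable _ _) fun t _ => Real.abs_le_sqrt (h _ _))

theorem gdist_le (hg : IsMetric g) {C : ℝ} (h : ∀ x v, g x v v ≤ C * (v ⬝ᵥ v)) (x y : σ → ℝ) :
    gdist g x y ≤ √(C * ((x - y) ⬝ᵥ (x - y))) := by
  refine csInf_le_of_le ⟨0, DistAux.nn g x y⟩ ⟨_, (DistAux.seg x y).1, by simp, by simp, rfl⟩ ?_
  refine (intervalIntegral.integral_mono_on zero_le_one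
    ((DistAux.cont hg (DistAux.seg x y).1).intervalIntegrable _ _)
    (intervalIntegrable_const (c := √(C * ((x - y) ⬝ᵥ (x - y))))) fun t _ => ?_).trans (by simp)
  rw [(DistAux.seg x y).2, ← neg_dotProduct_neg, neg_sub]
  exact Real.sqrt_le_sqrt (h _ _)

theorem complete_of (hg : IsMetric g) {ε C : ℝ} (hε : 0 < ε)
    (h1 : ∀ x v, ε * (v ⬝ᵥ v) / (1 + x ⬝ᵥ x) ≤ g x v v) (h2 : ∀ x v, g x v v ≤ C * (v ⬝ᵥ v)) :
    Complete g := by
  intro x hx
  have p : ∀ y : σ → ℝ, 0 < 1 + y ⬝ᵥ y := fun y => by linarith [MetAux.nn y]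
  have s := Real.sqrt_pos.2 hε
  have sm : ContDiff ℝ 1 fun y : σ → ℝ => 1 + y ⬝ᵥ y := by unfold dotProduct; fun_prop
  have k : ∀ {ψ : (σ → ℝ) → ℝ}, ContDiff ℝ 1 ψ → (∀ x v, fderiv ℝ ψ x v ^ 2 ≤ v ⬝ᵥ v / (1 + x ⬝ᵥ x)) →
      ∃ L, Tendsto (fun a => ψ (x a)) atTop (𝓝 L) := fun {ψ} h3 h4 => by
    refine cauchySeq_tendsto_of_complete (Metric.cauchySeq_iff.2 fun e he => ?_)
    obtain ⟨N, hN⟩ := hx (√ε * e) (by positivity)
    refine ⟨N, fun a ha b hb => ?_⟩
    have := (le_gdist hg (ψ := fun y => √ε * ψ y) (contDiff_const.mul h3) (fun x v => by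
      rw [fderiv_const_mul (h3.differentiable (by simp) x), _root_.smul_apply, smul_eq_mul,
        mul_pow, Real.sq_sqrt hε.le]
      exact (mul_le_mul_of_nonneg_left (h4 x v) hε.le).trans
        ((mul_div_assoc _ _ _).symm.trans_le (h1 x v))) (x b) (x a)).trans_lt (hN b hb a ha)
    rw [← mul_sub, abs_mul, abs_of_pos s] at this
    exact lt_of_mul_lt_mul_left this s.le
  obtain ⟨L, hL⟩ := k (ψ := fun y => 1 / 2 * Real.log (1 + y ⬝ᵥ y))
    (contDiff_const.mul (sm.log fun y => (p y).ne')) fun x v => by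
      rw [((((MetAux.fd x).const_add 1).log (p x).ne').const_mul (1 / 2 : ℝ)).fderiv]
      have := DistAux.cs x v
      have := p x
      have := MetAux.nn v
      simp only [_root_.smul_apply, bil_apply, one_mulVec, smul_eq_mul]
      field_simp
      nlinarith
  choose M hM using fun i => k (ψ := fun y => 1 / 3 * (y i * (1 + y ⬝ᵥ y)⁻¹))
    (contDiff_const.mul ((contDiff_apply ℝ ℝ i).mul (sm.inv fun y => (p y).ne'))) fun x v => by
      erw [(((hasFDerivAt_apply (𝕜 := ℝ) i x).fun_mul ((hasDerivAt_inv (p x).ne').comp_hasFDerivAt x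
        ((MetAux.fd x).const_add 1))).const_mul (1 / 3 : ℝ)).fderiv]
      have a1 := DistAux.cs x v
      have a2 := p x
      have a3 := MetAux.nn v
      have a4 := MetAux.nn x
      have a5 : ∀ y : σ → ℝ, y i ^ 2 ≤ y ⬝ᵥ y := fun y => (sq _).trans_le
        (Finset.single_le_sum (f := fun i => y i * y i) (fun _ _ => mul_self_nonneg _)
          (Finset.mem_univ i))
      have a6 : (x i * (x ⬝ᵥ v)) ^ 2 ≤ (1 + x ⬝ᵥ x) ^ 2 * (v ⬝ᵥ v) := by
        rw [mul_pow]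
        refine (mul_le_mul (a5 x) a1 (sq_nonneg _) a4).trans ?_
        nlinarith
      have a7 : (v i * (1 + x ⬝ᵥ x)) ^ 2 ≤ (1 + x ⬝ᵥ x) ^ 2 * (v ⬝ᵥ v) := by
        rw [mul_pow, mul_comm]; exact mul_le_mul_of_nonneg_left (a5 v) (sq_nonneg _)
      have a8 : (1 + x ⬝ᵥ x) ^ 2 * (v ⬝ᵥ v) ≤ (1 + x ⬝ᵥ x) ^ 3 * (v ⬝ᵥ v) :=
        mul_le_mul_of_nonneg_right (pow_le_pow_right₀ (by linarith) (by norm_num)) a3
      simp only [_root_.smul_apply, _root_.add_apply, bil_apply, one_mulVec, smul_eq_mul,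
        ContinuousLinearMap.proj_apply, Function.comp_apply]
      field_simp
      nlinarith [sq_nonneg (x i * (x ⬝ᵥ v) + v i * (1 + x ⬝ᵥ x))]
  have t : Tendsto x atTop (𝓝 fun i => 3 * M i * Real.exp (2 * L)) := tendsto_pi_nhds.2 fun i =>
    (((hM i).const_mul 3).mul (hL.const_mul 2).rexp).congr fun a => by
      have := p (x a)
      rw [← mul_assoc 2, mul_one_div_cancel two_ne_zero, one_mul, Real.exp_log this]
      field_simp
  generalize (fun i => 3 * M i * Real.exp (2 * L)) = y at t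
  refine ⟨y, squeeze_zero (fun a => gdist_nonneg _ _ _) (fun a => gdist_le hg h2 _ _) ?_⟩
  exact (Continuous.tendsto' (f := fun z : σ → ℝ => √(C * ((z - y) ⬝ᵥ (z - y)))) (by fun_prop) _ _
    (by simp)).comp t

theorem radial_le (hg : IsMetric g) {c : ℝ} (hc : 0 < c)
    (h : ∀ x v, (x ⬝ᵥ v) ^ 2 * (1 + x ⬝ᵥ x) ^ (c - 2) ≤ g x v v) (x : σ → ℝ) :
    (1 + x ⬝ᵥ x) ^ (c / 2) ≤ 1 + c * gdist g 0 x := by
  have p : ∀ y : σ → ℝ, 0 < 1 + y ⬝ᵥ y := fun y => by linarith [MetAux.nn y]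
  have sm : ContDiff ℝ 1 fun y : σ → ℝ => 1 + y ⬝ᵥ y := by unfold dotProduct; fun_prop
  have := (le_abs_self _).trans (le_gdist hg (ψ := fun y => c⁻¹ * (1 + y ⬝ᵥ y) ^ (c / 2))
    (contDiff_const.mul (sm.rpow_const_of_ne fun y => (p y).ne')) (fun x v => by
      rw [((((MetAux.fd x).const_add 1).rpow_const (Or.inl (p x).ne')).const_mul c⁻¹).fderiv]
      refine Eq.trans_le ?_ (h x v)
      simp only [_root_.smul_apply, bil_apply, one_mulVec, smul_eq_mul]
      rw [show c - 2 = (c / 2 - 1) * (2 : ℕ) by push_cast; ring, Real.rpow_mul_natCast (p x).le]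
      field_simp) 0 x)
  simp only [dotProduct_zero, add_zero, Real.one_rpow] at this
  rw [← mul_sub, inv_mul_le_iff₀ hc] at this
  linarith

end Vale.Agent.P225
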