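import Vale.Agent.P225.PDefs
import Vale.Agent.P225.ODefs

/-! The diagonal subalgebra of the algebra of block matrices. -/

namespace Vale.Agent.P225

open Matrix
open scoped Matrix.Norms.Operator

variable {I : Type} [Fintype I]

/-- block diagonal matrices -/
noncomputable def blkD (N : I → ℕ) : Diag (Blk ℝ N) (Σ l, Fin (N l)) I where
  dg := AlgHom.pi fun l => (Matrix.diagonalAlgHom ℝ).comp
    (AlgHom.pi fun i => Pi.evalAlgHom ℝ (fun _ : Σ l, Fin (N l) => ℝ) ⟨l, i⟩)
  blk := Sigma.fst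
  norm_dg d := by
    refine le_antisymm ((pi_norm_le_iff_of_nonneg (norm_nonneg _)).2 fun l => ?_)
      ((pi_norm_le_iff_of_nonneg (norm_nonneg _)).2 fun ⟨l, i⟩ => ?_)
    · exact (linfty_opNorm_diagonal fun i => d ⟨l, i⟩).le.trans
        ((pi_norm_le_iff_of_nonneg (norm_nonneg _)).2 fun i => norm_le_pi_norm d _)
    · exact ((norm_le_pi_norm (fun i => d ⟨l, i⟩) i).trans
        (linfty_opNorm_diagonal fun i => d ⟨l, i⟩).ge).trans (norm_le_pi_norm (f := fun l =>
          diagonal fun i => d ⟨l, i⟩) l)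
  cen z a := funext fun l => (scalar_commute (z l) (fun _ => mul_comm _ _) (a l)).eq

theorem blkD_dg (N : I → ℕ) (d : (Σ l, Fin (N l)) → ℝ) (l : I) :
    (blkD N).dg d l = diagonal fun i => d ⟨l, i⟩ := rfl

theorem blkD_blk (N : I → ℕ) (i : Σ l, Fin (N l)) : (blkD N).blk i = i.1 := rfl

theorem blkD_z (N : I → ℕ) (f : I → ℝ) (l : I) : (blkD N).z f l = f l • 1 := by
  rw [smul_one_eq_diagonal]; rfl

theorem abs_entry_le {N : I → ℕ} (x : Blk ℝ N) (l : I) (i j : Fin (N l)) : |x l i j| ≤ ‖x‖ := by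
  refine le_trans ?_ (norm_le_pi_norm x l)
  rw [linfty_opNorm_def, ← Real.norm_eq_abs, ← coe_nnnorm, NNReal.coe_le_coe]
  exact (Finset.single_le_sum (f := fun j => ‖x l i j‖₊) (fun _ _ => zero_le)
    (Finset.mem_univ j)).trans (Finset.le_sup (f := fun i => ∑ j, ‖x l i j‖₊) (Finset.mem_univ i))


end Vale.Agent.P225
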