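import Vale.Agent.P225.Fis

namespace Vale.Agent.P225

open Matrix MvPolynomial

variable {σ : Type} [Fintype σ] [DecidableEq σ] {R : Type} [Field R]

namespace BasisAux

theorem spectral {V : Type} [AddCommGroup V] [Module ℝ V] [Module.Finite ℝ V]
    (B : V →ₗ[ℝ] V →ₗ[ℝ] ℝ) (hs : ∀ x y, B x y = B y x) (hp : ∀ x, x ≠ 0 → 0 < B x x)
    (T : Module.End ℝ V) (hT : ∀ x y, B (T x) y = B x (T y)) :
    ∃ (b : Fin (Module.finrank ℝ V) → V) (ν : Fin (Module.finrank ℝ V) → ℝ),
      (∀ i j, B (b i) (b j) = if i = j then 1 else 0) ∧ (∀ x, x = ∑ i, B (b i) x • b i) ∧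
      (∀ i, T (b i) = ν i • b i) ∧
      ∀ t : ℝ, (Finset.univ.filter fun i => ν i = t).card =
        Module.finrank ℝ (Module.End.eigenspace T t) := by
  let c : InnerProductSpace.Core ℝ V :=
    { inner := fun x y => B x y
      conj_inner_symm := fun x y => hs y x
      re_inner_nonneg := fun x => by
        by_cases h : x = 0
        · simp [h]
        · exact (hp x h).le
      add_left := fun x y z => by simp
      smul_left := fun x y r => by simp
      definite := fun x hx => by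
        by_contra h
        exact (hp x h).ne' hx }
  let : NormedAddCommGroup V := @InnerProductSpace.Core.toNormedAddCommGroup ℝ V _ _ _ c
  let : InnerProductSpace ℝ V := InnerProductSpace.ofCore c.toCore
  have hsym : LinearMap.IsSymmetric T := hT
  refine ⟨hsym.eigenvectorBasis rfl, hsym.eigenvalues rfl,
    orthonormal_iff_ite.1 (hsym.eigenvectorBasis rfl).orthonormal,
    fun x => ((hsym.eigenvectorBasis rfl).sum_repr' x).symm,
    fun i => hsym.apply_eigenvectorBasis rfl i, fun t => ?_⟩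
  exact hsym.card_filter_eigenvalues_eq rfl t

end BasisAux

theorem exists_onb {J : Matrix σ σ ℝ} (hJ : Jᵀ = -J) (l : ℕ) :
    ∃ (N : ℕ) (b : Fin N → MvPolynomial σ ℝ) (ν : Fin N → ℝ), ONB l b ∧
      (∀ i, Xop J (Xop J (b i)) = ν i • b i) ∧ N = Module.finrank ℝ (Hsp ℝ σ l) ∧
      ∀ t : ℝ, (Finset.univ.filter fun i => ν i = t).card =
        Module.finrank ℝ ↥(Hsp ℝ σ l ⊓ Module.End.eigenspace (Xop J * Xop J) t) := by
  have := finite_Hsp (σ := σ) (R := ℝ) l
  have hm : ∀ p ∈ Hsp ℝ σ l, (Xop J * Xop J) p ∈ Hsp ℝ σ l := fun p hp => Xop_mem hJ (Xop_mem hJ hp)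
  have hneg : Xop Jᵀ = -Xop J := by
    rw [hJ, ← neg_one_smul ℝ J, Xop_smul]
    exact neg_one_smul ℝ (Xop J)
  obtain ⟨b, ν, h1, h2, h3, h4⟩ := BasisAux.spectral
    (Fis.compl₁₂ (Hsp ℝ σ l).subtype (Hsp ℝ σ l).subtype) (fun x y => Fis_symm _ _)
    (fun x hx => Fis_pos fun h => hx (Subtype.ext h)) ((Xop J * Xop J).restrict hm) fun x y => by
      change Fis (Xop J (Xop J x)) (y : MvPolynomial σ ℝ) = Fis x.1 (Xop J (Xop J y))
      rw [Fis_Xop, Fis_Xop, hneg]
      simp
  refine ⟨_, fun i => b i, ν, ⟨fun i => (b i).2, h1, fun p hp => ?_⟩,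
    fun i => congrArg Subtype.val (h3 i), rfl, fun t => ?_⟩
  · have := congrArg Subtype.val (h2 ⟨p, hp⟩)
    simpa using this
  · rw [h4, ← Submodule.finrank_map_subtype_eq (Hsp ℝ σ l)]
    refine congrArg (fun W : Submodule ℝ (MvPolynomial σ ℝ) => Module.finrank ℝ W) ?_
    ext p
    simp only [Submodule.mem_map, Module.End.mem_eigenspace_iff, Submodule.mem_inf]
    constructor
    · rintro ⟨q, hq, rfl⟩
      exact ⟨q.2, congrArg Subtype.val hq⟩
    · rintro ⟨hp, h⟩
      exact ⟨⟨p, hp⟩, Subtype.ext h, rfl⟩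

end Vale.Agent.P225
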