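import Vale.Agent.P225.Met

namespace Vale.Agent.P225

open Vale.Agent.P255 Matrix Filter
open scoped ContDiff Topology

variable {σ : Type} [Fintype σ] [DecidableEq σ] {m : ℕ} {h η : ℝ → ℝ} {J : Matrix σ σ ℝ}

theorem IsCx.dot_x (hJ : IsCx J) (x y : σ → ℝ) : x ⬝ᵥ J *ᵥ y = -((J *ᵥ x) ⬝ᵥ y) := by
  rw [hJ.dot_left, neg_neg]

theorem IsCx.swap (hJ : IsCx J) (x y : σ → ℝ) : (J *ᵥ x) ⬝ᵥ y = -((J *ᵥ y) ⬝ᵥ x) := by
  rw [hJ.dot_left, dotProduct_comm]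

namespace ChrFAux

omit [DecidableEq σ] in
theorem dot (x u a : σ → ℝ) : HasDerivAt (fun t : ℝ => (x + t • u) ⬝ᵥ a) (u ⬝ᵥ a) 0 := by
  simp only [add_dotProduct, smul_dotProduct, smul_eq_mul]
  exact ((hasDerivAt_id' (0 : ℝ)).mul_const _).const_add _ |>.congr_deriv (one_mul _)

omit [DecidableEq σ] in
theorem dotJ (J : Matrix σ σ ℝ) (x u a : σ → ℝ) :
    HasDerivAt (fun t : ℝ => (J *ᵥ (x + t • u)) ⬝ᵥ a) ((J *ᵥ u) ⬝ᵥ a) 0 := by
  simp only [mulVec_add, mulVec_smul]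
  exact dot _ _ _

theorem rho (x u : σ → ℝ) :
    HasDerivAt (fun t : ℝ => (x + t • u) ⬝ᵥ (x + t • u)) (2 * (x ⬝ᵥ u)) 0 :=
  ((MetAux.fd x).hasLineDerivAt u).congr_deriv (by simp [bil_apply])

theorem comp {F : ℝ → ℝ} {F' : ℝ} {x : σ → ℝ} (hx : x ≠ 0) (hF : HasDerivAt F F' (sl x))
    (u : σ → ℝ) : HasDerivAt (fun t : ℝ => F (sl (x + t • u))) (F' * (x ⬝ᵥ u / x ⬝ᵥ x)) 0 := by
  have := ((contDiffAt_sl hx).differentiableAt (by simp)).hasFDerivAt.hasLineDerivAt u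
  rw [fderiv_sl hx] at this
  exact HasDerivAt.comp_of_eq (0 : ℝ) hF this (by simp)

omit [DecidableEq σ] in
theorem fd {f : (σ → ℝ) → ℝ} {x u : σ → ℝ} {c : ℝ} (hf : DifferentiableAt ℝ f x)
    (hc : HasDerivAt (fun t : ℝ => f (x + t • u)) c 0) : fderiv ℝ f x u = c :=
  HasDerivAt.unique (hf.hasFDerivAt.hasLineDerivAt u) hc

theorem dmet (hp : Prof h η) (hJ : IsCx J) {x : σ → ℝ} (hx : x ≠ 0) (u v w : σ → ℝ) :
    fderiv ℝ (met m h η J) x u v w =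
      2 * deriv h (sl x) * (x ⬝ᵥ u / x ⬝ᵥ x) * met m h η J x v w + Real.exp (2 * h (sl x)) *
      (-2 * deriv η (sl x) * Real.exp (-2 * η (sl x)) * (x ⬝ᵥ u / x ⬝ᵥ x) * (v ⬝ᵥ w) +
        (2 * deriv η (sl x) * Real.exp (-2 * η (sl x)) - 2 * (1 - Real.exp (-2 * η (sl x)))) *
          (x ⬝ᵥ u) / (x ⬝ᵥ x) ^ 2 * ((x ⬝ᵥ v) * (x ⬝ᵥ w)) +
        (1 - Real.exp (-2 * η (sl x))) / (x ⬝ᵥ x) * ((u ⬝ᵥ v) * (x ⬝ᵥ w) + (x ⬝ᵥ v) * (u ⬝ᵥ w)) +
        (4 * m * deriv η (sl x) * Real.exp (4 * m * η (sl x)) +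
          2 * deriv η (sl x) * Real.exp (-2 * η (sl x)) -
          2 * (Real.exp (4 * m * η (sl x)) - Real.exp (-2 * η (sl x)))) *
          (x ⬝ᵥ u) / (x ⬝ᵥ x) ^ 2 * (((J *ᵥ x) ⬝ᵥ v) * ((J *ᵥ x) ⬝ᵥ w)) +
        (Real.exp (4 * m * η (sl x)) - Real.exp (-2 * η (sl x))) / (x ⬝ᵥ x) *
          (((J *ᵥ u) ⬝ᵥ v) * ((J *ᵥ x) ⬝ᵥ w) + ((J *ᵥ x) ⬝ᵥ v) * ((J *ᵥ u) ⬝ᵥ w))) := by
  have hd := (met_isMetric (m := m) hp hJ).diff x
  rw [← hasFDerivAt_apply₂ hd]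
  refine fd ((hd.clm_apply (differentiableAt_const _)).clm_apply (differentiableAt_const _)) ?_
  have p := (dot_self_pos hx).ne'
  have dh := comp hx (hp.hs.differentiable (by simp) _).hasDerivAt u
  have de := comp hx (hp.es.differentiable (by simp) _).hasDerivAt u
  have dE := (de.const_mul (-2)).exp
  have dF := (de.const_mul (4 * (m : ℝ))).exp
  have p' : (x + (0 : ℝ) • u) ⬝ᵥ (x + (0 : ℝ) • u) ≠ 0 := by simpa using p
  simp only [met_apply]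
  refine ((dh.const_mul 2).exp.fun_mul (((dE.mul_const _).fun_add
    (((dE.const_sub 1).fun_div (rho x u) p').fun_mul ((dot x u v).fun_mul (dot x u w)))).fun_add
    (((dF.fun_sub dE).fun_div (rho x u) p').fun_mul
      ((dotJ J x u v).fun_mul (dotJ J x u w))))).congr_deriv ?_
  simp only [zero_smul, add_zero]
  field_simp
  ring

end ChrFAux

theorem chr_met (hp : Prof h η) (hJ : IsCx J) {x : σ → ℝ} (hx : x ≠ 0) (v w : σ → ℝ) :
    chr (met m h η J) x v w = GamQ (qf m h η) J x v w := by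
  have hg := met_isMetric (m := m) hp hJ
  refine hg.eq_of x fun u => ?_
  rw [← chrL_apply, hg.chr_spec, ChrFAux.dmet hp hJ hx, ChrFAux.dmet hp hJ hx,
    ChrFAux.dmet hp hJ hx]
  have p := (dot_self_pos hx).ne'
  have e : Real.exp ((4 * m + 2) * η (sl x)) =
      Real.exp (4 * m * η (sl x)) / Real.exp (-2 * η (sl x)) := by
    rw [← Real.exp_sub]; congr 1; ring
  have p2 := (Real.exp_pos (-2 * η (sl x))).ne'
  simp only [met_apply, GamQ, qf, cons_val_zero, cons_val_one, cons_val, e, add_dotProduct, dotProduct_add,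
    smul_dotProduct, dotProduct_smul, smul_eq_mul, hJ.dot_dot, hJ.dot_self, hJ.dot_x x,
    dotProduct_comm (J *ᵥ x) x, dotProduct_comm u v, dotProduct_comm u w, dotProduct_comm w v,
    hJ.swap u v, hJ.swap u w, hJ.swap w v]
  generalize Real.exp (-2 * η (sl x)) = E at *
  field_simp
  ring

end Vale.Agent.P225
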