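import Vale.Agent.P225.Xop

namespace Vale.Agent.P225

open Matrix MvPolynomial

variable {σ : Type} [Fintype σ] [DecidableEq σ] {R : Type} [Field R]

namespace Count0Aux

omit [Fintype σ] [DecidableEq σ] in
theorem finrank_supp (s : Finset (σ →₀ ℕ)) :
    Module.finrank R (restrictSupport R (s : Set (σ →₀ ℕ))) = s.card := by
  rw [Module.finrank_eq_card_basis (basisRestrictSupport R (s : Set (σ →₀ ℕ)))]
  simp

theorem rank_null {V V' : Type} [AddCommGroup V] [Module R V] [AddCommGroup V'] [Module R V']
    (T : V →ₗ[R] V') (U : Submodule R V) (U' : Submodule R V') [Module.Finite R U]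
    [Module.Finite R U'] (h : ∀ x ∈ U, T x ∈ U') :
    Module.finrank R U ≤ Module.finrank R ↥(U ⊓ LinearMap.ker T) + Module.finrank R U' := by
  have a := LinearMap.finrank_range_add_finrank_ker (T.domRestrict U)
  have b : Module.finrank R (LinearMap.range (T.domRestrict U)) ≤ Module.finrank R U' :=
    Submodule.finrank_mono (by rintro _ ⟨x, rfl⟩; exact h x x.2)
  have c : LinearMap.ker (T.domRestrict U) = (U ⊓ LinearMap.ker T).comap U.subtype := by
    ext x; simp
  rw [c, (Submodule.comapSubtypeEquivOfLe inf_le_left).finrank_eq] at a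
  omega

theorem card_anti {n : ℕ} (hn : Fintype.card σ = n + 1) (l : ℕ) :
    ((Finset.univ : Finset σ).finsuppAntidiag l).card = (l + n).choose n := by
  rw [Finset.card_finsuppAntidiag_nat_eq_choose, Finset.card_univ, hn,
    show n + 1 + l - 1 = l + n by omega, Nat.choose_symm_add]

end Count0Aux

open Count0Aux

theorem finrank_homog {n : ℕ} (hn : Fintype.card σ = n + 1) (l : ℕ) :
    Module.finrank R (homogeneousSubmodule σ R l) = (l + n).choose n := by
  have e : homogeneousSubmodule σ R l
      = restrictSupport R ((Finset.univ : Finset σ).finsuppAntidiag l : Set (σ →₀ ℕ)) := by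
    rw [homogeneousSubmodule_eq_finsupp_supported, restrictSupport]
    congr 1
    ext d
    simp [Finsupp.degree_eq_sum]
  rw [e, finrank_supp, card_anti hn]

theorem finrank_Hsp {n : ℕ} (hn : Fintype.card σ = n + 1) (l : ℕ) :
    (l + 2 + n).choose n ≤ Module.finrank R (Hsp R σ (l + 2)) + (l + n).choose n := by
  haveI : ∀ l, Module.Finite R (homogeneousSubmodule σ R l) := fun l =>
    Module.Finite.iff_fg.2 (homogeneousSubmodule_fg σ R l)
  rw [← finrank_homog (R := R) hn, ← finrank_homog (R := R) hn]
  refine rank_null Lap _ _ fun p hp => ?_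
  rw [Lap_apply]
  exact Submodule.sum_mem _ fun i _ => (IsHomogeneous.pderiv hp).pderiv

end Vale.Agent.P225
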