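import Vale.Agent.P225.PDefs

namespace Vale.Agent.P225

open Matrix

variable {σ : Type} [Fintype σ] [DecidableEq σ] {κ : Type} [Fintype κ] [DecidableEq κ]
  {O : Matrix (κ ⊕ κ) σ ℝ}

/-- inverse of the complex coordinates -/
noncomputable def Sinv (O : Matrix (κ ⊕ κ) σ ℝ) : Matrix σ (κ ⊕ κ) ℂ :=
  Matrix.of fun j t => Sfr O t.swap j / 2

namespace FrameAux

/-- the change from real to complex coordinates -/
def Cm (κ : Type) [DecidableEq κ] : Matrix (κ ⊕ κ) (κ ⊕ κ) ℂ :=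
  fromBlocks 1 (Complex.I • 1) 1 (-(Complex.I • 1))

/-- complexification of a real matrix -/
def cm {a b : Type} (A : Matrix a b ℝ) : Matrix a b ℂ := A.map (↑)

omit [Fintype σ] [DecidableEq σ] in
theorem Sfr_eq (O : Matrix (κ ⊕ κ) σ ℝ) : Sfr O = Cm κ * cm O := by
  ext t j
  rcases t with i | i <;>
    simp [Sfr, Cm, cm, Matrix.mul_apply, Fintype.sum_sum_type, Matrix.one_apply, sub_eq_add_neg]

theorem map_mul' {a b c : Type} [Fintype b] (A : Matrix a b ℝ) (B : Matrix b c ℝ) :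
    cm (A * B) = cm A * cm B :=
  Matrix.map_mul (f := Complex.ofRealHom)

theorem map_one' {a : Type} [DecidableEq a] : cm (1 : Matrix a a ℝ) = 1 :=
  Matrix.map_one _ Complex.ofReal_zero Complex.ofReal_one

theorem cm_transpose {a b : Type} (A : Matrix a b ℝ) : (cm A)ᵀ = cm Aᵀ := rfl

end FrameAux

open FrameAux

theorem IsFrame.cx (hO : IsFrame O) {ε : κ → ℝ} (hε : ∀ i, ε i = 1 ∨ ε i = -1) :
    IsCx (Jfr O ε) := by
  have h1 : (fromBlocks 0 (-diagonal ε) (diagonal ε) 0 : Matrix (κ ⊕ κ) (κ ⊕ κ) ℝ)ᵀ =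
      -fromBlocks 0 (-diagonal ε) (diagonal ε) 0 := by
    rw [fromBlocks_transpose, fromBlocks_neg]
    simp
  have h2 : (diagonal ε : Matrix κ κ ℝ) * diagonal ε = 1 := by
    rw [diagonal_mul_diagonal, ← diagonal_one]
    congr 1
    funext i
    rcases hε i with h | h <;> simp [h]
  have h3 : (fromBlocks 0 (-diagonal ε) (diagonal ε) 0 : Matrix (κ ⊕ κ) (κ ⊕ κ) ℝ) *
      fromBlocks 0 (-diagonal ε) (diagonal ε) 0 = -1 := by
    rw [fromBlocks_multiply, ← fromBlocks_one, fromBlocks_neg]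
    simp only [Matrix.zero_mul, Matrix.mul_zero, Matrix.neg_mul, Matrix.mul_neg, h2, zero_add,
      add_zero, neg_zero]
  refine ⟨?_, ?_⟩
  · rw [Jfr, transpose_mul, transpose_mul, transpose_transpose, h1]
    simp [Matrix.mul_assoc]
  · rw [Jfr, Matrix.mul_assoc, Matrix.mul_assoc, ← Matrix.mul_assoc O, ← Matrix.mul_assoc O, hO.1,
      Matrix.one_mul, ← Matrix.mul_assoc _ _ O, h3, Matrix.neg_mul, Matrix.one_mul, Matrix.mul_neg,
      hO.2]

theorem IsFrame.S_J (hO : IsFrame O) (ε : κ → ℝ) :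
    Sfr O * (Jfr O ε).map (↑) = Jd ε * Sfr O := by
  have h : Cm κ * cm (fromBlocks 0 (-diagonal ε) (diagonal ε) 0) = Jd ε * Cm κ := by
    ext t u
    rcases t with i | i <;> rcases u with j | j <;>
      simp [Cm, cm, Jd, Matrix.mul_apply, Fintype.sum_sum_type, Matrix.one_apply, diagonal_apply,
        apply_ite ((↑) : ℝ → ℂ)] <;> split_ifs with e <;> simp [e, mul_comm, ← mul_assoc]
  change Sfr O * cm (Jfr O ε) = _
  rw [Sfr_eq, Matrix.mul_assoc, ← map_mul', Jfr, ← Matrix.mul_assoc, ← Matrix.mul_assoc, hO.1,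
    Matrix.one_mul, map_mul', ← Matrix.mul_assoc, h, Matrix.mul_assoc]

theorem IsFrame.S_St (hO : IsFrame O) (t u : κ ⊕ κ) :
    (Sfr O * (Sfr O)ᵀ) t u = if u = t.swap then 2 else 0 := by
  rw [Sfr_eq, transpose_mul, Matrix.mul_assoc, ← Matrix.mul_assoc (cm O), cm_transpose,
    ← map_mul', hO.1, map_one', Matrix.one_mul]
  rcases t with i | i <;> rcases u with j | j <;>
    simp [Cm, Matrix.mul_apply, Fintype.sum_sum_type, Matrix.one_apply, eq_comm] <;>
    split_ifs <;> norm_num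

theorem IsFrame.S_Sinv (hO : IsFrame O) : Sfr O * Sinv O = 1 := by
  ext t u
  have h := hO.S_St t u.swap
  rw [Matrix.mul_apply] at h ⊢
  simp only [Sinv, of_apply, transpose_apply, ← mul_div_assoc, ← Finset.sum_div] at h ⊢
  rw [h, Matrix.one_apply]
  simp only [Sum.swap_leftInverse.injective.eq_iff, eq_comm (a := u)]
  split_ifs <;> norm_num

theorem IsFrame.Sinv_S (hO : IsFrame O) : Sinv O * Sfr O = 1 := by
  have h : Sinv O = cm Oᵀ * ((1 / 2 : ℂ) • fromBlocks 1 1 (-(Complex.I • 1)) (Complex.I • 1) :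
      Matrix (κ ⊕ κ) (κ ⊕ κ) ℂ) := by
    ext j t
    rcases t with i | i <;>
      simp [Sinv, Sfr, cm, Matrix.mul_apply, Fintype.sum_sum_type, Matrix.one_apply] <;> ring
  have h2 : ((1 / 2 : ℂ) • fromBlocks 1 1 (-(Complex.I • 1)) (Complex.I • 1) :
      Matrix (κ ⊕ κ) (κ ⊕ κ) ℂ) * Cm κ = 1 := by
    ext t u
    rcases t with i | i <;> rcases u with j | j <;>
      simp [Cm, Matrix.mul_apply, Fintype.sum_sum_type, Matrix.one_apply] <;>
      split_ifs <;> (try simp [mul_assoc]) <;> norm_num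
  rw [h, Sfr_eq, Matrix.mul_assoc, ← Matrix.mul_assoc _ (Cm κ), h2, Matrix.one_mul, ← map_mul',
    hO.2, map_one']

theorem el_skew (O : Matrix (κ ⊕ κ) σ ℝ) (t u : κ ⊕ κ) :
    (Sinv O * el t u * Sfr O)ᵀ = -(Sinv O * el t u * Sfr O) := by
  have h : ∀ (t u : κ ⊕ κ) (i j : σ), (Sinv O * Matrix.single t u (1 : ℂ) * Sfr O) i j =
      Sfr O t.swap i / 2 * Sfr O u j := by
    intro t u i j
    rw [Matrix.mul_apply, Finset.sum_eq_single u]
    · rw [Matrix.mul_single_apply_same, mul_one]; rfl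
    · intro v _ hv
      rw [Matrix.mul_single_apply_of_ne _ _ _ _ _ hv, zero_mul]
    · simp
  ext i j
  simp only [el, Matrix.mul_sub, Matrix.sub_mul, transpose_apply, Matrix.neg_apply,
    Matrix.sub_apply, h, Sum.swap_swap]
  ring

theorem exists_frame (e : σ ≃ κ ⊕ κ) : ∃ O : Matrix (κ ⊕ κ) σ ℝ, IsFrame O := by
  refine ⟨(1 : Matrix σ σ ℝ).submatrix e.symm id, ?_, ?_⟩
  · ext t u
    simp [Matrix.mul_apply, Matrix.one_apply, eq_comm]
  · ext i j
    rw [Matrix.mul_apply, ← e.sum_comp]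
    simp [Matrix.one_apply, eq_comm]

theorem exists_frame_null (e : σ ≃ κ ⊕ κ) (i : κ) {a : σ → ℂ} (ha : a ⬝ᵥ a = 0) (h0 : a ≠ 0) :
    ∃ (O : Matrix (κ ⊕ κ) σ ℝ) (r : ℂ), IsFrame O ∧ r ≠ 0 ∧ a = r • Sfr O (.inl i) := by
  let p : EuclideanSpace ℝ σ := WithLp.toLp 2 fun j => (a j).re
  let q : EuclideanSpace ℝ σ := WithLp.toLp 2 fun j => (a j).im
  have h1 : inner ℝ p p = inner ℝ q q := by
    have := congrArg Complex.re ha
    simp only [dotProduct, Complex.re_sum, Complex.mul_re, Complex.zero_re,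
      Finset.sum_sub_distrib] at this
    simp only [p, q, PiLp.inner_apply, RCLike.inner_apply, conj_trivial]
    linarith
  have h2 : inner ℝ p q = 0 := by
    have := congrArg Complex.im ha
    simp only [dotProduct, Complex.im_sum, Complex.mul_im, Complex.zero_im,
      Finset.sum_add_distrib, mul_comm (a _).re] at this
    simp only [p, q, PiLp.inner_apply, RCLike.inner_apply, conj_trivial]
    linarith
  have h3 : ‖p‖ = ‖q‖ := by
    rw [real_inner_self_eq_norm_sq, real_inner_self_eq_norm_sq] at h1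
    exact (pow_left_inj₀ (norm_nonneg _) (norm_nonneg _) two_ne_zero).1 h1
  have h4 : ‖p‖ ≠ 0 := fun h => h0 (funext fun j => by
    have e1 : p j = 0 := by rw [norm_eq_zero.1 h]; rfl
    have e2 : q j = 0 := by rw [norm_eq_zero.1 (h3.symm.trans h)]; rfl
    exact Complex.ext e1 e2)
  let v : κ ⊕ κ → EuclideanSpace ℝ σ := Sum.elim (fun _ => ‖p‖⁻¹ • p) fun _ => ‖p‖⁻¹ • q
  have hv : Orthonormal ℝ (({Sum.inl i, Sum.inr i} : Set (κ ⊕ κ)).restrict v) := by
    refine ⟨?_, ?_⟩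
    · rintro ⟨_, rfl | rfl⟩
      · change ‖‖p‖⁻¹ • p‖ = 1
        simp [norm_smul, h4]
      · change ‖‖p‖⁻¹ • q‖ = 1
        simp [norm_smul, ← h3, h4]
    · rintro ⟨_, rfl | rfl⟩ ⟨_, rfl | rfl⟩ h
      · exact absurd rfl h
      · change inner ℝ (‖p‖⁻¹ • p) (‖p‖⁻¹ • q) = 0
        simp [inner_smul_left, inner_smul_right, h2]
      · change inner ℝ (‖p‖⁻¹ • q) (‖p‖⁻¹ • p) = 0
        rw [real_inner_comm]
        simp [inner_smul_left, inner_smul_right, h2]
      · exact absurd rfl h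
  obtain ⟨b, hb⟩ := Orthonormal.exists_orthonormalBasis_extension_of_card_eq
    (by rw [finrank_euclideanSpace, Fintype.card_congr e]) hv
  have hO : (Matrix.of fun t j => b t j) * (Matrix.of fun t j => b t j)ᵀ = 1 := by
    ext t u
    have := orthonormal_iff_ite.1 b.orthonormal t u
    simp only [PiLp.inner_apply, RCLike.inner_apply, conj_trivial] at this
    rw [Matrix.mul_apply, Matrix.one_apply, ← this]
    exact Finset.sum_congr rfl fun j _ => mul_comm _ _
  refine ⟨Matrix.of fun t j => b t j, (‖p‖ : ℂ), ⟨hO, (mul_eq_one_comm_of_equiv e.symm).1 hO⟩,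
    by exact_mod_cast h4, funext fun j => ?_⟩
  have h5 : (‖p‖ : ℂ) ≠ 0 := by exact_mod_cast h4
  simp only [Sfr, Pi.smul_apply, of_apply, Sum.elim_inl, hb (Sum.inl i) (by simp),
    hb (Sum.inr i) (by simp), v, Sum.elim_inr, PiLp.smul_apply, smul_eq_mul]
  change a j = _ * (((‖p‖⁻¹ * (a j).re : ℝ) : ℂ) + Complex.I * ((‖p‖⁻¹ * (a j).im : ℝ) : ℂ))
  push_cast
  field_simp
  rw [mul_comm, Complex.re_add_im]

end Vale.Agent.P225
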