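import Vale.Agent.P225.Subst
import Vale.Agent.P225.Frame
import Vale.Agent.P225.Count0

namespace Vale.Agent.P225

open Matrix MvPolynomial

variable {σ : Type} [Fintype σ] [DecidableEq σ] {κ : Type} [Fintype κ] [DecidableEq κ]
  {O : Matrix (κ ⊕ κ) σ ℝ}

namespace CountAux

theorem coeff_diag {τ : Type} [Fintype τ] [DecidableEq τ] (d : τ → ℂ) (P : MvPolynomial τ ℂ)
    (α : τ →₀ ℕ) : coeff α (Xop (diagonal d) P) = (∑ t, d t * α t) * coeff α P := by
  have e : ∀ t, lin (diagonal d t) = d t • (X t : MvPolynomial τ ℂ) := fun t => by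
    rw [lin, Finset.sum_eq_single t (fun u _ hu => by simp [diagonal, hu.symm]) (by simp)]
    simp
  induction P using MvPolynomial.induction_on' with
  | add p q hp hq => simp only [map_add, coeff_add, hp, hq, mul_add]
  | monomial β a =>
    simp only [Xop_apply, e, smul_mul_assoc, X_mul_pderiv_monomial, coeff_sum, coeff_smul,
      coeff_monomial, Finset.sum_mul]
    refine Finset.sum_congr rfl fun t _ => ?_
    split_ifs with h
    · subst h; simp [mul_assoc]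
    · simp

def dl (α : (κ ⊕ κ) →₀ ℕ) : ℕ := ∑ i, α (.inl i)
def dr (α : (κ ⊕ κ) →₀ ℕ) : ℕ := ∑ i, α (.inr i)

theorem coeff_Jd (P : MvPolynomial (κ ⊕ κ) ℂ) (α : (κ ⊕ κ) →₀ ℕ) :
    coeff α (Xop (Jd 1) (Xop (Jd 1) P)) = -((dl α : ℂ) - dr α) ^ 2 * coeff α P := by
  have e : ∑ t, Sum.elim (fun i : κ => Complex.I * ((1 : κ → ℝ) i : ℂ))
      (fun i => -(Complex.I * ((1 : κ → ℝ) i : ℂ))) t * (α t : ℂ)
      = Complex.I * ((dl α : ℂ) - dr α) := by
    simp [Fintype.sum_sum_type, dl, dr, Finset.mul_sum, sub_eq_add_neg, mul_add, mul_neg]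
  rw [Jd, coeff_diag, coeff_diag, e]
  linear_combination (((dl α : ℂ) - dr α) ^ 2 * coeff α P) * Complex.I_mul_I

omit [DecidableEq κ] in
theorem degree_eq (α : (κ ⊕ κ) →₀ ℕ) : α.degree = dl α + dr α := by
  rw [Finsupp.degree_eq_sum, Fintype.sum_sum_type]; rfl

noncomputable def bi (κ : Type) [Fintype κ] [DecidableEq κ] (a b : ℕ) : Finset ((κ ⊕ κ) →₀ ℕ) :=
  ((Finset.univ : Finset κ).finsuppAntidiag a ×ˢ (Finset.univ : Finset κ).finsuppAntidiag b).map
    Finsupp.sumFinsuppEquivProdFinsupp.symm.toEmbedding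

theorem mem_bi {a b : ℕ} {α : (κ ⊕ κ) →₀ ℕ} : α ∈ bi κ a b ↔ dl α = a ∧ dr α = b := by
  rw [bi, Finset.mem_map_equiv]
  simp [dl, dr]
  rfl

theorem card_bi2 {m : ℕ} (hm : Fintype.card κ = m + 1) {a b : ℕ} (h : b < a) :
    (bi κ a b ∪ bi κ b a).card = 2 * ((a + m).choose m * (b + m).choose m) := by
  rw [Finset.card_union_of_disjoint (Finset.disjoint_left.2 fun α h1 h2 => by
    rw [mem_bi] at h1 h2; omega)]
  simp only [bi, Finset.card_map, Finset.card_product, Count0Aux.card_anti hm]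
  ring

theorem real_le (W : Submodule ℝ (MvPolynomial σ ℝ)) [Module.Finite ℝ W]
    (U : Submodule ℂ (MvPolynomial σ ℂ))
    (h : ∀ p₁ p₂, cpx p₁ + Complex.I • cpx p₂ ∈ U → p₁ ∈ W ∧ p₂ ∈ W) :
    Module.finrank ℂ U ≤ Module.finrank ℝ W := by
  let b := Module.finBasis ℝ W
  have a : ∀ p ∈ W, cpx p ∈ Submodule.span ℂ (Set.range fun i => cpx (b i : MvPolynomial σ ℝ)) := by
    intro p hp
    have e := congrArg (fun x : W => cpx (x : MvPolynomial σ ℝ)) (b.sum_repr ⟨p, hp⟩)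
    simp only [Submodule.coe_sum, Submodule.coe_smul, cpx_sum, cpx_smul] at e
    rw [← e]
    exact Submodule.sum_mem _ fun i _ =>
      Submodule.smul_mem _ _ (Submodule.subset_span ⟨i, rfl⟩)
  haveI := Module.Finite.span_of_finite ℂ (Set.finite_range fun i => cpx (b i : MvPolynomial σ ℝ))
  refine (Submodule.finrank_mono (t := Submodule.span ℂ (Set.range fun i => cpx (b i : MvPolynomial σ ℝ)))
    fun P hP => ?_).trans ((finrank_range_le_card _).trans (by simp))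
  obtain ⟨p₁, p₂, rfl⟩ := exists_re_im P
  exact Submodule.add_mem _ (a _ (h _ _ hP).1) (Submodule.smul_mem _ _ (a _ (h _ _ hP).2))

theorem conj {τ : Type} [Fintype τ] [DecidableEq τ] {S : Matrix τ σ ℂ} {T : Matrix σ τ ℂ}
    {A : Matrix σ σ ℂ} {B : Matrix τ τ ℂ} (h1 : S * T = 1) (h2 : T * S = 1) (h : S * A = B * S) :
    T * B = A * T := by
  calc T * B = T * (B * S) * T := by rw [Matrix.mul_assoc, Matrix.mul_assoc, h1, Matrix.mul_one]
    _ = _ := by rw [← h, ← Matrix.mul_assoc, h2, Matrix.one_mul]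

end CountAux

open CountAux

theorem eig_sq (hO : IsFrame O) {l : ℕ} {p : MvPolynomial σ ℝ} (hp : p.IsHomogeneous l)
    (h0 : p ≠ 0) {ν : ℝ} (h : Xop (Jfr O 1) (Xop (Jfr O 1) p) = ν • p) :
    -(l : ℝ) ^ 2 ≤ ν ∧ ν ≤ 0 := by
  have e := conj hO.S_Sinv hO.Sinv_S (hO.S_J 1)
  set P := subst (Sinv O) (cpx p) with hP
  have P0 : P ≠ 0 := fun c => h0 (re_im_eq_zero (p₂ := 0) (by
    rw [← subst_subst_of hO.Sinv_S (cpx p), ← hP, c]; simp [cpx])).1
  obtain ⟨α, hα⟩ := exists_coeff_ne_zero P0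
  have hd : dl α + dr α = l := by
    by_contra c
    exact hα ((subst_homog _ (hp.map _)).coeff_eq_zero (by rwa [degree_eq]))
  have a := coeff_Jd P α
  rw [hP, subst_Xop e, subst_Xop e, ← cpx_Xop, ← cpx_Xop, h, cpx_smul, map_smul, coeff_smul,
    smul_eq_mul] at a
  have b : ν = -((dl α : ℝ) - dr α) ^ 2 := by exact_mod_cast mul_right_cancel₀ hα a
  have c : (l : ℝ) = dl α + dr α := by exact_mod_cast hd.symm
  have d := mul_nonneg (Nat.cast_nonneg (α := ℝ) (dl α)) (Nat.cast_nonneg (α := ℝ) (dr α))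
  rw [b, c]
  exact ⟨by nlinarith, neg_nonpos.2 (sq_nonneg _)⟩

theorem finrank_eig (hO : IsFrame O) {m : ℕ} (hm : Fintype.card κ = m + 1) {p q : ℕ} (hpq : q < p) :
    2 * ((p + 1 + m).choose m * (q + 1 + m).choose m) ≤
      Module.finrank ℝ ↥(Hsp ℝ σ (p + q + 2) ⊓
        Module.End.eigenspace (Xop (Jfr O 1) * Xop (Jfr O 1)) (-((p : ℝ) - q) ^ 2))
      + 2 * ((p + m).choose m * (q + m).choose m) := by
  let D : Module.End ℂ (MvPolynomial (κ ⊕ κ) ℂ) := ∑ t, ∑ u, (Sfr O * (Sfr O)ᵀ) t u •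
    ((pderiv t).toLinearMap ∘ₗ (pderiv u).toLinearMap)
  have hD : ∀ P, D P = ∑ t, ∑ u, (Sfr O * (Sfr O)ᵀ) t u • pderiv t (pderiv u P) := fun P => by
    simp [D, LinearMap.sum_apply]
  set U := restrictSupport ℂ ((bi κ (p + 1) (q + 1) ∪ bi κ (q + 1) (p + 1) : Finset _) :
    Set ((κ ⊕ κ) →₀ ℕ)) with hU
  set U' := restrictSupport ℂ ((bi κ p q ∪ bi κ q p : Finset _) : Set ((κ ⊕ κ) →₀ ℕ)) with hU'
  haveI : Module.Finite ℂ U := Module.Finite.of_basis (basisRestrictSupport ℂ _)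
  haveI : Module.Finite ℂ U' := Module.Finite.of_basis (basisRestrictSupport ℂ _)
  have mU : ∀ P ∈ U, ∀ α, coeff α P ≠ 0 →
      (dl α = p + 1 ∧ dr α = q + 1) ∨ (dl α = q + 1 ∧ dr α = p + 1) := fun P hP α hα => by
    have := (mem_restrictSupport_iff ℂ).1 hP (Finset.mem_coe.2 (mem_support_iff.2 hα))
    simpa only [Finset.mem_coe, Finset.mem_union, mem_bi] using this
  have a := Count0Aux.rank_null D U U' fun P hP => (mem_restrictSupport_iff ℂ).2 fun α hα => by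
    have hα := mem_support_iff.1 (Finset.mem_coe.1 hα)
    rw [hD, coeff_sum] at hα
    obtain ⟨t, -, ht⟩ := Finset.exists_ne_zero_of_sum_ne_zero hα
    rw [coeff_sum] at ht
    obtain ⟨u, -, hu⟩ := Finset.exists_ne_zero_of_sum_ne_zero ht
    rw [coeff_smul, hO.S_St, coeff_pderiv, coeff_pderiv] at hu
    have e : u = t.swap := by
      by_contra c
      simp [c] at hu
    have b := mU P hP _ (left_ne_zero_of_mul (left_ne_zero_of_mul (right_ne_zero_of_smul hu)))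
    have c : dl (α + Finsupp.single t 1 + Finsupp.single u 1) = dl α + 1 ∧
        dr (α + Finsupp.single t 1 + Finsupp.single u 1) = dr α + 1 := by
      subst e
      cases t <;> simp [dl, dr, Finset.sum_add_distrib, Finsupp.single_apply]
    simp only [Finset.mem_coe, Finset.mem_union, mem_bi]
    omega
  rw [hU, hU', Count0Aux.finrank_supp, Count0Aux.finrank_supp, card_bi2 hm (by omega),
    card_bi2 hm hpq, ← hU] at a
  refine a.trans (Nat.add_le_add_right ?_ _)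
  have inj : Function.Injective (subst (Sfr O)).toLinearMap :=
    Function.LeftInverse.injective (subst_subst_of hO.S_Sinv)
  rw [(Submodule.equivMapOfInjective _ inj _).finrank_eq]
  haveI := finite_Hsp (R := ℝ) (σ := σ) (p + q + 2)
  haveI := Submodule.finiteDimensional_of_le (inf_le_left : Hsp ℝ σ (p + q + 2) ⊓
    Module.End.eigenspace (Xop (Jfr O 1) * Xop (Jfr O 1)) (-((p : ℝ) - q) ^ 2) ≤ _)
  refine real_le _ _ ?_
  rintro p₁ p₂ ⟨P, ⟨hP, hP0⟩, e⟩
  change subst (Sfr O) P = _ at e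
  have h1 : cpx p₁ + Complex.I • cpx p₂ ∈ Hsp ℂ σ (p + q + 2) := by
    rw [← e]
    refine mem_Hsp.2 ⟨subst_homog _ fun α hα => ?_, by
      rw [Lap_subst, ← hD, LinearMap.mem_ker.1 hP0, map_zero]⟩
    have := mU P hP α hα
    rw [show Finsupp.weight 1 α = α.degree from
      (DFunLike.congr_fun Finsupp.degree_eq_weight_one α).symm, degree_eq]
    omega
  have h2 : Xop (Jd 1) (Xop (Jd 1) P) = ((-((p : ℝ) - q) ^ 2 : ℝ) : ℂ) • P := by
    ext α
    rw [coeff_Jd, coeff_smul, smul_eq_mul]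
    by_cases hα : coeff α P = 0
    · simp [hα]
    rcases mU P hP α hα with ⟨c, d⟩ | ⟨c, d⟩ <;> rw [c, d] <;> push_cast <;> ring
  have h3 := congrArg (subst (Sfr O)) h2
  rw [← subst_Xop (hO.S_J 1), ← subst_Xop (hO.S_J 1), map_smul, e] at h3
  simp only [map_add, map_smul, ← cpx_Xop] at h3
  have h4 := re_im_eq_zero
    (p₁ := Xop (Jfr O 1) (Xop (Jfr O 1) p₁) + (-(-((p : ℝ) - q) ^ 2)) • p₁)
    (p₂ := Xop (Jfr O 1) (Xop (Jfr O 1) p₂) + (-(-((p : ℝ) - q) ^ 2)) • p₂) (by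
      rw [cpx_add, cpx_add, cpx_smul, cpx_smul, smul_add, add_add_add_comm, h3, Complex.ofReal_neg
        (-((p : ℝ) - q) ^ 2)]
      module)
  simp only [neg_smul (-((p : ℝ) - q) ^ 2), add_neg_eq_zero] at h4
  exact ⟨⟨(re_im_mem h1).1, Module.End.mem_eigenspace_iff.2 h4.1⟩,
    ⟨(re_im_mem h1).2, Module.End.mem_eigenspace_iff.2 h4.2⟩⟩

end Vale.Agent.P225
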