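import Vale.Agent.P225.ODefs
import Vale.Agent.P371.Ode

namespace Vale.Agent.P225

open Set Filter NormedSpace
open scoped Topology

variable {A : Type} [NormedRing A] [NormedAlgebra ℝ A] [FiniteDimensional ℝ A]

namespace CtrlAux

variable {L : Type} {Y : L → A} {Z : Submodule ℝ A}

theorem exp_add' {x y : A} (h : Commute x y) : exp (x + y) = exp x * exp y := by
  let _ : NormedAlgebra ℚ A := .restrictScalars ℚ ℝ A
  have := FiniteDimensional.complete ℝ A
  exact exp_add_of_commute h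

theorem exp_cont : Continuous (exp : A → A) := by
  let _ : NormedAlgebra ℚ A := .restrictScalars ℚ ℝ A
  have := FiniteDimensional.complete ℝ A
  exact exp_continuous

theorem exp_mul_neg (x : A) : exp x * exp (-x) = 1 := by
  rw [← exp_add' (Commute.refl x).neg_right, add_neg_cancel, exp_zero]

/-- the exponential as a unit -/
noncomputable def eu (x : A) : Aˣ :=
  ⟨exp x, exp (-x), exp_mul_neg x, by simpa using exp_mul_neg (-x)⟩

theorem exp_conj (x y : A) : exp (exp x * y * exp (-x)) = exp x * exp y * exp (-x) := by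
  let _ : NormedAlgebra ℚ A := .restrictScalars ℚ ℝ A
  have := FiniteDimensional.complete ℝ A
  exact exp_units_conj (eu x) y

omit [FiniteDimensional ℝ A] in
theorem word_congr {Y Y' : ℕ → A} {p p' : ℕ → ℝ} {M : ℕ}
    (h : ∀ i < M, Y i = Y' i ∧ p i = p' i) : wordP Y p M = wordP Y' p' M := by
  induction M with
  | zero => rfl
  | succ M ih =>
    rw [wordP, wordP, ih fun i hi => h i (by omega), (h M (by omega)).1, (h M (by omega)).2]

theorem word_cont (Y : ℕ → A) (M : ℕ) : Continuous fun p => wordP Y p M := by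
  induction M with
  | zero => exact continuous_const
  | succ M ih => exact (exp_cont.comp (by fun_prop)).mul ih

/-- families of words with continuous parameters -/
def Rep (Y : L → A) (Z : Submodule ℝ A) (F : A → A) : Prop :=
  ∃ (M : ℕ) (lab : ℕ → L) (p : A → ℕ → ℝ) (z : A → A), Continuous p ∧ Continuous z ∧
    (∀ v, z v ∈ Z) ∧ ∀ v, F v = exp (z v) * wordP (fun i => Y (lab i)) (p v) M

theorem Rep.cont {F : A → A} (h : Rep Y Z F) : Continuous F := by
  obtain ⟨M, lab, p, z, hp, hz, -, e⟩ := h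
  rw [funext e]
  exact (exp_cont.comp hz).mul ((word_cont _ M).comp hp)

omit [FiniteDimensional ℝ A] in
theorem Rep.one [Nonempty L] : Rep Y Z fun _ => 1 :=
  ⟨0, fun _ => Classical.arbitrary L, 0, 0, continuous_const, continuous_const,
    fun _ => Z.zero_mem, fun _ => by simp [wordP]⟩

omit [FiniteDimensional ℝ A] in
theorem Rep.comp {F c : A → A} (h : Rep Y Z F) (hc : Continuous c) : Rep Y Z fun v => F (c v) := by
  obtain ⟨M, lab, p, z, hp, hz, hm, e⟩ := h
  exact ⟨M, lab, p ∘ c, z ∘ c, hp.comp hc, hz.comp hc, fun v => hm _, fun v => e _⟩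

variable (hZ : ∀ z ∈ Z, ∀ a, Commute z a)
include hZ

omit [FiniteDimensional ℝ A] in
theorem Rep.step {F : A → A} (h : Rep Y Z F) {t : A → ℝ} (ht : Continuous t) (j : L) :
    Rep Y Z fun v => exp (t v • Y j) * F v := by
  obtain ⟨M, lab, p, z, hp, hz, hm, e⟩ := h
  refine ⟨M + 1, Function.update lab M j, fun v => Function.update (p v) M (t v), z,
    hp.update M ht, hz, hm, fun v => ?_⟩
  beta_reduce
  rw [wordP, Function.update_self, Function.update_self, e, ← mul_assoc, ← mul_assoc,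
    (hZ _ (hm v) _).exp_left.eq]
  congr 1
  exact word_congr fun i hi => by simp [Function.update_of_ne hi.ne]

theorem Rep.cen {F : A → A} (h : Rep Y Z F) {t : A → A} (ht : Continuous t) (hm' : ∀ v, t v ∈ Z) :
    Rep Y Z fun v => exp (t v) * F v := by
  obtain ⟨M, lab, p, z, hp, hz, hm, e⟩ := h
  exact ⟨M, lab, p, t + z, hp, ht.add hz, fun v => Z.add_mem (hm' v) (hm v), fun v => by
    beta_reduce
    rw [e, Pi.add_apply, exp_add' (hZ _ (hm' v) _), mul_assoc]⟩

theorem Rep.mul {F F' : A → A} (h : Rep Y Z F) (h' : Rep Y Z F') :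
    Rep Y Z fun v => F v * F' v := by
  obtain ⟨M, lab, p, z, hp, hz, hm, e⟩ := h
  have : ∀ M, Rep Y Z fun v => wordP (fun i => Y (lab i)) (p v) M * F' v := by
    intro M
    induction M with
    | zero => simpa [wordP] using h'
    | succ M ih =>
      simpa only [wordP, mul_assoc] using
        ih.step hZ (t := fun v => p v M) ((continuous_apply M).comp hp) (lab M)
  simpa only [e, mul_assoc] using (this M).cen hZ hz hm

omit hZ in
/-- directions whose one parameter groups are words -/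
def T (Y : L → A) (Z : Submodule ℝ A) : Set A :=
  {x | ∀ t : A → ℝ, Continuous t → Rep Y Z fun v => exp (t v • x)}

theorem span_T [Nonempty L]
    (hgen : ∀ W : Submodule ℝ A, (∀ x ∈ W, ∀ y ∈ W, x * y - y * x ∈ W) → (∀ j, Y j ∈ W) →
      Z ≤ W → W = ⊤) : Submodule.span ℝ (T Y Z) = ⊤ := by
  have := FiniteDimensional.complete ℝ A
  have key : ∀ x ∈ T Y Z, ∀ y ∈ T Y Z, x * y - y * x ∈ Submodule.span ℝ (T Y Z) := by
    intro x hx y hy
    have h1 : ∀ s : ℝ, exp (s • x) * y * exp ((-s) • x) ∈ Submodule.span ℝ (T Y Z) := fun s =>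
      Submodule.subset_span fun t ht => by
        have := ((hx _ (continuous_const (y := s))).mul hZ (hy t ht)).mul hZ
          (hx _ (continuous_const (y := -s)))
        simp only [neg_smul] at this ⊢
        simpa only [← exp_conj, mul_smul_comm, smul_mul_assoc] using this
    have h2 := ((hasDerivAt_exp_smul_const (𝕂 := ℝ) x (0 : ℝ)).mul_const y).mul
      ((hasDerivAt_exp_smul_const (𝕂 := ℝ) x (-0 : ℝ)).scomp (0 : ℝ) (hasDerivAt_neg (0 : ℝ)))
    have h3 := (Submodule.closed_of_finiteDimensional _).mem_of_tendsto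
      (hasDerivAt_iff_tendsto_slope.1 h2) (Eventually.of_forall fun s =>
        Submodule.smul_mem _ _ (Submodule.sub_mem _ (h1 s) (h1 0)))
    simpa [sub_eq_add_neg] using h3
  refine hgen _ (fun x hx y hy => ?_) (fun j => Submodule.subset_span fun t ht => ?_)
    fun z hz => Submodule.subset_span fun t ht => ?_
  · induction hx, hy using Submodule.span_induction₂ with
    | mem_mem x y hx hy => exact key x hx y hy
    | zero_left => simp
    | zero_right => simp
    | add_left x y z _ _ _ h1 h2 => convert add_mem h1 h2 using 1; noncomm_ring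
    | add_right x y z _ _ _ h1 h2 => convert add_mem h1 h2 using 1; noncomm_ring
    | smul_left r x y _ _ h => convert Submodule.smul_mem _ r h using 1; simp [smul_sub]
    | smul_right r x y _ _ h => convert Submodule.smul_mem _ r h using 1; simp [smul_sub]
  · simpa using Rep.one.step hZ ht j
  · simpa using (Rep.one (Y := Y)).cen hZ (ht.smul (continuous_const (y := z)))
      fun v => Z.smul_mem _ hz

theorem exists_chart [Nonempty L] (h : Submodule.span ℝ (T Y Z) = ⊤) :
    ∃ Φ, Rep Y Z Φ ∧ Φ 0 = 1 ∧ HasFDerivAt Φ (ContinuousLinearMap.id ℝ A) 0 := by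
  have := FiniteDimensional.complete ℝ A
  let b := Module.Basis.ofSpan h.ge
  let _ := FiniteDimensional.fintypeBasisIndex b
  have e : ∑ i, (LinearMap.toContinuousLinearMap (b.coord i)).smulRight (b i) =
      ContinuousLinearMap.id ℝ A := by
    ext v
    simp
  rw [← e]
  refine Finset.sum_induction _ (fun D : A →L[ℝ] A => ∃ Φ, Rep Y Z Φ ∧ Φ 0 = 1 ∧ HasFDerivAt Φ D 0)
    ?_ ⟨_, Rep.one, rfl, hasFDerivAt_const _ _⟩ fun i _ => ?_
  · rintro D D' ⟨Φ, h1, h2, h3⟩ ⟨Φ', h1', h2', h3'⟩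
    refine ⟨_, h1.mul hZ h1', by simp [h2, h2'], (h3.mul' h3').congr_fderiv ?_⟩
    ext v
    simp [h2, h2', add_comm]
  · refine ⟨_, Module.Basis.ofSpan_subset h.ge ⟨i, rfl⟩ _
      (LinearMap.toContinuousLinearMap (b.coord i)).continuous, by simp, ?_⟩
    have h1 := (hasFDerivAt_exp_zero (𝕂 := ℝ) (𝔸 := A))
    rw [← map_zero ((LinearMap.toContinuousLinearMap (b.coord i)).smulRight (b i))] at h1
    exact h1.comp 0 (ContinuousLinearMap.hasFDerivAt _)

omit hZ in
theorem robust {Φ : A → A} (h0 : Φ 0 = 1) (hd : HasFDerivAt Φ (ContinuousLinearMap.id ℝ A) 0) :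
    ∃ r > 0, ∀ Ψ : A → A, Continuous Ψ → (∀ v, ‖v‖ ≤ r → ‖Ψ v - Φ v‖ ≤ r / 2) →
      ∃ v, ‖v‖ ≤ r ∧ Ψ v = 1 := by
  obtain ⟨r, hr, h⟩ := Metric.nhds_basis_closedBall.eventually_iff.1
    (hd.isLittleO.def one_half_pos)
  refine ⟨r, hr, fun Ψ hΨ hc => ?_⟩
  let c : A → A := fun v => (r / max r ‖v‖) • v
  have hm : ∀ v : A, 0 < max r ‖v‖ := fun v => lt_max_of_lt_left hr
  have cc : Continuous c :=
    (continuous_const.div (by fun_prop) fun v => (hm v).ne').smul continuous_id
  have c1 : ∀ v, ‖c v‖ ≤ r := fun v => by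
    rw [norm_smul, Real.norm_of_nonneg (div_pos hr (hm v)).le, div_mul_eq_mul_div,
      div_le_iff₀ (hm v)]
    exact mul_le_mul_of_nonneg_left (le_max_right _ _) hr.le
  have hB : ∀ v, ‖Ψ (c v) - 1 - c v‖ ≤ r := fun v => by
    have h1 := h (mem_closedBall_zero_iff.2 (c1 v))
    simp only [h0, sub_zero, ContinuousLinearMap.id_apply] at h1
    have e : Ψ (c v) - 1 - c v = (Ψ (c v) - Φ (c v)) + (Φ (c v) - 1 - c v) := by abel
    rw [e]
    linarith [norm_add_le (Ψ (c v) - Φ (c v)) (Φ (c v) - 1 - c v), hc _ (c1 v), c1 v]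
  obtain ⟨x, hx⟩ := P371.exists_add_eq_zero (fun v => Ψ (c v) - 1 - c v) (by fun_prop) hB
  have h1 : ‖x‖ ≤ r := by
    rw [eq_neg_of_add_eq_zero_left hx, norm_neg]
    exact hB x
  have h2 : c x = x := by simp only [c, max_eq_left h1, div_self hr.ne', one_smul]
  refine ⟨x, h1, ?_⟩
  rw [h2, add_sub_cancel] at hx
  exact sub_eq_zero.1 hx

end CtrlAux

open CtrlAux

theorem ctrl {L : Type} [Nonempty L] (Y : L → A) (Z : Submodule ℝ A)
    (hZ : ∀ z ∈ Z, ∀ a, Commute z a)
    (hgen : ∀ W : Submodule ℝ A, (∀ x ∈ W, ∀ y ∈ W, x * y - y * x ∈ W) → (∀ j, Y j ∈ W) →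
      Z ≤ W → W = ⊤)
    {g : A} (hg : g ∈ Submonoid.closure (range (exp : A → A))) :
    ∃ (M : ℕ) (lab : ℕ → L), ∃ S > 0, ∃ δ > 0, ∀ G : (ℕ → ℝ) → A, Continuous G →
      (∀ p, (∀ i, |p i| ≤ S) → ‖G p - wordP (fun i => Y (lab i)) p M‖ ≤ δ) →
      ∃ p, (∀ i, |p i| ≤ S) ∧ ∃ z ∈ Z, ‖z‖ ≤ S ∧ G p = exp z * g := by
  let _ : NormedAlgebra ℚ A := .restrictScalars ℚ ℝ A
  have := FiniteDimensional.complete ℝ A
  have := FiniteDimensional.proper_real A
  obtain ⟨Φ, hΦ, h0, hd⟩ := exists_chart hZ (span_T hZ hgen)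
  obtain ⟨r, hr, H⟩ := robust h0 hd
  have h1 : ∀ a : A, ‖1 - a‖ ≤ r / 2 → Rep Y Z fun _ => a := fun a ha => by
    obtain ⟨v, -, hv⟩ := H (fun v => Φ v + (1 - a)) (hΦ.cont.add continuous_const)
      fun v _ => by simpa using ha
    have e : Φ v = a := by rw [eq_sub_of_add_eq hv, sub_sub_cancel]
    simpa only [e] using hΦ.comp (continuous_const (y := v))
  have h2 : (Rep Y Z fun _ => g) ∧ IsUnit g := by
    induction hg using Submonoid.closure_induction with
    | one => exact ⟨Rep.one, isUnit_one⟩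
    | mul x y _ _ hx hy => exact ⟨hx.1.mul hZ hy.1, hx.2.mul hy.2⟩
    | mem x hx =>
      obtain ⟨x, rfl⟩ := hx
      refine ⟨?_, isUnit_exp x⟩
      have h3 : Tendsto (fun n : ℕ => ‖1 - exp (((n : ℝ) + 1)⁻¹ • x)‖) atTop
          (𝓝 ‖1 - exp ((0 : ℝ) • x)‖) :=
        (Continuous.tendsto (f := fun t : ℝ => ‖1 - exp (t • x)‖)
          (have := exp_cont (A := A); by fun_prop) 0).comp (f := fun n : ℕ => ((n : ℝ) + 1)⁻¹)
          (by simpa using tendsto_one_div_add_atTop_nhds_zero_nat (𝕜 := ℝ))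
      obtain ⟨n, hn⟩ := (h3.eventually (ge_mem_nhds (by simpa using hr : _ < r / 2))).exists
      have h4 : ∀ k : ℕ, Rep Y Z fun _ => exp (((n : ℝ) + 1)⁻¹ • x) ^ k := fun k => by
        induction k with
        | zero => simpa using Rep.one
        | succ k ih => simpa only [pow_succ] using ih.mul hZ (h1 _ hn)
      have h5 := h4 (n + 1)
      rwa [← exp_nsmul, ← Nat.cast_smul_eq_nsmul ℝ, smul_smul, Nat.cast_succ,
        mul_inv_cancel₀ (by positivity), one_smul] at h5
  obtain ⟨h2, u, rfl⟩ := h2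
  obtain ⟨M, lab, p, z, hp, hz, hm, e⟩ := hΦ.mul hZ h2
  let p' : A → ℕ → ℝ := fun v i => if i < M then p v i else 0
  have hp' : Continuous p' := continuous_pi fun i => by
    simp only [p']
    split_ifs
    exacts [(continuous_apply i).comp hp, continuous_const]
  obtain ⟨S, hS⟩ := (isCompact_closedBall (0 : A) r).exists_bound_of_continuousOn
    (f := fun v => (z v, exp (z v), fun i : Fin M => p v i))
    (hz.prodMk ((exp_cont.comp hz).prodMk
      (continuous_pi fun i => (continuous_apply _).comp hp))).continuousOn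
  have hS' : ∀ v, ‖v‖ ≤ r → ‖z v‖ ≤ |S| + 1 ∧ ‖exp (z v)‖ ≤ |S| + 1 ∧ ∀ i, |p' v i| ≤ |S| + 1 := by
    intro v hv
    obtain ⟨k1, k2⟩ := norm_prod_le_iff.1 ((hS v (mem_closedBall_zero_iff.2 hv)).trans
      ((le_abs_self S).trans (le_add_of_nonneg_right zero_le_one)))
    obtain ⟨k2, k3⟩ := norm_prod_le_iff.1 k2
    refine ⟨k1, k2, fun i => ?_⟩
    simp only [p']
    split_ifs with hi
    · exact (norm_le_pi_norm (fun i : Fin M => p v i) ⟨i, hi⟩).trans k3
    · rw [abs_zero]; positivity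
  refine ⟨M, lab, |S| + 1, by positivity, r / 2 / ((|S| + 1) * (‖(u⁻¹ : Aˣ).1‖ + 1)),
    by positivity, fun G hG hw => ?_⟩
  obtain ⟨v, hv, h3⟩ := H (fun v => exp (z v) * G (p' v) * (u⁻¹ : Aˣ))
    (((exp_cont.comp hz).mul (hG.comp hp')).mul continuous_const) fun v hv => by
      obtain ⟨-, k2, k3⟩ := hS' v hv
      have e1 : Φ v = exp (z v) * wordP (fun i => Y (lab i)) (p' v) M * (u⁻¹ : Aˣ) := by
        rw [Units.eq_mul_inv_iff_mul_eq]
        refine (e v).trans ?_
        congr 1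
        exact word_congr fun i hi => ⟨rfl, (if_pos hi).symm⟩
      rw [e1, ← sub_mul, ← mul_sub]
      refine (norm_mul_le _ _).trans ((mul_le_mul ((norm_mul_le _ _).trans (mul_le_mul k2
        (hw _ k3) (norm_nonneg _) (by positivity))) (le_add_of_nonneg_right zero_le_one)
        (norm_nonneg _) (by positivity)).trans_eq ?_)
      field_simp
  refine ⟨p' v, (hS' v hv).2.2, -z v, Z.neg_mem (hm v), by rw [norm_neg]; exact (hS' v hv).1, ?_⟩
  rw [Units.mul_inv_eq_one] at h3
  rw [← h3, ← mul_assoc]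
  simpa using congrArg (· * G (p' v)) (exp_mul_neg (-z v)).symm

end Vale.Agent.P225
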