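import Vale.Agent.P225.CycA
import Vale.Agent.P225.CycB
import Vale.Agent.P225.CycC
import Vale.Agent.P225.Ctrl

namespace Vale.Agent.P225

open Set Filter NormedSpace
open scoped ContDiff Topology

variable {A ι I : Type} [NormedRing A] [NormedAlgebra ℝ A] [FiniteDimensional ℝ A] [Fintype ι]
  [Fintype I]

namespace CycleAux

omit [Fintype ι] in
theorem pos_le [Finite ι] {r : ι → ℝ} (h : ∀ i, 0 < r i) : ∃ w > 0, ∀ i, w ≤ r i := by
  obtain ⟨w, hw, w0⟩ := ((eventually_all.2 fun i => nhdsWithin_le_nhds (s := Ioi 0)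
    (ge_mem_nhds (h i))).and self_mem_nhdsWithin).exists
  exact ⟨w, w0, hw⟩

theorem left_inv {g : A} (hg : g ∈ Submonoid.closure (range (exp : A → A))) :
    ∃ g', g' * g = 1 := by
  have := FiniteDimensional.complete ℝ A
  let _ : NormedAlgebra ℚ A := .restrictScalars ℚ ℝ A
  induction hg using Submonoid.closure_induction with
  | mem x hx =>
    obtain ⟨z, rfl⟩ := hx
    exact ⟨exp (-z), by rw [← exp_add_of_commute (Commute.refl z).neg_left, neg_add_cancel, exp_zero]⟩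
  | one => exact ⟨1, one_mul _⟩
  | mul x y _ _ hx hy =>
    obtain ⟨x', hx⟩ := hx
    obtain ⟨y', hy⟩ := hy
    exact ⟨y' * x', by rw [mul_assoc, ← mul_assoc x', hx, one_mul, hy]⟩

omit [FiniteDimensional ℝ A] [Fintype I] in
theorem lam_bound (D : Diag A ι I) {L : Type} (K : L → A) (j₀ : L) (lab : ℕ → L) (m M : ℕ)
    (lam : I → ℝ) (S : ℝ) {es : ℝ} (hes : 0 ≤ es) : ∃ N ≥ 0, ∀ Θ ≥ 0, ∀ τ ≥ 1, ∀ p : ℕ → ℝ,
      (∀ i, |p i| ≤ S) → ∀ t, ‖D.Lam m lam (etaC m es M Θ τ p t) (K (labC lab j₀ M τ t))‖ ≤ N := by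
  obtain ⟨C, C0, hC⟩ := etaC_bound m M S hes
  choose b hb using fun j => (isCompact_Icc (a := -C) (b := max es C)).exists_bound_of_continuousOn
    (f := fun e => D.Lam m lam e (K j)) (Continuous.continuousOn (by
      have := CycCAux.cont_vs m
      unfold Diag.Lam
      fun_prop))
  obtain ⟨N, hN⟩ := Finite.exists_le fun i : Fin M => b (lab i)
  refine ⟨max 0 (max N (b j₀)), le_max_left _ _, fun Θ hΘ τ hτ p hp t => ?_⟩
  have := hC Θ hΘ τ hτ p hp t
  refine (hb _ _ ⟨(neg_le_neg (div_le_self C0.le hτ)).trans this.1,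
    this.2.1.trans (max_le_max_left _ (div_le_self C0.le hτ))⟩).trans (le_max_of_le_right ?_)
  unfold labC
  split_ifs with h
  · exact le_max_of_le_left (hN ⟨_, h⟩)
  · exact le_max_right _ _

end CycleAux

open CycleAux CycCAux CycAAux

theorem cycle (D : Diag A ι I) {L : Type} (K : L → A) (j₀ : L) {m : ℕ} (hm : 0 < m)
    {c₁ c₂ es κ : ℝ} (hc₂ : 0 < c₂) (hc : c₂ ≤ c₁) (hes : 0 ≤ es) (hκ : 0 ≤ κ) (α : I → ℝ)
    (hα : ∀ l, 0 < α l) (ν : ι → ℝ) (hK : K j₀ = D.dg ν)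
    (hν : ∀ i, -(α (D.blk i) ^ 2 + 2 * m * c₁ * α (D.blk i)) ≤ ν i ∧ ν i ≤ 0) (hgen : D.Gen K)
    {g : A} (hg : g ∈ Submonoid.closure (range (exp : A → A))) :
    ∃ (M : ℕ) (lab : ℕ → L) (S C : ℝ), ∃ ε > 0, ∃ w > 0, ∃ τ₀ ≥ 1, ∀ τ ≥ τ₀, ∀ Θ ≥ 0,
      ∀ (a : ℝ) (c : ℝ → ℝ) (B : A), Continuous c →
      (∀ s ∈ Icc a (a + (M + 3 + Θ) * τ), c₂ ≤ c s ∧ |c s - c₁| ≤ w) → ‖B‖ ≤ ε →
      ∃ (p : ℕ → ℝ) (U V : ℝ → A) (y : ι → ℝ) (B' : A), (∀ i, |p i| ≤ S) ∧
        Sol (fun s => 2 * m * c s) (fun s => D.Lam m (fun l => α l ^ 2 + 2 * m * c₁ * α l)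
          (etaC m es M Θ τ p (s - a)) (K (labC lab j₀ M τ (s - a)))) U V ∧
        U a = 1 ∧ V a = D.z α + B ∧ U (a + (M + 3 + Θ) * τ) = D.dg y * g ∧ ‖B'‖ ≤ ε ∧
        V (a + (M + 3 + Θ) * τ) = (D.z α + B') * U (a + (M + 3 + Θ) * τ) ∧
        (∀ i, 0 < y i ∧ (2 * κ + 2 * m * c₂) * Real.log (y i) ≤ Θ * τ * (Real.exp (2 * es) *
          (α (D.blk i) ^ 2 + 2 * m * c₁ * α (D.blk i)) + vs m es * ν i + κ ^ 2) + C * τ) ∧
        ∀ s ∈ Icc a (a + (M + 3 + Θ) * τ), ‖U s‖ ≤ Real.exp (C * ((M + 3 + Θ) * τ)) := by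
  have := FiniteDimensional.complete ℝ A
  have : Nonempty L := ⟨j₀⟩
  have m0 : (0 : ℝ) < m := Nat.cast_pos.2 hm
  have c0 : 0 < c₁ := hc₂.trans_le hc
  have d0 : 0 < 2 * m * c₂ := by positivity
  obtain ⟨M, lab, S, S0, δ, δ0, hctrl⟩ := ctrl
    (fun j => D.z (fun l => 2 * α l + 2 * m * c₁)⁻¹ * K j)
    (LinearMap.range (D.dg.toLinearMap ∘ₗ LinearMap.funLeft ℝ ℝ D.blk))
    (by rintro _ ⟨f, rfl⟩ a; exact D.cen f a)
    (fun W h1 h2 h3 => hgen _ (fun l => inv_ne_zero (by have := hα l; positivity)) W h1 h2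
      fun f => h3 ⟨f, rfl⟩) hg
  obtain ⟨g', hg'⟩ := left_inv hg
  obtain ⟨δ₁, δ1, hδ⟩ : ∃ δ₁ > 0, δ₁ / (2 * m * c₂) + δ₁ = δ :=
    ⟨δ / (1 / (2 * m * c₂) + 1), by positivity, by field_simp⟩
  obtain ⟨ε, ε0, τ₁, τ1, hA⟩ := ctrl_phase D K lab j₀ hm M hc₂ hc α hα S δ1
  choose C hC using fun i => ref_est hm M hc₂ hes (hα (D.blk i)) (hν i).1 (hν i).2 S κ
  choose w w0 τ₂ _ hC using fun i => hC i _ (half_pos ε0)
  obtain ⟨τ₃, -, h3⟩ := small (R := δ₁ * (‖g'‖ * Real.exp S)) d0 (half_pos ε0)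
  obtain ⟨C₁, hC₁⟩ := Finite.exists_le C
  obtain ⟨τ₄, h4⟩ := Finite.exists_le τ₂
  obtain ⟨w₁, w1, hw₁⟩ := pos_le w0
  obtain ⟨N, N0, hN⟩ := lam_bound D K j₀ lab m M (fun l => α l ^ 2 + 2 * m * c₁ * α l) S hes
  refine ⟨M, lab, S, max (C₁ + (2 * κ + 2 * m * c₂) * S)
    (2 * (N + 2 * m * (c₁ + ε)) + 1 + max ‖(1 : A)‖ (‖D.z α‖ + ε)), ε, ε0, min ε w₁, by positivity,
    max τ₁ (max τ₃ τ₄), le_max_of_le_left τ1, ?_⟩
  intro τ ht Θ hΘ a c B cc hcw hB
  have t1 : τ₁ ≤ τ := (le_max_left _ _).trans ht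
  have t3 : τ₃ ≤ τ := (le_max_left _ _).trans ((le_max_right _ _).trans ht)
  have t4 : τ₄ ≤ τ := (le_max_right _ _).trans ((le_max_right _ _).trans ht)
  have τ1 : 1 ≤ τ := τ1.trans t1
  have τ0 : 0 < τ := zero_lt_one.trans_le τ1
  have Θτ : 0 ≤ Θ * τ := by positivity
  have Mτ : 0 ≤ M * τ := by positivity
  have cd : Continuous fun s => 2 * m * c s := by fun_prop
  have hab : a ≤ a + (M + 3 + Θ) * τ := by linarith
  have cη : Continuous fun q : (ℕ → ℝ) × ℝ => etaC m es M Θ τ q.1 (q.2 - a) :=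
    (cont_etaC m es M Θ τ).comp (continuous_fst.prodMk (continuous_snd.sub continuous_const))
  have cI : ∀ i, Continuous fun q : (ℕ → ℝ) × ℝ => vs m (etaI m τ q.1 i (q.2 - a)) := fun i =>
    (cont_vs m).comp
      ((cont_etaI m τ i).comp (continuous_fst.prodMk (continuous_snd.sub continuous_const)))
  have cD : Continuous fun q : (ℕ → ℝ) × ℝ => vs m (etaD es M Θ τ (q.2 - a)) :=
    (cont_vs m).comp ((contDiff_etaD es M Θ τ).continuous.comp (continuous_snd.sub continuous_const))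
  have cΛ : Continuous fun q : (ℕ → ℝ) × ℝ => D.Lam m (fun l => α l ^ 2 + 2 * m * c₁ * α l)
      (etaC m es M Θ τ q.1 (q.2 - a)) (K (labC lab j₀ M τ (q.2 - a))) := by
    simp only [Diag.Lam, vs_labC K lab j₀ τ0]
    exact ((Real.continuous_exp.comp (continuous_const.mul cη)).smul continuous_const).add
      ((continuous_finsetSum _ fun i _ => (cI i).smul continuous_const).add
        (cD.smul continuous_const))
  have cR : Continuous fun q : (ℕ → ℝ) × ℝ => fun i =>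
      Real.exp (2 * etaC m es M Θ τ q.1 (q.2 - a)) * (α (D.blk i) ^ 2 + 2 * m * c₁ * α (D.blk i)) +
        vs m (etaD es M Θ τ (q.2 - a)) * ν i := continuous_pi fun i =>
    ((Real.continuous_exp.comp (continuous_const.mul cη)).mul continuous_const).add
      (cD.mul continuous_const)
  have cZ : Continuous fun q : (ℕ → ℝ) × ℝ => fun l =>
      Real.exp (2 * etaC m es M Θ τ q.1 (q.2 - a)) * (α l ^ 2 + 2 * m * c₁ * α l) :=
    continuous_pi fun i => (Real.continuous_exp.comp (continuous_const.mul cη)).mul continuous_const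
  choose U V hU Ua Va using fun p => sol_exists cd (cΛ.comp (Continuous.prodMk_right p)) a 1 (D.z α + B)
  choose y v hy ya va using fun p =>
    sol_exists cd (cR.comp (Continuous.prodMk_right p)) a 1 (α ∘ D.blk)
  choose y₁ v₁ hy₁ ya₁ va₁ using fun p => sol_exists cd (cZ.comp (Continuous.prodMk_right p)) a 1 α
  simp only [Function.comp_def] at hU hy hy₁
  have R0 := fun p s i => ref_nonneg (m := m) (M := M) (Θ := Θ) hes τ0 p (hν i).1 (hν i).2 (s - a)
  have y0 : ∀ p i, 0 < y p (a + (M + 3 + Θ) * τ) i := fun p i => by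
    have h0 : 0 < y p a i := by rw [ya]; exact zero_lt_one
    exact h0.trans_le ((((hy p).apply i).pos cd (fun s _ => R0 p s i) h0
      (by rw [va]; exact (hα _).le)).1 _ ⟨hab, le_rfl⟩).2
  have key : ∀ p, (∀ i, |p i| ≤ S) → ‖D.dg (y p (a + (M + 3 + Θ) * τ))⁻¹ *
      U p (a + (M + 3 + Θ) * τ) - wordP (fun i => D.z (fun l => 2 * α l + 2 * m * c₁)⁻¹ *
        K (lab i)) p M‖ ≤ δ ∧ ∀ G G' : A, U p (a + (M + 3 + Θ) * τ) =
      D.dg (y p (a + (M + 3 + Θ) * τ)) * G → G' * G = 1 → ‖G'‖ ≤ ‖g'‖ * Real.exp S → ∃ B,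
        ‖B‖ ≤ ε ∧ V p (a + (M + 3 + Θ) * τ) = (D.z α + B) * U p (a + (M + 3 + Θ) * τ) := by
    intro p hp
    have ha : a + M * τ ∈ Icc a (a + M * τ) := ⟨by linarith, le_rfl⟩
    have k1 := hA τ t1 es Θ a c B p _ _ _ _ cc (fun s hs => (hcw s ⟨hs.1, by linarith [hs.2]⟩).imp
      id fun h => h.trans (min_le_left _ _)) hB hp (hU p) (Ua p) (Va p) (hy₁ p) (ya₁ p) (va₁ p)
    have k2 := (hy p).unique (sol_comp (hy₁ p) D.blk) cd (cR.comp (Continuous.prodMk_right p))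
      (t := a) (a := a) (b := a + M * τ) ⟨le_rfl, ha.1⟩ (fun s hs => ⟨rfl, funext fun i => by
        rw [etaD_eq_zero τ0 (Or.inl (by linarith [hs.2])), vs_zero, zero_mul, add_zero]; rfl⟩)
      (by rw [ya, ya₁]; rfl) (by rw [va, va₁]) _ ha
    have k3 := fun l => (((hy₁ p).apply l).pos cd (fun s _ => by have := hα l; positivity)
      (by rw [ya₁]; exact zero_lt_one) (by rw [va₁]; exact (hα _).le)).1 _ ha
    have k4 := dwell_phase D (b := a + (M + 3 + Θ) * τ) (by linarith) cd d0 (hU p) (hy p)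
      (fun s hs => ⟨?_, by gcongr; exact (hcw s ⟨ha.1.trans hs.1, hs.2⟩).1, R0 p s⟩) k2.1 k2.2
      (fun l => lt_of_lt_of_le (by rw [ya₁]; exact zero_lt_one) (k3 l).2) (fun l => (k3 l).1) k1.2
    · refine ⟨(norm_sub_le_norm_sub_add_norm_sub _ _ _).trans ((add_le_add k4.1 k1.1).trans hδ.le),
        fun G G' h1 h2 h5 => ?_⟩
      obtain ⟨B', b1, b2⟩ := k4.2 G G' α h1 h2
      refine ⟨B', b1.trans ((add_le_add ?_ (le_trans ?_ (h3 τ t3))).trans (add_halves ε).le), b2⟩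
      · exact (pi_norm_le_iff_of_nonneg (half_pos ε0).le).2 fun i => (hC i τ ((h4 i).trans t4) Θ hΘ
          a c p _ _ cc (fun s hs => (hcw s hs).imp id fun h => h.trans ((min_le_right _ _).trans
            (hw₁ i))) hp ((hy p).apply i) (congrFun (ya p) i) (congrFun (va p) i)).2
      · rw [mul_assoc]
        gcongr
        linarith
    · have h1 : M * τ ≤ s - a := by linarith [hs.1]
      rw [Diag.Lam, labC, if_neg (not_lt.2 (Nat.le_floor ((le_div_iff₀ τ0).2 h1))), hK,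
        etaC_dwell τ0 h1, Diag.z, ← map_smul, ← map_smul, ← map_add]
      rfl
  obtain ⟨p, hp, _, ⟨f, rfl⟩, hf, hG⟩ := hctrl
    (fun p => D.dg (y p (a + (M + 3 + Θ) * τ))⁻¹ * U p (a + (M + 3 + Θ) * τ))
    ((D.cont.comp (continuous_pi fun i => ((continuous_apply i).comp
      (sol_cont cd cR hy hab ya va)).inv₀ fun p => (y0 p i).ne')).mul (sol_cont cd cΛ hU hab Ua Va))
    fun p hp => (key p hp).1
  change ‖D.dg (f ∘ D.blk)‖ ≤ S at hf
  change _ = exp (D.dg (f ∘ D.blk)) * g at hG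
  rw [D.norm_dg] at hf
  rw [D.exp_dg] at hG
  have hf' : ∀ i, |f (D.blk i)| ≤ S := fun i => (norm_le_pi_norm (f ∘ D.blk) i).trans hf
  have e1 : U p (a + (M + 3 + Θ) * τ) = D.dg (y p (a + (M + 3 + Θ) * τ)) *
      (D.dg (fun i => Real.exp ((f ∘ D.blk) i)) * g) := by
    rw [← hG, ← mul_assoc, ← map_mul, show y p (a + (M + 3 + Θ) * τ) *
      (y p (a + (M + 3 + Θ) * τ))⁻¹ = 1 from funext fun i => mul_inv_cancel₀ (y0 p i).ne', map_one,
      one_mul]
  obtain ⟨B', b1, b2⟩ := (key p hp).2 _ (g' * D.dg fun i => Real.exp (-(f ∘ D.blk) i)) e1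
    (by
      rw [mul_assoc, ← mul_assoc _ _ g, ← map_mul, show (fun i => Real.exp (-(f ∘ D.blk) i)) *
        (fun i => Real.exp ((f ∘ D.blk) i)) = 1 from funext fun i => by simp [← Real.exp_add],
        map_one, one_mul, hg'])
    ((norm_mul_le _ _).trans (by
      gcongr
      rw [D.norm_dg]
      refine (pi_norm_le_iff_of_nonneg (Real.exp_pos _).le).2 fun i => ?_
      rw [Real.norm_of_nonneg (Real.exp_pos _).le]
      exact Real.exp_le_exp.2 ((neg_le_abs _).trans (hf' i))))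
  refine ⟨p, U p, V p, y p (a + (M + 3 + Θ) * τ) * fun i => Real.exp ((f ∘ D.blk) i), B', hp, hU p,
    Ua p, Va p, by rw [map_mul, mul_assoc, ← e1], b1, b2, fun i => ⟨mul_pos (y0 p i)
      (Real.exp_pos _), ?_⟩, fun s hs => ?_⟩
  · have k := (hC i τ ((h4 i).trans t4) Θ hΘ a c p _ _ cc (fun s hs => (hcw s hs).imp id fun h =>
      h.trans ((min_le_right _ _).trans (hw₁ i))) hp ((hy p).apply i) (congrFun (ya p) i)
      (congrFun (va p) i)).1
    have k2 : (2 * κ + 2 * m * c₂) * f (D.blk i) ≤ (2 * κ + 2 * m * c₂) * S * τ :=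
      (mul_le_mul_of_nonneg_left ((le_abs_self _).trans (hf' i)) (by positivity)).trans
        (le_mul_of_one_le_right (by positivity) τ1)
    have k3 := mul_le_mul_of_nonneg_right (le_max_left (C₁ + (2 * κ + 2 * m * c₂) * S)
      (2 * (N + 2 * m * (c₁ + ε)) + 1 + max ‖(1 : A)‖ (‖D.z α‖ + ε))) τ0.le
    have k4 := mul_le_mul_of_nonneg_right (hC₁ i) τ0.le
    rw [Pi.mul_apply, Real.log_mul (y0 p i).ne' (Real.exp_pos _).ne', Real.log_exp]
    simp only [Function.comp_apply] at k ⊢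
    linarith
  · have k := (le_max_left _ _).trans ((hU p).bound (K := N + 2 * m * (c₁ + ε)) (fun s hs =>
      ⟨?_, (hN Θ hΘ τ τ1 p hp _).trans (le_add_of_nonneg_right (by positivity))⟩) s hs)
    · obtain ⟨R, hR⟩ : ∃ R, R = max ‖(1 : A)‖ (‖D.z α‖ + ε) := ⟨_, rfl⟩
      have R0 : 0 ≤ R := by rw [hR]; positivity
      have k1 : max ‖U p a‖ ‖V p a‖ ≤ Real.exp (R * ((M + 3 + Θ) * τ)) := by
        rw [Ua, Va]
        refine (max_le_max_left _ ((norm_add_le _ _).trans (add_le_add_right hB _))).trans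
          (hR.ge.trans (((le_add_of_nonneg_right zero_le_one).trans (Real.add_one_le_exp R)).trans
            (Real.exp_le_exp.2 (le_mul_of_one_le_right R0 (by linarith)))))
      refine k.trans ((mul_le_mul (Real.exp_le_exp.2 (mul_le_mul_of_nonneg_left
        (show s - a ≤ (M + 3 + Θ) * τ by linarith [hs.2]) (by positivity))) k1 (by positivity)
        (Real.exp_pos _).le).trans ?_)
      rw [← Real.exp_add, ← add_mul, hR]
      gcongr
      exact le_max_right _ _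
    · have := abs_le.1 ((hcw s hs).2.trans (min_le_left _ _))
      rw [abs_of_pos (mul_pos (by positivity) (hc₂.trans_le (hcw s hs).1))]
      refine le_add_of_nonneg_of_le N0 ?_
      gcongr
      linarith

end Vale.Agent.P225
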