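import Vale.Agent.P255.Defs

/-! Ricci curvature, the Laplace-Beltrami operator, the Riemannian distance and harmonic functions
of polynomial growth for a Riemannian metric on `ℝ^ι` in global coordinates. -/

namespace Vale.Agent.P225

open Vale.Agent.P255 Filter
open scoped ContDiff Topology

/-- fields of bilinear forms on `ℝ^ι` -/
abbrev Met (ι : Type) : Type := (ι → ℝ) → (ι → ℝ) →L[ℝ] (ι → ℝ) →L[ℝ] ℝ

variable {ι : Type} [Fintype ι] [DecidableEq ι]

/-- Ricci tensor: the trace of `X ↦ R(X, v) w` -/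
noncomputable def ric (g : Met ι) (x v w : ι → ℝ) : ℝ :=
  ∑ i, curv g x (Pi.single i 1) v w i

/-- Laplace-Beltrami operator `g^{ij} (∂_i ∂_j u - Γ^k_{ij} ∂_k u)` -/
noncomputable def lap (g : Met ι) (u : (ι → ℝ) → ℝ) (x : ι → ℝ) : ℝ :=
  ∑ i, ∑ j, (Matrix.of fun a b => g x (Pi.single a 1) (Pi.single b 1))⁻¹ i j *
    (fderiv ℝ (fun y => fderiv ℝ u y (Pi.single j 1)) x (Pi.single i 1) -
      fderiv ℝ u x (chr g x (Pi.single i 1) (Pi.single j 1)))

/-- length of the curve `γ` on `[0, 1]` -/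
noncomputable def len (g : Met ι) (γ : ℝ → ι → ℝ) : ℝ :=
  ∫ t in (0 : ℝ)..1, √(g (γ t) (deriv γ t) (deriv γ t))

/-- Riemannian distance: infimum of the lengths of `C¹` curves from `x` to `y` -/
noncomputable def gdist (g : Met ι) (x y : ι → ℝ) : ℝ :=
  sInf {l | ∃ γ : ℝ → ι → ℝ, ContDiff ℝ 1 γ ∧ γ 0 = x ∧ γ 1 = y ∧ l = len g γ}

/-- every Cauchy sequence for the Riemannian distance converges -/
def Complete (g : Met ι) : Prop :=
  ∀ x : ℕ → ι → ℝ, (∀ ε > 0, ∃ N, ∀ a ≥ N, ∀ b ≥ N, gdist g (x a) (x b) < ε) →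
    ∃ y, Tendsto (fun a => gdist g (x a) y) atTop (𝓝 0)

theorem lap_comb (g : Met ι) {u v : (ι → ℝ) → ℝ} (hu : ContDiff ℝ ∞ u) (hv : ContDiff ℝ ∞ v)
    (a : ℝ) (x : ι → ℝ) : lap g (a • u + v) x = a * lap g u x + lap g v x := by
  have d : ∀ {w : (ι → ℝ) → ℝ}, ContDiff ℝ ∞ w → Differentiable ℝ w := fun h =>
    h.differentiable (by simp)
  have d2 : ∀ {w : (ι → ℝ) → ℝ}, ContDiff ℝ ∞ w → ∀ e,
      Differentiable ℝ fun y => fderiv ℝ w y e := fun h e =>
    ((h.fderiv_right (m := ∞) (by simp)).clm_apply contDiff_const).differentiable (by simp)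
  have h1 : ∀ y, fderiv ℝ (a • u + v) y = a • fderiv ℝ u y + fderiv ℝ v y := fun y =>
    (((d hu y).hasFDerivAt.const_smul a).add (d hv y).hasFDerivAt).fderiv
  have h2 : ∀ e, fderiv ℝ (fun y => a * fderiv ℝ u y e + fderiv ℝ v y e) x =
      a • fderiv ℝ (fun y => fderiv ℝ u y e) x + fderiv ℝ (fun y => fderiv ℝ v y e) x := fun e =>
    (((d2 hu e x).hasFDerivAt.const_mul a).add (d2 hv e x).hasFDerivAt).fderiv
  simp only [lap, h1, add_apply, smul_apply, smul_eq_mul, h2,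
    Finset.mul_sum, ← Finset.sum_add_distrib]
  exact Finset.sum_congr rfl fun i _ => Finset.sum_congr rfl fun j _ => by ring

/-- the space of smooth harmonic functions with `|u x| ≤ C (1 + d(0, x)) ^ k` -/
def harm (g : Met ι) (k : ℕ) : Submodule ℝ ((ι → ℝ) → ℝ) where
  carrier := {u | ContDiff ℝ ∞ u ∧ (∀ x, lap g u x = 0) ∧
    ∃ C : ℝ, ∀ x, |u x| ≤ C * (1 + gdist g 0 x) ^ k}
  zero_mem' := ⟨contDiff_const, fun x => by simp [lap], 0, fun x => by simp⟩
  add_mem' := by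
    rintro u v ⟨h1, h2, C, h3⟩ ⟨k1, k2, D, k3⟩
    refine ⟨h1.add k1, fun x => ?_, C + D, fun x => ?_⟩
    · simpa [h2, k2] using lap_comb g h1 k1 1 x
    · rw [add_mul]
      exact (abs_add_le _ _).trans (add_le_add (h3 x) (k3 x))
  smul_mem' := by
    rintro a u ⟨h1, h2, C, h3⟩
    refine ⟨h1.const_smul a, fun x => ?_, |a| * C, fun x => ?_⟩
    · have := lap_comb g h1 h1 (a - 1) x
      rwa [sub_smul, one_smul, sub_add_cancel, h2, mul_zero, add_zero] at this
    · rw [Pi.smul_apply, smul_eq_mul, abs_mul, mul_assoc]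
      exact mul_le_mul_of_nonneg_left (h3 x) (abs_nonneg a)

end Vale.Agent.P225
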