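import Vale.Agent.P225.Met
import Vale.Agent.P225.Dist

namespace Vale.Agent.P225

open Vale.Agent.P255 Matrix Filter
open scoped ContDiff Topology

variable {σ : Type} [Fintype σ] [DecidableEq σ]

theorem exists_h {c : ℝ → ℝ} (hc : ContDiff ℝ ∞ c) (h0 : ∀ s ≤ 0, c s = 1) {c₂ : ℝ}
    (h1 : ∀ s, c₂ ≤ c s ∧ c s ≤ 1) : ∃ h : ℝ → ℝ, ContDiff ℝ ∞ h ∧ (∀ s ≤ 0, h s = 0) ∧
      (∀ s, 1 + deriv h s = c s) ∧ (∀ s, deriv (deriv h) s = deriv c s) ∧
      ∀ s ≥ 0, (c₂ - 1) * s ≤ h s ∧ h s ≤ 0 := by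
  have h2 : Continuous fun t => c t - 1 := hc.continuous.sub continuous_const
  have d : ∀ s, HasDerivAt (fun s => ∫ t in (0 : ℝ)..s, (c t - 1)) (c s - 1) s := fun s =>
    (h2.integral_hasStrictDerivAt 0 s).hasDerivAt
  have e : deriv (fun s => ∫ t in (0 : ℝ)..s, (c t - 1)) = fun s => c s - 1 :=
    funext fun s => (d s).deriv
  refine ⟨fun s => ∫ t in (0 : ℝ)..s, (c t - 1), contDiff_infty_iff_deriv.2
    ⟨fun s => (d s).differentiableAt, by rw [e]; exact hc.sub contDiff_const⟩, fun s hs => ?_,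
    fun s => by rw [e]; ring, fun s => by rw [e, deriv_sub_const], fun s hs => ⟨?_, ?_⟩⟩
  · refine (intervalIntegral.integral_congr (g := fun _ => (0 : ℝ)) fun t ht => ?_).trans (by simp)
    rw [Set.uIcc_of_ge hs] at ht
    simp [h0 t ht.2]
  · refine Eq.trans_le (by simp; ring) (intervalIntegral.integral_mono_on hs
      (intervalIntegrable_const (c := c₂ - 1)) (h2.intervalIntegrable _ _) fun t _ => ?_)
    linarith [(h1 t).1]
  · refine (intervalIntegral.integral_mono_on hs (h2.intervalIntegrable _ _)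
      (intervalIntegrable_const (c := 0)) fun t _ => ?_).trans_eq (by simp)
    linarith [(h1 t).2]

theorem gmet_dist {m : ℕ} {h η : ℝ → ℝ} {Js : ℝ → Matrix σ σ ℝ} (hp : Prof h η) (ha : Adm η Js)
    {c₂ B : ℝ} (hc : 0 < c₂) (hc' : c₂ ≤ 1) (hB : ∀ s, |η s| ≤ B)
    (hh : ∀ s ≥ 0, (c₂ - 1) * s ≤ h s ∧ h s ≤ 0) :
    Complete (gmet m h η Js) ∧
      ∀ x, (1 + x ⬝ᵥ x) ^ (c₂ / 2) ≤ 1 + gdist (gmet m h η Js) 0 x := by
  have hg := gmet_isMetric (m := m) hp ha
  have p : ∀ y : σ → ℝ, 1 ≤ 1 + y ⬝ᵥ y := fun y => by linarith [MetAux.nn y]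
  have K : ∀ x : σ → ℝ, (1 + x ⬝ᵥ x) ^ (c₂ - 1) ≤ Real.exp (2 * h (sl x)) ∧
      Real.exp (2 * h (sl x)) ≤ 1 := fun x => by
    rcases le_total (x ⬝ᵥ x) 1 with hx | hx
    · rw [hp.h0 _ (sl_nonpos hx), mul_zero, Real.exp_zero]
      exact ⟨Real.rpow_le_one_of_one_le_of_nonpos (p x) (by linarith), le_rfl⟩
    obtain ⟨a, b⟩ := hh _ (sl_nonneg hx)
    refine ⟨(Real.rpow_le_rpow_of_nonpos (x := x ⬝ᵥ x) (by linarith) (by linarith)
      (by linarith)).trans ?_, Real.exp_le_one_iff.2 (by linarith)⟩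
    rw [Real.rpow_def_of_pos (by linarith)]
    refine Real.exp_le_exp.2 ?_
    rw [sl] at a ⊢
    linarith
  refine ⟨complete_of hg (ε := Real.exp (-((4 * m + 2) * B))) (C := Real.exp ((4 * m + 2) * B))
    (Real.exp_pos _) (fun x v => le_trans ?_ (met_lower (ha.cx _) (hB _) v))
    fun x v => (met_upper (ha.cx _) (hB _) v).trans ?_, fun x => (radial_le hg hc
      (fun x v => le_trans ?_ (met_rad (ha.cx _) x v)) x).trans ?_⟩
  · rw [div_eq_inv_mul, mul_assoc, ← Real.rpow_neg_one]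
    exact mul_le_mul_of_nonneg_right ((Real.rpow_le_rpow_of_exponent_le (p x) (by linarith)).trans
      (K x).1) (mul_nonneg (Real.exp_pos _).le (MetAux.nn v))
  · rw [mul_assoc]
    exact mul_le_of_le_one_left (mul_nonneg (Real.exp_pos _).le (MetAux.nn v)) (K x).2
  · by_cases hx : x = 0
    · simp [hx]
    have := dot_self_pos hx
    rw [show c₂ - 2 = c₂ - 1 - 1 by ring, Real.rpow_sub_one (by linarith), mul_comm,
      div_mul_eq_mul_div, mul_div_assoc]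
    exact mul_le_mul (K x).1 (by gcongr; linarith) (by positivity) (Real.exp_pos _).le
  · nlinarith [gdist_nonneg (gmet m h η Js) 0 x]

end Vale.Agent.P225
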