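import Vale.Agent.P225.Gen2
import Vale.Agent.P225.BDefs

namespace Vale.Agent.P225

open Matrix MvPolynomial
open scoped Matrix.Norms.Operator

variable {σ : Type} [Fintype σ] [DecidableEq σ] {κ : Type} [Fintype κ] [DecidableEq κ]
  {I : Type} [Fintype I] [DecidableEq I]

namespace Gen3Aux

/-- the bilinear map behind the generators -/
noncomputable def Qb {N : I → ℕ} (b : ∀ l, Fin (N l) → MvPolynomial σ ℝ) (β : I → ℝ) :
    Matrix σ σ ℝ →ₗ[ℝ] Matrix σ σ ℝ →ₗ[ℝ] Blk ℝ N :=
  LinearMap.mk₂ ℝ (fun A B l => β l • mat (b l) (Xop A * Xop B))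
    (fun A A' B => funext fun l => by
      simp only [Xop_add, add_mul, mat_add, smul_add, Pi.add_apply])
    (fun c A B => funext fun l => by
      simp only [Xop_smul, smul_mul_assoc, mat_smul, Pi.smul_apply, smul_comm c (β l)])
    (fun A B B' => funext fun l => by
      simp only [Xop_add, mul_add, mat_add, smul_add, Pi.add_apply])
    (fun c A B => funext fun l => by
      simp only [Xop_smul, mul_smul_comm, mat_smul, Pi.smul_apply, smul_comm c (β l)])

theorem ring1 {B : Type} [Ring B] (a j : B) :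
    a * (j * j) - j * j * a = 0 - ((j * a - a * j) * j + j * (j * a - a * j)) := by
  noncomm_ring

end Gen3Aux

open Gen3Aux

theorem gen (e : σ ≃ κ ⊕ κ) (hκ : 3 ≤ Fintype.card κ) (deg : I → ℕ)
    (hd : Function.Injective deg) (h3 : ∀ l, 3 ≤ deg l) {N : I → ℕ}
    (b : ∀ l, Fin (N l) → MvPolynomial σ ℝ) (hb : ∀ l, ONB (deg l) (b l)) :
    (blkD N).Gen fun J : {J : Matrix σ σ ℝ // IsCx J} =>
      fun l => mat (b l) (Xop J.1 * Xop J.1) := by
  intro β hβ W hW hK hZ
  let G : Set (Blk ℝ N) := {x | ∃ J, IsCx J ∧ Qb b β J J = x} ∪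
    Set.range fun f : I → ℝ => fun l => f l • (1 : Matrix (Fin (N l)) (Fin (N l)) ℝ)
  refine lie_reduce G (fun A : {A : Matrix σ σ ℝ // Aᵀ = -A} => fun l => mat (b l) (Xop A.1))
    ?_ (fun V hV hG hX => gen_inv e hκ deg hd h3 b hb β hβ V hV
      (fun J hJ => hG (Or.inl ⟨J, hJ, rfl⟩)) (fun f => hG (Or.inr ⟨f, rfl⟩))
      fun A hA => hX ⟨A, hA⟩) W hW ?_
  · rintro ⟨A, hA⟩ _ (⟨J, hJ, rfl⟩ | ⟨f, rfl⟩)
    · have := (Submodule.span ℝ G).neg_mem (cx_deriv (Qb b β) (Submodule.span ℝ G)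
        (fun J hJ => Submodule.subset_span (Or.inl ⟨J, hJ, rfl⟩)) hA hJ)
      refine (congrArg (· ∈ Submodule.span ℝ G) (funext fun l => ?_)).mp this
      have m1 := (hb l).mat_mul (Xop A) (T' := Xop J * Xop J)
        fun p hp => Xop_mem hJ.1 (Xop_mem hJ.1 hp)
      have m2 := (hb l).mat_mul (Xop J * Xop J) (T' := Xop A) fun p hp => Xop_mem hA hp
      change -(β l • mat (b l) (Xop (A * J - J * A) * Xop J) +
          β l • mat (b l) (Xop J * Xop (A * J - J * A))) =
        mat (b l) (Xop A) * (β l • mat (b l) (Xop J * Xop J)) -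
          (β l • mat (b l) (Xop J * Xop J)) * mat (b l) (Xop A)
      have e1 : Xop A * (Xop J * Xop J) - Xop J * Xop J * Xop A = 0 -
          (Xop (A * J - J * A) * Xop J + Xop J * Xop (A * J - J * A)) := by
        rw [← Xop_comm]
        exact ring1 _ _
      have e0 : mat (b l) 0 = 0 := by
        ext i j; simp [mat]
      rw [Matrix.mul_smul, Matrix.smul_mul, ← m1, ← m2, ← smul_add, ← smul_sub, ← smul_neg,
        ← mat_add, ← mat_sub, e1, mat_sub, e0, zero_sub]
    · have : (fun l => mat (b l) (Xop A)) * (fun l => f l • (1 : Matrix (Fin (N l)) (Fin (N l)) ℝ))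
          - (fun l => f l • (1 : Matrix (Fin (N l)) (Fin (N l)) ℝ)) * (fun l => mat (b l) (Xop A))
          = 0 := funext fun l => by
        simp only [Pi.sub_apply, Pi.mul_apply, Matrix.mul_smul, Matrix.smul_mul, Matrix.mul_one,
          Matrix.one_mul, sub_self, Pi.zero_apply]
      rw [this]
      exact Submodule.zero_mem _
  · rintro _ (⟨J, hJ, rfl⟩ | ⟨f, rfl⟩)
    · refine (congrArg (· ∈ W) (funext fun l => ?_)).mp (hK ⟨J, hJ⟩)
      rw [Pi.mul_apply, blkD_z, Matrix.smul_mul, Matrix.one_mul]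
      rfl
    · exact (congrArg (· ∈ W) (funext fun l => blkD_z N f l)).mp (hZ f)

end Vale.Agent.P225
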