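import Vale.Agent.P225.BDefs

namespace Vale.Agent.P225

open Matrix
open scoped Matrix.Norms.Operator

theorem exists_cycle {n : Type} [Fintype n] [DecidableEq n] (S : Finset n) (lam : n → ℝ) (a : ℝ)
    (h : ∑ i ∈ S, lam i ≤ S.card * a) :
    ∃ (π : Equiv.Perm n) (G : n → ℝ), (∀ i ∈ S, π i ∈ S) ∧ (∀ i, 0 ≤ G i) ∧
      ∀ i ∈ S, lam (π i) ≤ a + G (π i) - G i := by
  obtain ⟨k, hk⟩ : ∃ k, S.card = k := ⟨_, rfl⟩
  let e : Fin k ≃ {x // x ∈ S} := (S.equivFinOfCardEq hk).symm
  cases k with
  | zero =>
    exact ⟨1, 0, fun i hi => hi, fun _ => le_rfl, fun i hi => by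
      simp [Finset.card_eq_zero.1 hk] at hi⟩
  | succ k =>
    let f : Fin (k + 1) → ℝ := fun t => lam (e t) - a
    have hf : ∑ t, f t ≤ 0 := by
      rw [Finset.sum_sub_distrib, e.sum_comp fun x => lam x, Finset.sum_coe_sort S lam,
        Finset.sum_const, Finset.card_univ, Fintype.card_fin, nsmul_eq_mul, ← hk]
      linarith
    let g : Fin (k + 1) → ℝ := fun t => ∑ u, |f u| + ∑ u ∈ Finset.Iic t, f u
    have hg : ∀ t, f (t + 1) ≤ g (t + 1) - g t := fun t => by
      by_cases ht : t = Fin.last k
      · have e1 : Finset.Iic t = Finset.univ := by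
          ext u; simp [ht, Fin.le_last]
        have e2 : Finset.Iic (t + 1) = {t + 1} := by
          ext u; simp [ht]
        simp only [g, e1, e2, Finset.sum_singleton]
        linarith
      · have hv := Fin.val_add_one_of_lt (Fin.lt_last_iff_ne_last.2 ht)
        have e2 : Finset.Iic (t + 1) = insert (t + 1) (Finset.Iic t) := by
          ext u
          simp only [Finset.mem_Iic, Finset.mem_insert, Fin.le_def, Fin.ext_iff, hv]
          omega
        have e3 : t + 1 ∉ Finset.Iic t := by
          simp only [Finset.mem_Iic, Fin.le_def, hv]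
          omega
        simp only [g, e2, Finset.sum_insert e3]
        linarith
    have hπ : ∀ t, (finRotate (k + 1)).extendDomain e (e t) = e (t + 1) := fun t => by
      rw [Equiv.Perm.extendDomain_apply_image, finRotate_succ_apply]
    refine ⟨(finRotate (k + 1)).extendDomain e,
      fun i => if h : i ∈ S then g (e.symm ⟨i, h⟩) else 0, fun i hi => ?_, fun i => ?_,
      fun i hi => ?_⟩
    · obtain ⟨t, ht⟩ := e.surjective ⟨i, hi⟩
      rw [show i = e t from congrArg Subtype.val ht.symm, hπ]
      exact (e (t + 1)).2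
    · dsimp only
      split_ifs with hi
      · have h1 := Finset.sum_le_sum_of_subset_of_nonneg (f := fun u => |f u|)
          (Finset.subset_univ (Finset.Iic (e.symm ⟨i, hi⟩))) fun u _ _ => abs_nonneg _
        have h2 := Finset.sum_le_sum (s := Finset.Iic (e.symm ⟨i, hi⟩))
          fun u _ => neg_le_abs (f u)
        rw [Finset.sum_neg_distrib] at h2
        simp only [g]
        linarith
      · exact le_rfl
    · obtain ⟨t, ht⟩ := e.surjective ⟨i, hi⟩
      rw [show i = e t from congrArg Subtype.val ht.symm, hπ]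
      simp only [dif_pos (e (t + 1)).2, dif_pos (e t).2, Subtype.coe_eta, Equiv.symm_apply_apply]
      have := hg t
      simp only [f] at this
      linarith

namespace PermAux

theorem exp_sq {B : Type} [NormedRing B] [NormedAlgebra ℝ B] {x : B} (h : x * x = 0) :
    NormedSpace.exp x = 1 + x := by
  rw [NormedSpace.exp_eq_tsum ℝ]
  dsimp only
  rw [tsum_eq_sum (s := Finset.range 2)]
  · simp [Finset.sum_range_succ]
  · intro k hk
    obtain ⟨k, rfl⟩ := Nat.exists_eq_add_of_le (not_lt.1 fun h => hk (Finset.mem_range.2 h))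
    rw [pow_add, pow_two, h, zero_mul, smul_zero]

variable {I : Type} [Fintype I] [DecidableEq I] {N : I → ℕ}

/-- permutations that are realised by monomial matrices -/
def Ok (π : ∀ l, Equiv.Perm (Fin (N l))) : Prop :=
  ∃ g ∈ Submonoid.closure (Set.range (NormedSpace.exp : Blk ℝ N → Blk ℝ N)),
    ∀ l p q, g l p q ≠ 0 → p = π l q

omit [DecidableEq I] in
theorem ok_one : Ok (1 : ∀ l, Equiv.Perm (Fin (N l))) :=
  ⟨1, one_mem _, fun l p q h => by
    by_contra e
    exact h (one_apply_ne e)⟩

omit [DecidableEq I] in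
theorem Ok.mul {π π' : ∀ l, Equiv.Perm (Fin (N l))} (h : Ok π) (h' : Ok π') : Ok (π * π') := by
  obtain ⟨g, hg, h⟩ := h
  obtain ⟨g', hg', h'⟩ := h'
  refine ⟨g * g', mul_mem hg hg', fun l p q e => ?_⟩
  rw [Pi.mul_apply, Matrix.mul_apply] at e
  obtain ⟨r, -, hr⟩ := Finset.exists_ne_zero_of_sum_ne_zero e
  rw [h l p r (left_ne_zero_of_mul hr), h' l r q (right_ne_zero_of_mul hr)]
  rfl

theorem ok_swap (l : I) {i j : Fin (N l)} (hij : i ≠ j) :
    Ok (Pi.mulSingle l (Equiv.swap i j) : ∀ l, Equiv.Perm (Fin (N l))) := by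
  have hx : ∀ {i j : Fin (N l)} (c : ℝ), i ≠ j → (1 + Pi.single l (single i j c) : Blk ℝ N) ∈
      Submonoid.closure (Set.range (NormedSpace.exp : Blk ℝ N → Blk ℝ N)) := fun {i j} c hij =>
    Submonoid.subset_closure ⟨_, exp_sq (by
      rw [← Pi.single_mul, single_mul_single_of_ne _ _ _ _ hij.symm, Pi.single_zero])⟩
  refine ⟨_, mul_mem (mul_mem (hx 1 hij) (hx (-1) hij.symm)) (hx 1 hij), fun l' p q h => ?_⟩
  by_cases e : l' = l
  · subst e
    simp only [Pi.mul_apply, Pi.add_apply, Pi.one_apply, Pi.single_eq_same, mul_add, add_mul,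
      one_mul, mul_one, single_mul_single_same, single_mul_single_of_ne _ _ _ _ hij.symm,
      Matrix.add_apply, single_apply, one_apply, Matrix.zero_apply] at h
    rw [Pi.mulSingle_eq_same, Equiv.swap_apply_def]
    by_contra hc
    refine h ?_
    have := hij.symm
    by_cases p1 : i = p <;> by_cases p2 : j = p <;> by_cases q1 : i = q <;> by_cases q2 : j = q <;>
      simp_all [eq_comm]
  · simp only [Pi.mul_apply, Pi.add_apply, Pi.one_apply, Pi.single_eq_of_ne e, add_zero,
      mul_one] at h
    rw [Pi.mulSingle_eq_of_ne e]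
    by_contra e
    exact h (one_apply_ne e)

theorem ok_single (l : I) (σ : Equiv.Perm (Fin (N l))) :
    Ok (Pi.mulSingle l σ : ∀ l, Equiv.Perm (Fin (N l))) := by
  induction σ using Equiv.Perm.swap_induction_on with
  | one => rw [Pi.mulSingle_one]; exact ok_one
  | swap_mul f x y hxy ih => rw [Pi.mulSingle_mul]; exact (ok_swap l hxy).mul ih

theorem ok_all (s : Finset I) :
    ∀ π : ∀ l, Equiv.Perm (Fin (N l)), (∀ l ∉ s, π l = 1) → Ok π := by
  induction s using Finset.induction_on with
  | empty => exact fun π h => (funext fun l => h l (Finset.notMem_empty l) : π = 1) ▸ ok_one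
  | insert l s hl ih =>
    intro π h
    have e : π = Pi.mulSingle l (π l) * Function.update π l 1 := funext fun l' => by
      by_cases e : l' = l
      · subst e; simp
      · simp [e]
    rw [e]
    refine (ok_single l _).mul (ih _ fun l' hl' => ?_)
    by_cases e : l' = l
    · subst e; simp
    · rw [Function.update_of_ne e]
      exact h l' fun hm => (Finset.mem_insert.1 hm).elim e hl'

end PermAux

theorem exists_perm_elt {I : Type} [Fintype I] [DecidableEq I] {N : I → ℕ}
    (π : ∀ l, Equiv.Perm (Fin (N l))) :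
    ∃ g ∈ Submonoid.closure (Set.range (NormedSpace.exp : Blk ℝ N → Blk ℝ N)),
      ∀ i : Σ l, Fin (N l), g * (blkD N).dg (Pi.single i 1) =
        (blkD N).dg (Pi.single ⟨i.1, π i.1 i.2⟩ 1) * g := by
  obtain ⟨g, hg, h⟩ := PermAux.ok_all Finset.univ π fun l hl => (hl (Finset.mem_univ l)).elim
  refine ⟨g, hg, fun ⟨l, a⟩ => funext fun l' => Matrix.ext fun p q => ?_⟩
  rw [Pi.mul_apply, Pi.mul_apply, blkD_dg, blkD_dg, mul_diagonal, diagonal_mul, mul_comm]
  by_cases h0 : g l' p q = 0
  · rw [h0, mul_zero, mul_zero]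
  · rw [h l' p q h0]
    by_cases e : l' = l
    · subst e
      simp [Pi.single_apply]
    · rw [Pi.single_eq_of_ne fun hc => e (congrArg Sigma.fst hc),
        Pi.single_eq_of_ne fun hc => e (congrArg Sigma.fst hc)]

end Vale.Agent.P225
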