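import Vale.Agent.P225.ChrF
import Vale.Agent.P225.ODefs

namespace Vale.Agent.P225

open Vale.Agent.P255 Matrix Filter
open scoped ContDiff Topology

variable {σ : Type} [Fintype σ] [DecidableEq σ] {m : ℕ} {h η : ℝ → ℝ} {J : Matrix σ σ ℝ}

namespace RicFAux

variable {q : Fin 6 → ℝ → ℝ} {x : σ → ℝ}

/-- matrix of `GamQ q J x v` -/
noncomputable def Mq (q : Fin 6 → ℝ → ℝ) (J : Matrix σ σ ℝ) (x v : σ → ℝ) : Matrix σ σ ℝ :=
  (q 0 (sl x) / (x ⬝ᵥ x) * (x ⬝ᵥ v)) • (1 : Matrix σ σ ℝ)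
  + (q 1 (sl x) / (x ⬝ᵥ x) * ((J *ᵥ x) ⬝ᵥ v)) • J
  + vecMulVec v ((q 0 (sl x) / (x ⬝ᵥ x)) • x) + vecMulVec (J *ᵥ v) ((q 1 (sl x) / (x ⬝ᵥ x)) • J *ᵥ x)
  + vecMulVec x ((q 2 (sl x) / (x ⬝ᵥ x)) • v + (q 3 (sl x) / (x ⬝ᵥ x) ^ 2 * (x ⬝ᵥ v)) • x
      + (q 4 (sl x) / (x ⬝ᵥ x) ^ 2 * ((J *ᵥ x) ⬝ᵥ v)) • J *ᵥ x)
  + vecMulVec (J *ᵥ x) ((q 5 (sl x) / (x ⬝ᵥ x) ^ 2) • ((x ⬝ᵥ v) • J *ᵥ x + ((J *ᵥ x) ⬝ᵥ v) • x))

theorem Mq_mul (v w : σ → ℝ) : Mq q J x v *ᵥ w = GamQ q J x v w := by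
  simp only [Mq, GamQ, add_mulVec, smul_mulVec, one_mulVec, vecMulVec_mulVec, op_smul_eq_smul,
    add_dotProduct, smul_dotProduct, smul_eq_mul]
  module

omit [DecidableEq σ] in
theorem symm (v w : σ → ℝ) : GamQ q J x v w = GamQ q J x w v := by
  simp only [GamQ, dotProduct_comm w v]
  module

theorem tr (M : Matrix σ σ ℝ) : ∑ i, (M *ᵥ Pi.single i 1) i = trace M := by
  simp [trace]

theorem trJ (hJ : IsCx J) : trace J = 0 := by simp [trace, hJ.diag]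

theorem tr1' (hJ : IsCx J) (hx : x ≠ 0) (w : σ → ℝ) : trace (Mq q J x w) =
    ((Fintype.card σ + 1) * q 0 (sl x) + q 1 (sl x) + q 2 (sl x) + q 3 (sl x) + q 5 (sl x)) *
      (x ⬝ᵥ w) / (x ⬝ᵥ x) := by
  have p := (dot_self_pos hx).ne'
  simp only [Mq, trace_add, trace_smul, trace_one, trJ hJ, trace_vecMulVec, dotProduct_add,
    dotProduct_smul, smul_eq_mul, hJ.dot_dot, hJ.dot_self, dotProduct_comm w x,
    dotProduct_comm (J *ᵥ x) x]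
  field_simp
  ring

theorem tr1 (hJ : IsCx J) (hx : x ≠ 0) (w : σ → ℝ) : ∑ i, GamQ q J x (Pi.single i 1) w i =
    ((Fintype.card σ + 1) * q 0 (sl x) + q 1 (sl x) + q 2 (sl x) + q 3 (sl x) + q 5 (sl x)) *
      (x ⬝ᵥ w) / (x ⬝ᵥ x) := by
  simp only [symm _ w, ← Mq_mul, tr, tr1' hJ hx]

theorem tr2 (hJ : IsCx J) (hx : x ≠ 0) (q : Fin 6 → ℝ → ℝ) (v : σ → ℝ) :
    ∑ i, GamQ q J x v (GamQ q J x (Pi.single i 1) v) i =
      q 0 (sl x) / (x ⬝ᵥ x) * (x ⬝ᵥ v) * trace (Mq q J x v)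
      + q 1 (sl x) / (x ⬝ᵥ x) * ((J *ᵥ x) ⬝ᵥ v) * (((J *ᵥ x) ⬝ᵥ v) / (x ⬝ᵥ x) *
        (-q 0 (sl x) - (Fintype.card σ + 1) * q 1 (sl x) + q 2 (sl x) + q 4 (sl x) - q 5 (sl x)))
      + GamQ q J x v v ⬝ᵥ ((q 0 (sl x) / (x ⬝ᵥ x)) • x)
      + GamQ q J x v (J *ᵥ v) ⬝ᵥ ((q 1 (sl x) / (x ⬝ᵥ x)) • J *ᵥ x)
      + GamQ q J x v x ⬝ᵥ ((q 2 (sl x) / (x ⬝ᵥ x)) • v + (q 3 (sl x) / (x ⬝ᵥ x) ^ 2 * (x ⬝ᵥ v)) • x
        + (q 4 (sl x) / (x ⬝ᵥ x) ^ 2 * ((J *ᵥ x) ⬝ᵥ v)) • J *ᵥ x)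
      + GamQ q J x v (J *ᵥ x) ⬝ᵥ
        ((q 5 (sl x) / (x ⬝ᵥ x) ^ 2) • ((x ⬝ᵥ v) • J *ᵥ x + ((J *ᵥ x) ⬝ᵥ v) • x)) := by
  have p := (dot_self_pos hx).ne'
  have e : trace (Mq q J x v * J) = ((J *ᵥ x) ⬝ᵥ v) / (x ⬝ᵥ x) *
      (-q 0 (sl x) - (Fintype.card σ + 1) * q 1 (sl x) + q 2 (sl x) + q 4 (sl x) - q 5 (sl x)) := by
    rw [trace_mul_comm]
    simp only [Mq, mul_add, mul_smul_comm, mul_one, hJ.2, mul_vecMulVec, trace_add, trace_smul,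
      trace_neg, trace_one, trJ hJ, trace_vecMulVec, dotProduct_add, dotProduct_smul, smul_eq_mul,
      hJ.dot_dot, hJ.dot_self, hJ.sq, neg_dotProduct, dotProduct_comm (J *ᵥ x) x, hJ.swap v x,
      dotProduct_comm v (J *ᵥ x)]
    field_simp
    ring
  simp only [symm _ v, ← Mq_mul, mulVec_mulVec, tr]
  nth_rw 2 [Mq]
  simp only [mul_add, mul_smul_comm, mul_one, mul_vecMulVec, trace_add, trace_smul,
    trace_vecMulVec, smul_eq_mul, e, mulVec_mulVec]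

/-- a linear functional -/
def Lf (J : Matrix σ σ ℝ) (x v : σ → ℝ) (a b c : ℝ) (u : σ → ℝ) : ℝ :=
  a * (x ⬝ᵥ u) + b * (u ⬝ᵥ v) + c * ((J *ᵥ u) ⬝ᵥ v)

theorem trL (hJ : IsCx J) (v w : σ → ℝ) (a b c : ℝ) :
    ∑ i, Lf J x v a b c (Pi.single i 1) * w i = Lf J x v a b c w := by
  simp only [Lf, hJ.swap _ v, dotProduct_single_one, single_one_dotProduct]
  simp only [dotProduct, Finset.mul_sum, ← Finset.sum_add_distrib, ← Finset.sum_neg_distrib]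
  exact Finset.sum_congr rfl fun i _ => by ring

/-- derivative of `GamQ q J · v v` -/
noncomputable def DX (q : Fin 6 → ℝ → ℝ) (q' : Fin 6 → ℝ) (J : Matrix σ σ ℝ) (x v u : σ → ℝ) :
    σ → ℝ :=
  Lf J x v (2 * (q' 0 - 2 * q 0 (sl x)) * (x ⬝ᵥ v) / (x ⬝ᵥ x) ^ 2) (2 * q 0 (sl x) / (x ⬝ᵥ x)) 0 u • v
  + Lf J x v (2 * (q' 1 - 2 * q 1 (sl x)) * ((J *ᵥ x) ⬝ᵥ v) / (x ⬝ᵥ x) ^ 2) 0
      (2 * q 1 (sl x) / (x ⬝ᵥ x)) u • J *ᵥ v
  + Lf J x v ((q' 2 - 2 * q 2 (sl x)) * (v ⬝ᵥ v) / (x ⬝ᵥ x) ^ 2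
      + (q' 3 - 4 * q 3 (sl x)) * (x ⬝ᵥ v) ^ 2 / (x ⬝ᵥ x) ^ 3
      + (q' 4 - 4 * q 4 (sl x)) * ((J *ᵥ x) ⬝ᵥ v) ^ 2 / (x ⬝ᵥ x) ^ 3)
      (2 * q 3 (sl x) * (x ⬝ᵥ v) / (x ⬝ᵥ x) ^ 2)
      (2 * q 4 (sl x) * ((J *ᵥ x) ⬝ᵥ v) / (x ⬝ᵥ x) ^ 2) u • x
  + Lf J x v (2 * (q' 5 - 4 * q 5 (sl x)) * (x ⬝ᵥ v) * ((J *ᵥ x) ⬝ᵥ v) / (x ⬝ᵥ x) ^ 3)
      (2 * q 5 (sl x) * ((J *ᵥ x) ⬝ᵥ v) / (x ⬝ᵥ x) ^ 2)
      (2 * q 5 (sl x) * (x ⬝ᵥ v) / (x ⬝ᵥ x) ^ 2) u • J *ᵥ x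
  + (q 2 (sl x) / (x ⬝ᵥ x) * (v ⬝ᵥ v) + q 3 (sl x) / (x ⬝ᵥ x) ^ 2 * (x ⬝ᵥ v) ^ 2
      + q 4 (sl x) / (x ⬝ᵥ x) ^ 2 * ((J *ᵥ x) ⬝ᵥ v) ^ 2) • u
  + (2 * q 5 (sl x) / (x ⬝ᵥ x) ^ 2 * (x ⬝ᵥ v) * ((J *ᵥ x) ⬝ᵥ v)) • J *ᵥ u

theorem dX (hx : x ≠ 0) {q' : Fin 6 → ℝ} (hq : ∀ k, HasDerivAt (q k) (q' k) (sl x))
    (u v : σ → ℝ) : HasDerivAt (fun t : ℝ => GamQ q J (x + t • u) v v) (DX q q' J x v u) 0 := by
  have p := (dot_self_pos hx).ne'
  have A := fun k => (ChrFAux.comp hx (hq k) u).fun_div (ChrFAux.rho x u) (by simpa using p)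
  have B := fun k => (ChrFAux.comp hx (hq k) u).fun_div ((ChrFAux.rho x u).fun_pow 2)
    (by simpa using p)
  have a := ChrFAux.dot x u v
  have b := ChrFAux.dotJ J x u v
  have l : ∀ x u : σ → ℝ, HasDerivAt (fun t : ℝ => x + t • u) u 0 := fun x u =>
    (((hasDerivAt_id' (0 : ℝ)).smul_const u).const_add x).congr_deriv (one_smul _ _)
  have l2 : HasDerivAt (fun t : ℝ => J *ᵥ (x + t • u)) (J *ᵥ u) 0 := by
    simp only [mulVec_add, mulVec_smul]; exact l _ _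
  refine (((((A 0).fun_smul ((a.smul_const v).fun_add (a.smul_const v))).fun_add
    ((A 1).fun_smul ((b.smul_const (J *ᵥ v)).fun_add (b.smul_const (J *ᵥ v))))).fun_add
    ((((((A 2).mul_const (v ⬝ᵥ v)).fun_add ((B 3).fun_mul (a.fun_mul a))).fun_add
      ((B 4).fun_mul (b.fun_mul b)))).fun_smul (l x u))).fun_add
    (((B 5).fun_mul ((a.fun_mul b).fun_add (a.fun_mul b))).fun_smul l2)).congr_deriv ?_
  simp only [zero_smul, add_zero, DX, Lf]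
  match_scalars <;> field_simp <;> ring

theorem dv (hJ : IsCx J) (hx : x ≠ 0) {q' : Fin 6 → ℝ} (v : σ → ℝ) :
    ∑ i, DX q q' J x v (Pi.single i 1) i =
      (2 * q 0 (sl x) - 2 * q 1 (sl x) + q' 2 + (Fintype.card σ - 2) * q 2 (sl x)) * (v ⬝ᵥ v) / (x ⬝ᵥ x)
      + (2 * q' 0 - 4 * q 0 (sl x) + q' 3 + (Fintype.card σ - 2) * q 3 (sl x) - 2 * q 5 (sl x)) *
        (x ⬝ᵥ v) ^ 2 / (x ⬝ᵥ x) ^ 2
      + (-2 * q' 1 + 4 * q 1 (sl x) + q' 4 + (Fintype.card σ - 2) * q 4 (sl x) + 2 * q 5 (sl x)) *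
        ((J *ᵥ x) ⬝ᵥ v) ^ 2 / (x ⬝ᵥ x) ^ 2 := by
  have p := (dot_self_pos hx).ne'
  simp only [DX, Pi.add_apply, Pi.smul_apply, smul_eq_mul, Finset.sum_add_distrib, trL hJ,
    ← Finset.mul_sum, tr, trJ hJ, Pi.single_eq_same, Finset.sum_const, Finset.card_univ,
    nsmul_eq_mul]
  simp only [Lf, hJ.dot_self, hJ.dot_x x, hJ.sq, neg_dotProduct]
  field_simp
  ring

/-- derivatives of the coefficient functions -/
noncomputable def qd (m : ℕ) (h η : ℝ → ℝ) (s : ℝ) : Fin 6 → ℝ :=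
  ![deriv (deriv h) s - deriv (deriv η) s,
    Real.exp ((4 * m + 2) * η s) * ((4 * m + 2) * deriv η s),
    2 * deriv η s * Real.exp (-2 * η s) * (1 + deriv h s - deriv η s)
      - Real.exp (-2 * η s) * (deriv (deriv h) s - deriv (deriv η) s),
    deriv (deriv h) s - 2 * deriv η s * Real.exp (-2 * η s) * (1 + deriv h s - deriv η s)
      + (Real.exp (-2 * η s) - 2) * (deriv (deriv h) s - deriv (deriv η) s),
    -(4 * m * deriv η s * Real.exp (4 * m * η s) * (1 + deriv h s + 2 * m * deriv η s))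
      - Real.exp (4 * m * η s) * (deriv (deriv h) s + 2 * m * deriv (deriv η) s)
      - 2 * deriv η s * Real.exp (-2 * η s) * (1 + deriv h s - deriv η s)
      + Real.exp (-2 * η s) * (deriv (deriv h) s - deriv (deriv η) s)
      + 2 * (Real.exp ((4 * m + 2) * η s) * ((4 * m + 2) * deriv η s)),
    (2 * m + 1) * deriv (deriv η) s - Real.exp ((4 * m + 2) * η s) * ((4 * m + 2) * deriv η s)]

theorem dq (hp : Prof h η) (s : ℝ) (k : Fin 6) : HasDerivAt (qf m h η k) (qd m h η s k) s := by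
  have a := (hp.es.differentiable (by simp) s).hasDerivAt
  have b := ((hp.hs.iterate_deriv 1).differentiable (by simp) s).hasDerivAt
  have c := ((hp.es.iterate_deriv 1).differentiable (by simp) s).hasDerivAt
  simp only [Function.iterate_one] at b c
  have K := ((a.const_mul (4 * (m : ℝ) + 2)).exp).sub_const 1
  have E := (a.const_mul (-2)).exp.fun_mul ((b.const_add 1).fun_sub c)
  fin_cases k
  · exact b.fun_sub c
  · exact K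
  · exact (E.const_sub 1).congr_deriv (by simp [qd]; ring)
  · exact (((b.sub_const 1).fun_add E).fun_sub ((b.fun_sub c).const_mul 2)).congr_deriv
      (by simp [qd]; ring)
  · exact ((((a.const_mul (4 * (m : ℝ))).exp.fun_neg.fun_mul ((b.const_add 1).fun_add
      (c.const_mul (2 * (m : ℝ))))).fun_add E).fun_add (K.const_mul 2)).congr_deriv
      (by simp [qd]; ring)
  · exact (c.const_mul (2 * (m : ℝ) + 1)).fun_sub K

end RicFAux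

theorem ric_met (hp : Prof h η) (hJ : IsCx J) (hc : Fintype.card σ = 2 * m + 2) {x : σ → ℝ}
    (hx : x ≠ 0) (v : σ → ℝ) :
    ric (met m h η J) x v v =
      (RH m (1 + deriv h (sl x)) (deriv (deriv h) (sl x)) (η (sl x)) (deriv η (sl x))
          (deriv (deriv η) (sl x)) * Real.exp (-2 * η (sl x)) *
          (v ⬝ᵥ v - (x ⬝ᵥ v) ^ 2 / (x ⬝ᵥ x) - ((J *ᵥ x) ⬝ᵥ v) ^ 2 / (x ⬝ᵥ x))
        + RR m (deriv (deriv h) (sl x)) (deriv η (sl x)) * ((x ⬝ᵥ v) ^ 2 / (x ⬝ᵥ x))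
        + RV m (1 + deriv h (sl x)) (deriv (deriv h) (sl x)) (η (sl x)) (deriv η (sl x))
          (deriv (deriv η) (sl x)) * Real.exp (4 * m * η (sl x)) *
          (((J *ᵥ x) ⬝ᵥ v) ^ 2 / (x ⬝ᵥ x))) / (x ⬝ᵥ x) := by
  have hg := met_isMetric (m := m) hp hJ
  have p := (dot_self_pos hx).ne'
  have ev : ∀ᶠ y in 𝓝 x, y ≠ 0 := isOpen_compl_singleton.mem_nhds hx
  have hd : ∀ a b, DifferentiableAt ℝ (fun y => chr (met m h η J) y a b) x := fun a b =>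
    ((hg.diff_chr x).clm_apply (differentiableAt_const a)).clm_apply (differentiableAt_const b)
  have tr : ∀ {y : σ → ℝ}, y ≠ 0 → ∀ w, ∑ i, chr (met m h η J) y (Pi.single i 1) w i =
      (2 * m + 2) * (deriv h (sl y) * (y ⬝ᵥ w) / (y ⬝ᵥ y)) := fun hy w => by
    simp only [chr_met hp hJ hy, RicFAux.tr1 hJ hy, hc, qf, cons_val_zero, cons_val_one, cons_val]
    push_cast
    ring
  have t1 : ∑ i, fderiv ℝ (fun y => chr (met m h η J) y v v) x (Pi.single i 1) i = _ :=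
    Eq.trans (Finset.sum_congr rfl fun i _ => congrFun (HasDerivAt.unique
      ((hd v v).hasFDerivAt.hasLineDerivAt _)
      ((RicFAux.dX hx (RicFAux.dq hp _) _ v).congr_of_eventuallyEq
        (Tendsto.eventually (p := fun y => chr (met m h η J) y v v = GamQ (qf m h η) J y v v)
          (Continuous.tendsto' (by fun_prop) _ _ (by simp))
          (ev.mono fun y hy => chr_met hp hJ hy v v)))) i) (RicFAux.dv hJ hx v)
  have t2 : ∑ i, fderiv ℝ (fun y => chr (met m h η J) y (Pi.single i 1) v) x v i =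
      (2 * m + 2) * ((deriv (deriv h) (sl x) - 2 * deriv h (sl x)) * (x ⬝ᵥ v) ^ 2 / (x ⬝ᵥ x) ^ 2
        + deriv h (sl x) * (v ⬝ᵥ v) / (x ⬝ᵥ x)) := by
    have a := HasFDerivAt.fun_sum (u := Finset.univ) fun i _ =>
      hasFDerivAt_pi'.1 (hd (Pi.single i 1) v).hasFDerivAt i
    have b := (a.congr_of_eventuallyEq (ev.mono fun y hy => (tr hy v).symm)).hasLineDerivAt v
    have c := (((ChrFAux.comp hx ((hp.hs.iterate_deriv 1).differentiable (by simp) _).hasDerivAt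
      v).fun_mul (ChrFAux.dot x v v)).fun_div (ChrFAux.rho x v) (by simpa using p)).const_mul
        (2 * (m : ℝ) + 2)
    have d := HasDerivAt.unique b c
    simp only [_root_.sum_apply, ContinuousLinearMap.comp_apply, ContinuousLinearMap.proj_apply,
      zero_smul, add_zero, Function.iterate_one] at d
    rw [d]
    field_simp
    ring
  have t4 : ∑ i, chr (met m h η J) x v (chr (met m h η J) x (Pi.single i 1) v) i = _ :=
    Eq.trans (by simp only [chr_met hp hJ hx]) (RicFAux.tr2 hJ hx (qf m h η) v)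
  simp only [ric, curv, Pi.add_apply, Pi.sub_apply, Finset.sum_add_distrib, Finset.sum_sub_distrib]
  rw [t1, t2, t4, tr hx, chr_met hp hJ hx, RicFAux.tr1' hJ hx, hc]
  have e : ∀ a b c : ℝ, c = 4 * m * a - 2 * b → Real.exp (c * η (sl x)) =
      Real.exp (4 * m * η (sl x) * a) * Real.exp (-2 * η (sl x) * b) := fun a b c e => by
    rw [← Real.exp_add, e]; congr 1; ring
  have e1 := e 1 (-1) (4 * m + 2) (by ring)
  have e2 := e 1 (-2) (4 * m + 4) (by ring)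
  have e3 := e 0 (-1) 2 (by ring)
  rw [mul_neg (-2 * η (sl x)), Real.exp_neg] at e1 e2 e3
  rw [mul_comm _ (2 : ℝ), show (2 : ℝ) * (-2 * η (sl x)) = (2 : ℕ) * (-2 * η (sl x)) by simp,
    Real.exp_nat_mul] at e2
  have p2 := (Real.exp_pos (-2 * η (sl x))).ne'
  simp only [mul_one, mul_zero, Real.exp_zero] at e1 e2 e3
  simp only [GamQ, qf, RicFAux.qd, RH, RR, RV, cons_val_zero, cons_val_one, cons_val, e1, e2, e3,
    add_dotProduct, dotProduct_add, smul_dotProduct, dotProduct_smul, smul_eq_mul, hJ.dot_dot,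
    hJ.dot_self, hJ.dot_x x, dotProduct_comm (J *ᵥ x) x, dotProduct_comm v x, hJ.sq,
    dotProduct_comm v (J *ᵥ x), hJ.swap v x, dotProduct_comm (J *ᵥ v) v, neg_dotProduct]
  generalize Real.exp (-2 * η (sl x)) = E at *
  generalize Real.exp (4 * m * η (sl x)) = F
  push_cast
  field_simp
  ring

theorem ric_gmet (hp : Prof h η) {Js : ℝ → Matrix σ σ ℝ} (ha : Adm η Js)
    (hc : Fintype.card σ = 2 * m + 2)
    (h1 : ∀ s, 0 ≤ RH m (1 + deriv h s) (deriv (deriv h) s) (η s) (deriv η s) (deriv (deriv η) s))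
    (h2 : ∀ s, 0 ≤ RV m (1 + deriv h s) (deriv (deriv h) s) (η s) (deriv η s) (deriv (deriv η) s))
    (h3 : ∀ s, 0 ≤ RR m (deriv (deriv h) s) (deriv η s)) (x v : σ → ℝ) :
    0 ≤ ric (gmet m h η Js) x v v := by
  rw [ric_congr (gmet_ev hp ha x)]
  by_cases hx : x = 0
  · rw [ric_congr (hx ▸ MetAux.ev0 hp fun _ => _), ric_flat]
  have p := (dot_self_pos hx).le
  have := MetAux.perp (ha.cx (sl x)) x v
  have := h1 (sl x)
  have := h2 (sl x)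
  have := h3 (sl x)
  rw [ric_met hp (ha.cx _) hc hx]
  positivity

end Vale.Agent.P225
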