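import Vale.Agent.P225.Xop

namespace Vale.Agent.P225

open Matrix MvPolynomial

variable {σ : Type} [Fintype σ] [DecidableEq σ] {R : Type} [Field R]
  {τ : Type} [Fintype τ] [DecidableEq τ]

theorem subst_X (S : Matrix τ σ R) (t : τ) : subst S (X t) = lin (S t) := by simp [subst]

namespace SubstAux

theorem pderiv_subst (S : Matrix τ σ R) (i : σ) (p : MvPolynomial τ R) :
    pderiv i (subst S p) = ∑ t, C (S t i) * subst S (pderiv t p) := by
  induction p using MvPolynomial.induction_on with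
  | C a => simp
  | add p q hp hq => simp only [map_add, hp, hq, mul_add, Finset.sum_add_distrib]
  | mul_X p t hp =>
    simp only [map_mul, pderiv_mul, hp, subst_X, XopAux.pderiv_lin, map_add, mul_add,
      Finset.sum_add_distrib, Finset.sum_mul, mul_assoc, pderiv_X, Pi.single_apply,
      apply_ite (subst S), map_one, map_zero, mul_ite, mul_one, mul_zero, Finset.sum_ite_eq,
      Finset.mem_univ, if_true]
    ring

theorem subst_lin (S : Matrix τ σ R) (a : τ → R) : subst S (lin a) = lin (a ᵥ* S) := by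
  rw [← XopAux.lin_mul]
  nth_rewrite 1 [lin]
  simp only [map_sum, map_smul, subst_X, C_mul']

end SubstAux

open SubstAux

theorem subst_Xop {S : Matrix τ σ R} {A : Matrix σ σ R} {A' : Matrix τ τ R} (h : S * A = A' * S)
    (p : MvPolynomial τ R) : Xop A (subst S p) = subst S (Xop A' p) := by
  have e : ∀ t, lin (A' t ᵥ* S) = ∑ i, C (S t i) * lin (A i) := fun t => by
    rw [XopAux.lin_mul]; exact congrArg lin (congrFun h t).symm
  simp only [Xop_apply, pderiv_subst, map_sum, map_mul, subst_lin, e, Finset.mul_sum,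
    Finset.sum_mul]
  rw [Finset.sum_comm]
  exact Finset.sum_congr rfl fun _ _ => Finset.sum_congr rfl fun _ _ => by ring

theorem subst_homog (S : Matrix τ σ R) {p : MvPolynomial τ R} {l : ℕ} (hp : p.IsHomogeneous l) :
    (subst S p).IsHomogeneous l := by
  have := hp.aeval (fun t => lin (S t)) fun t => lin_homog _
  rwa [one_mul] at this

theorem eval_subst (S : Matrix τ σ R) (x : σ → R) (p : MvPolynomial τ R) :
    eval x (subst S p) = eval (S *ᵥ x) p := by
  induction p using MvPolynomial.induction_on with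
  | C a => simp
  | add p q hp hq => simp only [map_add, hp, hq]
  | mul_X p t hp => simp only [map_mul, hp, subst_X, eval_lin, eval_X]; rfl

theorem subst_subst_of {S : Matrix τ σ R} {S' : Matrix σ τ R} (h : S' * S = 1)
    (p : MvPolynomial σ R) : subst S (subst S' p) = p := by
  induction p using MvPolynomial.induction_on with
  | C a => simp
  | add p q hp hq => simp only [map_add, hp, hq]
  | mul_X p t hp =>
    rw [map_mul, map_mul, hp, subst_X, subst_lin, show S' t ᵥ* S = (1 : Matrix σ σ R) t from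
      congrFun h t]
    simp [lin, one_apply]

theorem Lap_subst (S : Matrix τ σ R) (p : MvPolynomial τ R) :
    Lap (subst S p) = subst S (∑ t, ∑ u, (S * Sᵀ) t u • pderiv t (pderiv u p)) := by
  simp only [Lap_apply, pderiv_subst, map_sum, pderiv_C_mul, map_smul, mul_apply, transpose_apply,
    Finset.sum_smul, Finset.mul_sum]
  rw [Finset.sum_comm]
  conv_rhs => rw [Finset.sum_comm]
  refine Finset.sum_congr rfl fun u _ => ?_
  rw [Finset.sum_comm]
  refine Finset.sum_congr rfl fun t _ => Finset.sum_congr rfl fun i _ => ?_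
  rw [C_mul', C_mul', smul_smul, mul_comm]

theorem cpx_add (p q : MvPolynomial σ ℝ) : cpx (p + q) = cpx p + cpx q := map_add _ _ _

theorem cpx_smul (a : ℝ) (p : MvPolynomial σ ℝ) : cpx (a • p) = (a : ℂ) • cpx p := by
  ext d; simp [cpx, coeff_map]

theorem cpx_sum {α : Type} (S : Finset α) (p : α → MvPolynomial σ ℝ) :
    cpx (∑ a ∈ S, p a) = ∑ a ∈ S, cpx (p a) := map_sum _ _ _

theorem cpx_Xop (A : Matrix σ σ ℝ) (p : MvPolynomial σ ℝ) :
    cpx (Xop A p) = Xop (A.map (↑)) (cpx p) := by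
  simp only [Xop_apply, lin, ← C_mul', cpx, map_sum, map_mul, map_C, map_X, pderiv_map, map_apply]
  rfl

theorem cpx_Lap (p : MvPolynomial σ ℝ) : cpx (Lap p) = Lap (cpx p) := by
  simp only [Lap_apply, cpx, map_sum, pderiv_map]

theorem cpx_mem {l : ℕ} {p : MvPolynomial σ ℝ} (hp : p ∈ Hsp ℝ σ l) : cpx p ∈ Hsp ℂ σ l :=
  mem_Hsp.2 ⟨(mem_Hsp.1 hp).1.map _, by rw [← cpx_Lap, (mem_Hsp.1 hp).2]; exact map_zero _⟩

theorem exists_re_im (p : MvPolynomial σ ℂ) :
    ∃ p₁ p₂ : MvPolynomial σ ℝ, p = cpx p₁ + Complex.I • cpx p₂ := by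
  induction p using MvPolynomial.induction_on' with
  | add p q hp hq =>
    obtain ⟨a, b, rfl⟩ := hp
    obtain ⟨c, d, rfl⟩ := hq
    exact ⟨a + c, b + d, by rw [cpx_add, cpx_add, smul_add]; abel⟩
  | monomial α a =>
    refine ⟨monomial α a.re, monomial α a.im, ?_⟩
    simp only [cpx, map_monomial, smul_monomial, ← map_add]
    congr 1
    simp [mul_comm Complex.I]

namespace SubstAux

omit [Fintype σ] [DecidableEq σ] in
theorem coeff_re_im {p₁ p₂ : MvPolynomial σ ℝ} {d : σ →₀ ℕ}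
    (h : coeff d (cpx p₁ + Complex.I • cpx p₂) = 0) : coeff d p₁ = 0 ∧ coeff d p₂ = 0 := by
  simpa [cpx, coeff_map, Complex.ext_iff] using h

end SubstAux

theorem re_im_eq_zero {p₁ p₂ : MvPolynomial σ ℝ} (h : cpx p₁ + Complex.I • cpx p₂ = 0) :
    p₁ = 0 ∧ p₂ = 0 :=
  ⟨MvPolynomial.ext _ _ fun d => (coeff_re_im (by rw [h]; rfl)).1,
    MvPolynomial.ext _ _ fun d => (coeff_re_im (by rw [h]; rfl)).2⟩

theorem re_im_homog {p₁ p₂ : MvPolynomial σ ℝ} {l : ℕ}
    (h : (cpx p₁ + Complex.I • cpx p₂).IsHomogeneous l) :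
    p₁.IsHomogeneous l ∧ p₂.IsHomogeneous l :=
  ⟨fun _ hd => h fun e => hd (coeff_re_im e).1, fun _ hd => h fun e => hd (coeff_re_im e).2⟩

theorem re_im_mem {p₁ p₂ : MvPolynomial σ ℝ} {l : ℕ}
    (h : cpx p₁ + Complex.I • cpx p₂ ∈ Hsp ℂ σ l) : p₁ ∈ Hsp ℝ σ l ∧ p₂ ∈ Hsp ℝ σ l := by
  obtain ⟨h1, h2⟩ := mem_Hsp.1 h
  rw [map_add, map_smul, ← cpx_Lap, ← cpx_Lap] at h2
  exact ⟨mem_Hsp.2 ⟨(re_im_homog h1).1, (re_im_eq_zero h2).1⟩,
    mem_Hsp.2 ⟨(re_im_homog h1).2, (re_im_eq_zero h2).2⟩⟩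

end Vale.Agent.P225
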