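import Vale.Agent.P225.Fis
import Vale.Agent.P225.Subst

namespace Vale.Agent.P225

open Matrix MvPolynomial

variable {σ : Type} [Fintype σ] [DecidableEq σ] {l N : ℕ} {b : Fin N → MvPolynomial σ ℝ}

theorem ONB.ne_zero (hb : ONB l b) (i : Fin N) : b i ≠ 0 := by
  intro h
  have := hb.orth i i
  rw [h, if_pos rfl, map_zero] at this
  exact zero_ne_one this

theorem ONB.apply_eq (hb : ONB l b) {T : Module.End ℝ (MvPolynomial σ ℝ)}
    (hT : ∀ p ∈ Hsp ℝ σ l, T p ∈ Hsp ℝ σ l) (j : Fin N) : T (b j) = ∑ i, mat b T i j • b i :=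
  hb.span _ (hT _ (hb.mem j))

namespace MatAux

omit [DecidableEq σ] in
theorem mul_of {R : Type} [Field R] (b : Fin N → MvPolynomial σ R)
    (T T' : Module.End R (MvPolynomial σ R)) (h : ∀ j, T' (b j) = ∑ i, mat b T' i j • b i) :
    mat b (T * T') = mat b T * mat b T' := by
  ext i j
  rw [Matrix.mul_apply]
  change Fis (b i) (T (T' (b j))) = _
  rw [h j, map_sum, map_sum]
  refine Finset.sum_congr rfl fun k _ => ?_
  rw [map_smul, map_smul, smul_eq_mul, mul_comm]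
  rfl

end MatAux

theorem ONB.mat_mul (hb : ONB l b) (T : Module.End ℝ (MvPolynomial σ ℝ))
    {T' : Module.End ℝ (MvPolynomial σ ℝ)} (hT : ∀ p ∈ Hsp ℝ σ l, T' p ∈ Hsp ℝ σ l) :
    mat b (T * T') = mat b T * mat b T' :=
  MatAux.mul_of b T T' (hb.apply_eq hT)

theorem ONB.mat_diag (hb : ONB l b) {T : Module.End ℝ (MvPolynomial σ ℝ)} {ν : Fin N → ℝ}
    (h : ∀ i, T (b i) = ν i • b i) : mat b T = diagonal ν := by
  ext i j
  change Fis (b i) (T (b j)) = _
  rw [h j, map_smul, hb.orth, diagonal_apply]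
  split_ifs with e
  · rw [e, smul_eq_mul, mul_one]
  · rw [smul_zero]

theorem ONB.span_cpx (hb : ONB l b) {p : MvPolynomial σ ℂ} (hp : p ∈ Hsp ℂ σ l) :
    p = ∑ i, Fis (cpx (b i)) p • cpx (b i) := by
  obtain ⟨p₁, p₂, rfl⟩ := exists_re_im p
  obtain ⟨h1, h2⟩ := re_im_mem hp
  have key : ∀ q ∈ Hsp ℝ σ l, ∑ i, Fis (cpx (b i)) (cpx q) • cpx (b i) = cpx q := fun q hq => by
    conv_rhs => rw [hb.span q hq, cpx_sum]
    exact Finset.sum_congr rfl fun i _ => by rw [cpx_smul, Fis_cpx]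
  simp only [map_add, map_smul, add_smul, Finset.sum_add_distrib, smul_assoc, ← Finset.smul_sum,
    key _ h1, key _ h2]

theorem ONB.mat_mul_cpx (hb : ONB l b) (T : Module.End ℂ (MvPolynomial σ ℂ))
    {T' : Module.End ℂ (MvPolynomial σ ℂ)} (hT : ∀ p ∈ Hsp ℂ σ l, T' p ∈ Hsp ℂ σ l) :
    mat (fun i => cpx (b i)) (T * T') =
      mat (fun i => cpx (b i)) T * mat (fun i => cpx (b i)) T' :=
  MatAux.mul_of _ T T' fun j => hb.span_cpx (hT _ (cpx_mem (hb.mem j)))

theorem mat_add {R : Type} [Field R] (b : Fin N → MvPolynomial σ R)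
    (T T' : Module.End R (MvPolynomial σ R)) : mat b (T + T') = mat b T + mat b T' := by
  ext i j
  simp [mat]

theorem mat_sub {R : Type} [Field R] (b : Fin N → MvPolynomial σ R)
    (T T' : Module.End R (MvPolynomial σ R)) : mat b (T - T') = mat b T - mat b T' := by
  ext i j
  simp [mat]

theorem mat_smul {R : Type} [Field R] (b : Fin N → MvPolynomial σ R) (a : R)
    (T : Module.End R (MvPolynomial σ R)) : mat b (a • T) = a • mat b T := by
  ext i j
  simp [mat]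

theorem mat_cpx_Xop (b : Fin N → MvPolynomial σ ℝ) (A : Matrix σ σ ℝ) :
    mat (fun i => cpx (b i)) (Xop (A.map (↑))) = (mat b (Xop A)).map (↑) := by
  ext i j
  simp only [mat, Matrix.of_apply, Matrix.map_apply, ← cpx_Xop, Fis_cpx]

theorem mat_cpx_Xop_sq (b : Fin N → MvPolynomial σ ℝ) (A : Matrix σ σ ℝ) :
    mat (fun i => cpx (b i)) (Xop (A.map (↑)) * Xop (A.map (↑))) =
      (mat b (Xop A * Xop A)).map (↑) := by
  ext i j
  simp only [mat, Matrix.of_apply, Matrix.map_apply, Module.End.mul_apply, ← cpx_Xop, Fis_cpx]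

theorem ONB.w_dot (hb : ONB l b) {a : σ → ℂ} (ha : a ⬝ᵥ a = 0) (c : σ → ℂ) :
    (l.factorial : ℂ) * ((fun i => eval a (cpx (b i))) ⬝ᵥ fun i => eval c (cpx (b i))) =
      (a ⬝ᵥ c) ^ l := by
  have h := congrArg (eval c) (hb.span_cpx (lin_pow_mem ha l))
  rw [map_pow, eval_lin, map_sum] at h
  rw [h, dotProduct, Finset.mul_sum]
  refine Finset.sum_congr rfl fun i _ => ?_
  rw [smul_eval, Fis_symm, Fis_lin_pow a (mem_Hsp.1 (cpx_mem (hb.mem i))).1, mul_assoc]

theorem ONB.comb_eq_zero (hb : ONB l b) {v : Fin N → ℂ} (h : ∑ i, v i • cpx (b i) = 0) :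
    v = 0 := by
  funext j
  have h1 := congrArg (Fis (cpx (b j))) h
  simp only [map_sum, map_smul, Fis_cpx, hb.orth, map_zero, smul_eq_mul] at h1
  rw [Finset.sum_eq_single j (fun i _ hi => by rw [if_neg hi.symm]; simp) (by simp)] at h1
  simpa using h1

end Vale.Agent.P225
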