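import Vale.Agent.P225.Num
import Vale.Agent.P225.Count
import Vale.Agent.P225.Count0
import Vale.Agent.P225.Basis
import Vale.Agent.P225.Mat
import Vale.Agent.P225.ODefs

namespace Vale.Agent.P225

open Matrix MvPolynomial

namespace SelectAux

theorem tele (N c : ℕ → ℕ) (h : ∀ l, c (l + 2) ≤ N (l + 2) + c l) (k : ℕ) :
    c (k + 2) + c (k + 1) ≤ ∑ l ∈ Finset.Icc 3 (k + 2), N l + c 2 + c 1 := by
  induction k with
  | zero => simp
  | succ k ih =>
    rw [Finset.sum_Icc_succ_top (by omega)]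
    have := h (k + 1)
    simp only [add_assoc, Nat.reduceAdd] at *
    omega

theorem pick {n : Type} [Fintype n] [DecidableEq n] (ν : n → ℝ) (Q : Finset ℕ) (t : ℕ → ℝ)
    (d : ℕ → ℕ) (ht : Set.InjOn t Q)
    (hd : ∀ q ∈ Q, d q ≤ (Finset.univ.filter fun i => ν i = t q).card) :
    ∃ S : Finset n, S.card = ∑ q ∈ Q, d q ∧
      ∀ F : ℝ → ℝ, ∑ i ∈ S, F (ν i) = ∑ q ∈ Q, d q * F (t q) := by
  choose! T hT hc using fun q hq => Finset.exists_subset_card_eq (hd q hq)
  have hv : ∀ q ∈ Q, ∀ i ∈ T q, ν i = t q := fun q hq i hi => (Finset.mem_filter.1 (hT q hq hi)).2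
  have hdis : (Q : Set ℕ).PairwiseDisjoint T := fun q hq q' hq' hne =>
    Finset.disjoint_left.2 fun i hi hi' => hne (ht hq hq' ((hv q hq i hi).symm.trans
      (hv q' hq' i hi')))
  refine ⟨Q.biUnion T, (Finset.card_biUnion hdis).trans (Finset.sum_congr rfl hc), fun F => ?_⟩
  rw [Finset.sum_biUnion hdis]
  refine Finset.sum_congr rfl fun q hq => ?_
  rw [Finset.sum_congr rfl fun i hi => congrArg F (hv q hq i hi), Finset.sum_const, hc q hq,
    nsmul_eq_mul]

theorem arith {d r l v : ℝ} (h : 0 ≤ d * r ^ 2 * (v - 7466 / 100000)) :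
    2 / 100000 * (d * (7466 * r ^ 2 + 100000 * 16073543) - d * (100250 * (l * (l + 30)))) ≤
      2 * d * 16073543 - 2 * d * (401 / 400 * (l * (l + 2 * 15)) + v * -r ^ 2) := by
  nlinarith

theorem tele' (N c : ℕ → ℕ) (h : ∀ l, c (l + 2) ≤ N (l + 2) + c l) :
    c 3989 + c 3988 ≤ ∑ l ∈ Finset.Icc 3 3989, N l + c 2 + c 1 := by
  have := tele N c h 3987
  simpa only [Nat.reduceAdd] using this

theorem fin_count {A B c1 c2 c3 c4 s1 s2 : ℕ} (h1 : A + B + c1 + c2 < c3 + c4 + s2)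
    (h2 : c3 + c4 ≤ s1 + c1 + c2) : A + B < s1 + s2 := by omega

end SelectAux

open SelectAux

variable {σ : Type} [Fintype σ] [DecidableEq σ] {O : Matrix (Fin 16 ⊕ Fin 16) σ ℝ}

theorem select (hO : IsFrame O) (hσ : Fintype.card σ = 32) :
    ∃ (N : ℕ → ℕ) (b : ∀ l, Fin (N l) → MvPolynomial σ ℝ) (ν : ∀ l, Fin (N l) → ℝ)
      (S : ∀ l, Finset (Fin (N l))), (∀ l, ONB l (b l)) ∧
      (∀ l i, Xop (Jfr O 1) (Xop (Jfr O 1) (b l i)) = ν l i • b l i) ∧
      (∀ (l : ℕ) i, -(l : ℝ) ^ 2 ≤ ν l i ∧ ν l i ≤ 0) ∧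
      (∀ l ∈ Finset.Icc 3 4029, ∑ i ∈ S l, (Real.exp (2 * (Real.log (401 / 400) / 2)) *
        ((l : ℝ) * (l + 2 * (15 : ℕ))) + vs 15 (Real.log (401 / 400) / 2) * ν l i) ≤
          (S l).card * (16073543 : ℝ)) ∧
      (32 + 4000 - 1).choose 4000 + (32 + 4000 - 2).choose (4000 - 1) <
        ∑ l ∈ Finset.Icc 3 4029, (S l).card := by
  choose N b ν hb hν hN hc using exists_onb (hO.cx (ε := 1) fun _ => Or.inl rfl).1
  obtain ⟨Q, hQ, hn⟩ := num_check
  have hν' : ∀ (l : ℕ) i, -(l : ℝ) ^ 2 ≤ ν l i ∧ ν l i ≤ 0 := fun l i =>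
    eig_sq hO ((hb l).mem i).1 ((hb l).ne_zero i) (hν l i)
  have he : Real.exp (2 * (Real.log (401 / 400) / 2)) = 401 / 400 := by
    rw [mul_div_cancel₀ _ two_ne_zero, Real.exp_log (by norm_num)]
  have hv : (7466 / 100000 : ℝ) ≤ vs 15 (Real.log (401 / 400) / 2) := num_vs
  have key : ∀ l : ℕ, ∃ S : Finset (Fin (N l)), (l ≤ 4029 →
      ∑ i ∈ S, (Real.exp (2 * (Real.log (401 / 400) / 2)) *
        ((l : ℝ) * (l + 2 * (15 : ℕ))) + vs 15 (Real.log (401 / 400) / 2) * ν l i) ≤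
          S.card * (16073543 : ℝ)) ∧ (l ≤ 3989 → S.card = N l) ∧
      (l ∈ Finset.Icc 3990 4029 → S.card = ∑ q ∈ Q l, 2 * dd (l - 2 - q) q) := fun l => by
    rw [he]
    by_cases hl : l ∈ Finset.Icc 3990 4029
    · obtain ⟨h1, h2⟩ := hQ l hl
      have hc1 : ∀ q ∈ Q l, ((l - 2 - 2 * q : ℕ) : ℝ) = ((l - 2 - q : ℕ) : ℝ) - q := fun q hq => by
        have := h1 q hq
        rw [← Nat.cast_sub (by omega)]
        congr 1
        omega
      obtain ⟨S, hS, hF⟩ := pick (ν l) (Q l) (fun q => -((l - 2 - 2 * q : ℕ) : ℝ) ^ 2)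
        (fun q => 2 * dd (l - 2 - q) q) (fun q hq q' hq' e => by
          have a1 := h1 q hq
          have a2 := h1 q' hq'
          have a3 : l - 2 - 2 * q = l - 2 - 2 * q' := by
            have := neg_injective e
            rwa [sq_eq_sq₀ (Nat.cast_nonneg _) (Nat.cast_nonneg _), Nat.cast_inj] at this
          omega) fun q hq => by
          have a1 := h1 q hq
          have := finrank_eig hO (m := 15) (by simp) (p := l - 2 - q) (q := q) (by omega)
          rw [show l - 2 - q + q + 2 = l by omega, ← hc, ← hc1 q hq] at this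
          rw [dd, Nat.mul_sub, tsub_le_iff_right]
          exact this
      refine ⟨S, fun _ => ?_, fun h => ?_, fun _ => hS⟩
      · rw [hF fun x => 401 / 400 * ((l : ℝ) * (l + 2 * (15 : ℕ))) +
          vs 15 (Real.log (401 / 400) / 2) * x, hS]
        have h3 := (Nat.cast_le (α := ℝ)).2 h2
        rw [Nat.cast_sum, Nat.cast_sum, ← sub_nonneg, ← Finset.sum_sub_distrib] at h3
        rw [Nat.cast_sum, Finset.sum_mul, ← sub_nonneg, ← Finset.sum_sub_distrib]
        refine (mul_nonneg (show (0 : ℝ) ≤ 2 / 100000 by norm_num) h3).trans ?_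
        rw [Finset.mul_sum]
        refine Finset.sum_le_sum fun q _ => ?_
        have := mul_nonneg (mul_nonneg (Nat.cast_nonneg (α := ℝ) (dd (l - 2 - q) q))
          (sq_nonneg ((l - 2 - 2 * q : ℕ) : ℝ))) (sub_nonneg.2 hv)
        generalize l - 2 - 2 * q = r at this ⊢
        generalize dd (l - 2 - q) q = d at this ⊢
        rw [Nat.cast_mul, Nat.cast_mul, Nat.cast_mul, Nat.cast_mul, Nat.cast_mul, Nat.cast_add,
          Nat.cast_add, Nat.cast_mul, Nat.cast_mul, Nat.cast_pow]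
        simp only [Nat.cast_ofNat]
        exact arith this
      · have := (Finset.mem_Icc.1 hl).1
        omega
    · refine ⟨Finset.univ, fun h => ?_, fun _ => by simp, fun h => (hl h).elim⟩
      refine (Finset.sum_le_card_nsmul _ _ _ fun i _ => ?_).trans_eq (nsmul_eq_mul _ _)
      have a1 : (l : ℝ) ≤ 3989 := by
        have : l ≤ 3989 := by
          rw [Finset.mem_Icc] at hl
          omega
        exact_mod_cast this
      have a2 := mul_nonneg (le_trans (by norm_num) hv) (neg_nonneg.2 (hν' l i).2)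
      have a3 := Nat.cast_nonneg (α := ℝ) l
      push_cast
      nlinarith
  choose S h1 h2 h3 using key
  refine ⟨N, b, ν, S, hb, hν, hν', fun l hl => h1 l (Finset.mem_Icc.1 hl).2, ?_⟩
  have e : Finset.Icc 3 4029 = Finset.Icc 3 3989 ∪ Finset.Icc 3990 4029 := by
    ext l
    simp only [Finset.mem_union, Finset.mem_Icc]
    omega
  rw [e, Finset.sum_union (Finset.disjoint_left.2 fun l a1 a2 => by
    rw [Finset.mem_Icc] at a1 a2
    omega), Finset.sum_congr rfl fun l hl => h2 l (Finset.mem_Icc.1 hl).2,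
    Finset.sum_congr rfl h3]
  have ht := tele' N (fun l => (l + 31).choose 31)
    fun l => (hN (l + 2)).symm ▸ finrank_Hsp (R := ℝ) (n := 31) hσ l
  beta_reduce at ht
  exact fin_count hn ht

end Vale.Agent.P225
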