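import Vale.Agent.P225.LapP
import Vale.Agent.P225.Mat
import Vale.Agent.P225.BDefs

namespace Vale.Agent.P225

open Matrix MvPolynomial Filter
open scoped ContDiff Topology Matrix.Norms.Operator

variable {σ : Type} [Fintype σ] [DecidableEq σ] {I : Type} [Fintype I] {N : I → ℕ}

/-- the function attached to a column of the matrix solution -/
noncomputable def ufun (deg : I → ℕ) (b : ∀ l, Fin (N l) → MvPolynomial σ ℝ) (U : ℝ → Blk ℝ N)
    (i : Σ l, Fin (N l)) (x : σ → ℝ) : ℝ :=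
  ∑ j, U (sl x) i.1 j i.2 * Real.exp (-(deg i.1 * sl x)) * eval x (b i.1 j)

variable {deg : I → ℕ} {b : ∀ l, Fin (N l) → MvPolynomial σ ℝ} {U V : ℝ → Blk ℝ N}

set_option linter.unusedSectionVars false

theorem ufun_core (h0 : ∀ s ≤ 0, U s = (blkD N).z fun l => Real.exp (deg l * s))
    (i : Σ l, Fin (N l)) {x : σ → ℝ} (hx : x ⬝ᵥ x ≤ 1) : ufun deg b U i x = eval x (b i.1 i.2) := by
  simp [ufun, h0 _ (sl_nonpos hx), blkD_z, one_apply, ← Real.exp_add]

/-- an entry of a block matrix -/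
noncomputable def UFunAux.ent (l : I) (j k : Fin (N l)) : Blk ℝ N →L[ℝ] ℝ :=
  LinearMap.mkContinuous ⟨⟨fun x => x l j k, fun _ _ => rfl⟩, fun _ _ => rfl⟩ 1
    fun x => (abs_entry_le x l j k).trans_eq (one_mul _).symm

theorem UFunAux.hd {F : ℝ → Blk ℝ N} {F' : Blk ℝ N} {s : ℝ} (h : HasDerivAt F F' s) (l : I)
    (j k : Fin (N l)) : HasDerivAt (fun s => F s l j k) (F' l j k) s :=
  (UFunAux.ent l j k).hasFDerivAt.comp_hasDerivAt s h

theorem UFunAux.sm (hU : ContDiff ℝ ∞ U) (l : I) (j k : Fin (N l)) (c : ℝ) :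
    ContDiff ℝ ∞ fun s => U s l j k * Real.exp (-(c * s)) :=
  ((UFunAux.ent l j k).contDiff.comp hU).mul (by fun_prop)

theorem UFunAux.ev0 (h0 : ∀ s ≤ 0, U s = (blkD N).z fun l => Real.exp (deg l * s))
    (i : Σ l, Fin (N l)) : ufun deg b U i =ᶠ[𝓝 0] fun x => eval x (b i.1 i.2) :=
  (MetAux.sm.continuous.continuousAt.eventually_lt continuousAt_const (by simp)).mono
    fun y hy => ufun_core h0 i (le_of_lt hy)

theorem ufun_smooth (hU : ContDiff ℝ ∞ U)
    (h0 : ∀ s ≤ 0, U s = (blkD N).z fun l => Real.exp (deg l * s)) (i : Σ l, Fin (N l)) :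
    ContDiff ℝ ∞ (ufun deg b U i) :=   contDiff_iff_contDiffAt.2 fun x => by
    by_cases hx : x = 0
    · exact (contDiff_eval _).contDiffAt.congr_of_eventuallyEq (hx ▸ UFunAux.ev0 h0 i)
    exact ContDiffAt.sum fun j _ => ((UFunAux.sm hU _ _ _ _).contDiffAt.comp x
      (contDiffAt_sl hx)).mul (contDiff_eval _).contDiffAt

theorem ufun_harm {m : ℕ} {h η : ℝ → ℝ} {Js : ℝ → Matrix σ σ ℝ} (hp : Prof h η) (ha : Adm η Js)
    (hc : Fintype.card σ = 2 * m + 2) (hb : ∀ l, ONB (deg l) (b l)) (hU : ContDiff ℝ ∞ U)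
    (h0 : ∀ s ≤ 0, U s = (blkD N).z fun l => Real.exp (deg l * s))
    (hs : Sol (fun s => 2 * m * (1 + deriv h s)) (fun s => (blkD N).Lam m
      (fun l => deg l * (deg l + 2 * m)) (η s) fun l => mat (b l) (Xop (Js s) * Xop (Js s))) U V)
    (i : Σ l, Fin (N l)) (x : σ → ℝ) : lap (gmet m h η Js) (ufun deg b U i) x = 0 := by
  by_cases hx : x = 0
  · subst hx
    rw [lap_congr (g := gmet m h η Js) (MetAux.ev0 hp fun y => Js (sl y)) (UFunAux.ev0 h0 i),
      lap_flat, D2_eval_Lap, (mem_Hsp.1 ((hb _).mem _)).2, map_zero]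
  obtain ⟨l, k⟩ := i
  have hJ := ha.cx (sl x)
  have d : ∀ s, HasDerivAt (fun s : ℝ => Real.exp (-(deg l * s))) (Real.exp (-(deg l * s)) * -deg l) s :=
    fun s => ((((hasDerivAt_id' s).const_mul (deg l : ℝ)).fun_neg).exp).congr_deriv (by rw [mul_one])
  have d1 : ∀ j, deriv (fun s => U s l j k * Real.exp (-(deg l * s))) =
      fun s => (V s l j k - deg l * U s l j k) * Real.exp (-(deg l * s)) := fun j =>
    funext fun s => (((UFunAux.hd (hs s).1 l j k).fun_mul (d s)).congr_deriv (by ring)).deriv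
  have d2 := fun j => (((UFunAux.hd (hs (sl x)).2 l j k).fun_sub
    ((UFunAux.hd (hs (sl x)).1 l j k).const_mul (deg l : ℝ))).fun_mul (d (sl x))).deriv
  rw [lap_congr (gmet_ev hp ha x) (EventuallyEq.refl _ _)]
  refine (lap_sum _ _ fun j _ => (((UFunAux.sm hU l j k (deg l)).contDiffAt.comp x
      (contDiffAt_sl hx)).mul (contDiff_eval _).contDiffAt).of_le
      (WithTop.coe_le_coe.2 (le_top : (2 : ℕ∞) ≤ ⊤))).trans ?_
  have e : ∀ j, Xop (Js (sl x)) (Xop (Js (sl x)) (b l j)) = _ := fun j =>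
    (hb l).apply_eq (T := Xop (Js (sl x)) * Xop (Js (sl x)))
      (fun p hp => Xop_mem hJ.1 (Xop_mem hJ.1 hp)) j
  refine (Finset.sum_congr rfl fun j _ => lap_sep hp hJ hc hx (UFunAux.sm hU l j k (deg l))
    ((hb l).mem j)).trans ?_
  simp only [Diag.Lam, Pi.sub_apply, Pi.mul_apply, Pi.add_apply, Pi.smul_apply, blkD_z,
    add_mul, smul_mul_assoc, one_mul, Matrix.sub_apply, Matrix.add_apply, Matrix.smul_apply,
    smul_eq_mul] at d2
  simp only [d1, d2, e, map_sum, smul_eval]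
  rw [← Finset.mul_sum, Finset.sum_sub_distrib]
  refine mul_eq_zero_of_right _ (sub_eq_zero.2 ?_)
  simp only [Finset.mul_sum]
  rw [Finset.sum_comm]
  refine Finset.sum_congr rfl fun j _ => ?_
  rw [mul_apply]
  refine Eq.trans ?_ (Finset.sum_congr rfl fun i _ => show Real.exp (-(deg l * sl x)) *
    eval x (b l j) * vs m (η (sl x)) * (mat (b l) (Xop (Js (sl x)) * Xop (Js (sl x))) j i *
      U (sl x) l i k) = _ by ring)
  rw [← Finset.mul_sum]
  ring

theorem ufun_bound [DecidableEq I] (hb : ∀ l, ONB (deg l) (b l))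
    (h0 : ∀ s ≤ 0, U s = (blkD N).z fun l => Real.exp (deg l * s)) (i : Σ l, Fin (N l))
    {C κ : ℝ} (hκ : 0 ≤ κ)
    (hC : ∀ s ≥ 0, ‖U s * (blkD N).dg (Pi.single i 1)‖ ≤ C * Real.exp (κ * s)) :
    ∃ C' : ℝ, ∀ x, |ufun deg b U i x| ≤ C' * (1 + x ⬝ᵥ x) ^ (κ / 2) := by
  obtain ⟨l, k⟩ := i
  choose D hD using fun j => eval_bound (mem_Hsp.1 ((hb l).mem j)).1
  have D0 : ∀ j, 0 ≤ D j := fun j =>
    nonneg_of_mul_nonneg_left ((abs_nonneg _).trans (hD j 0)) (Real.exp_pos _)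
  have C0 : 0 ≤ C := nonneg_of_mul_nonneg_left ((norm_nonneg _).trans (hC 0 le_rfl)) (Real.exp_pos _)
  have S0 : 0 ≤ ∑ j, C * D j := Finset.sum_nonneg fun j _ => mul_nonneg C0 (D0 j)
  refine ⟨D k + ∑ j, C * D j, fun x => ?_⟩
  have p : 1 ≤ (1 + x ⬝ᵥ x) ^ (κ / 2) :=
    Real.one_le_rpow (by linarith [MetAux.nn x]) (by positivity)
  rcases le_total (x ⬝ᵥ x) 1 with hx | hx
  · rw [ufun_core h0 _ hx]
    refine ((hD k x).trans (mul_le_of_le_one_right (D0 k) (Real.exp_le_one_iff.2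
      (mul_nonpos_of_nonneg_of_nonpos (Nat.cast_nonneg _) (sl_nonpos hx))))).trans ?_
    nlinarith [D0 k]
  have q : Real.exp (κ * sl x) ≤ (1 + x ⬝ᵥ x) ^ (κ / 2) := by
    refine Eq.trans_le ?_ (Real.rpow_le_rpow (x := x ⬝ᵥ x) (by linarith) (by linarith)
      (by positivity))
    rw [Real.rpow_def_of_pos (by linarith), sl]; congr 1; ring
  refine (Finset.abs_sum_le_sum_abs _ _).trans (le_trans ?_ (mul_le_mul_of_nonneg_right
    (le_add_of_nonneg_left (D0 k)) (by linarith)))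
  rw [Finset.sum_mul]
  refine Finset.sum_le_sum fun j _ => ?_
  have a := (abs_entry_le _ l j k).trans ((hC _ (sl_nonneg hx)).trans
    (mul_le_mul_of_nonneg_left q C0))
  rw [Pi.mul_apply, blkD_dg, mul_diagonal, Pi.single_eq_same, mul_one] at a
  rw [mul_assoc, abs_mul, mul_right_comm, abs_mul, abs_of_pos (Real.exp_pos _), Real.exp_neg]
  exact mul_le_mul a ((inv_mul_le_iff₀ (Real.exp_pos _)).2 ((hD j x).trans_eq (mul_comm _ _)))
    (by positivity) (by positivity)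

end Vale.Agent.P225
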