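import Vale.Agent.P225.Glob
import Vale.Agent.P225.Select
import Vale.Agent.P225.UFun
import Vale.Agent.P225.GDist
import Vale.Agent.P225.RicF
import Vale.Agent.P225.Gen3
import Vale.Agent.P225.Perm

namespace Vale.Agent.P225

open Vale.Agent.P255 Matrix MvPolynomial Filter
open scoped ContDiff Topology Matrix.Norms.Operator

theorem lt_rank_of_family {V α : Type} [AddCommGroup V] [Module ℝ V] [Fintype α]
    (W : Submodule ℝ V) (u : α → V) (hu : LinearIndependent ℝ u) (hW : ∀ a, u a ∈ W) {n : ℕ}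
    (hn : n < Fintype.card α) : (n : Cardinal) < Module.rank ℝ W := by
  have h : LinearIndependent ℝ fun a => (⟨u a, hW a⟩ : W) :=
    LinearIndependent.of_comp W.subtype hu
  refine lt_of_lt_of_le ?_ h.cardinal_le_rank
  rw [Cardinal.mk_fintype]
  exact_mod_cast hn

theorem final_gen {σ κ I : Type} [Fintype σ] [DecidableEq σ] [Fintype κ] [DecidableEq κ]
    [Fintype I] [DecidableEq I] (e : σ ≃ κ ⊕ κ) (hσ : Fintype.card σ = 2 * 15 + 2)
    (hκ : 3 ≤ Fintype.card κ) {O : Matrix (κ ⊕ κ) σ ℝ} (hO : IsFrame O) (deg : I → ℕ)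
    (hd : Function.Injective deg) (h3 : ∀ l, 3 ≤ deg l) {N : I → ℕ}
    (b : ∀ l, Fin (N l) → MvPolynomial σ ℝ) (ν : ∀ l, Fin (N l) → ℝ) (S : ∀ l, Finset (Fin (N l)))
    (hb : ∀ l, ONB (deg l) (b l))
    (hν : ∀ l i, Xop (Jfr O 1) (Xop (Jfr O 1) (b l i)) = ν l i • b l i)
    (hν' : ∀ l i, -(deg l : ℝ) ^ 2 ≤ ν l i ∧ ν l i ≤ 0)
    (havg : ∀ l, ∑ i ∈ S l, (Real.exp (2 * (Real.log (401 / 400) / 2)) *
        ((deg l : ℝ) * (deg l + 2 * (15 : ℕ))) + vs 15 (Real.log (401 / 400) / 2) * ν l i) ≤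
          (S l).card * (16073543 : ℝ)) {n : ℕ} (hn : n < ∑ l, (S l).card) :
    ∃ g : Met σ, IsMetric g ∧ Complete g ∧ (∀ x v, 0 ≤ ric g x v v) ∧
      (n : Cardinal) < Module.rank ℝ (harm g 4000) := by
  choose π G hπS hG hπ using fun l : I => exists_cycle (S l) _ _ (havg l)
  obtain ⟨g, hg, hgπ⟩ := exists_perm_elt (N := N) π
  have hJ0 : IsCx (Jfr O 1) := hO.cx fun _ => Or.inl rfl
  obtain ⟨c, η, J, U, V, B, hc, hη, h0, h1, hloc, hric, hsol, hU, hU0, hgr⟩ :=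
    glob (blkD N) (fun J : {J : Matrix σ σ ℝ // IsCx J} =>
      fun l => mat (b l) (Xop J.1 * Xop J.1)) ⟨_, hJ0⟩ (m := 15) (by norm_num)
      (c₁ := 998559 / 1000000) (c₂ := 998558 / 1000000) (es := Real.log (401 / 400) / 2)
      (k := 4000) (lb := 16073543) (by norm_num) (by norm_num) (by norm_num)
      (half_pos (Real.log_pos (by norm_num))) (by norm_num) num_ric (fun l => deg l)
      (fun l => by have := h3 l; positivity) (fun i => ν i.1 i.2)
      (funext fun l => (hb l).mat_diag (hν l)) (fun i => hν' i.1 i.2)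
      (gen e hκ deg hd h3 b hb) hg (fun i => ⟨i.1, π i.1 i.2⟩) hgπ
      {i | i.2 ∈ S i.1} (fun i hi => hπS i.1 i.2 hi) (G := fun i => G i.1 i.2)
      (fun i => hG i.1 i.2) (fun i hi => hπ i.1 i.2 hi) (by norm_num)
  obtain ⟨h, hh, hh0, hh1, hh2, hh3⟩ := exists_h hc (fun s hs => (h0 s hs).1)
    fun s => ⟨(h1 s).1, (h1 s).2.1⟩
  have hp : Prof h η := ⟨hh, hη, hh0, fun s hs => (h0 s hs).2⟩
  have ha : Adm η fun s => (J s).1 :=
    ⟨fun s => (J s).2, fun s => (hloc s).mono fun t ht => ht.imp id fun h => by rw [h]⟩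
  obtain ⟨hcomp, hdist⟩ := gmet_dist (m := 15) hp ha (by norm_num) (by norm_num)
    (fun s => (h1 s).2.2) hh3
  refine ⟨gmet 15 h η fun s => (J s).1, gmet_isMetric hp ha, hcomp,
    ric_gmet hp ha hσ (fun s => ?_) (fun s => ?_) (fun s => ?_), ?_⟩
  · rw [hh1, hh2]; exact (hric s).1
  · rw [hh1, hh2]; exact (hric s).2.1
  · rw [hh2]; exact (hric s).2.2
  let ι : (Σ l : I, S l) → Σ l, Fin (N l) := fun i => ⟨i.1, i.2.1⟩
  have hι : Function.Injective ι := by
    rintro ⟨l, i⟩ ⟨l', i'⟩ h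
    obtain ⟨rfl, h⟩ := Sigma.mk.inj h
    exact congrArg _ (Subtype.ext (eq_of_heq h))
  refine lt_rank_of_family (harm _ 4000) (fun i => ufun deg b U (ι i))
    ((indep_core deg hd b hb (ufun deg b U)
      fun i x hx => ufun_core hU0 i hx).comp ι hι) (fun i => ⟨ufun_smooth hU hU0 _, ?_, ?_⟩) ?_
  · refine ufun_harm (V := V) hp ha hσ hb hU hU0 ?_ _
    simpa only [hh1] using hsol
  · obtain ⟨C, hC⟩ := hgr (ι i) i.2.2
    obtain ⟨C', hC'⟩ := ufun_bound hb hU0 (ι i) (by norm_num) hC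
    refine ⟨|C'|, fun x => (hC' x).trans ?_⟩
    have h4 : (0 : ℝ) ≤ 1 + x ⬝ᵥ x :=
      add_nonneg zero_le_one (Finset.sum_nonneg fun i _ => mul_self_nonneg _)
    refine mul_le_mul (le_abs_self _) ?_ (Real.rpow_nonneg h4 _) (abs_nonneg _)
    rw [show (4000 * (998558 / 1000000) / 2 : ℝ) = 998558 / 1000000 / 2 * (4000 : ℕ) by norm_num,
      Real.rpow_mul_natCast h4]
    exact pow_le_pow_left₀ (Real.rpow_nonneg h4 _) (hdist x) _
  · rw [Fintype.card_sigma]
    simpa only [Fintype.card_coe] using hn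

theorem final_icc {σ : Type} [Fintype σ] [DecidableEq σ] (e : σ ≃ Fin 16 ⊕ Fin 16)
    (hσ : Fintype.card σ = 32) : ∃ g : Met σ, IsMetric g ∧ Complete g ∧ (∀ x v, 0 ≤ ric g x v v) ∧
    (((32 + 4000 - 1).choose 4000 + (32 + 4000 - 2).choose (4000 - 1) : ℕ) : Cardinal) <
      Module.rank ℝ (harm g 4000) := by
  obtain ⟨O, hO⟩ := exists_frame e
  obtain ⟨N, b, ν, S, hb, hν, hν', havg, hcard⟩ := select hO hσ
  generalize (32 + 4000 - 1).choose 4000 + (32 + 4000 - 2).choose (4000 - 1) = n at hcard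
  have h3 : ∀ l ∈ Finset.Icc 3 4029, 3 ≤ l := fun l hl => (Finset.mem_Icc.1 hl).1
  generalize Finset.Icc 3 4029 = T at havg hcard h3
  refine final_gen (I := T) e hσ (by simp) hO (fun l => l) Subtype.val_injective
    (fun l => h3 l l.2) (fun l => b l) (fun l => ν l) (fun l => S l) (fun l => hb l)
    (fun l => hν l) (fun l => hν' l) (fun l => havg l l.2) ?_
  rwa [Finset.sum_coe_sort T fun l => (S l).card]

end Vale.Agent.P225
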