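import Vale.Agent.P225.Xop

namespace Vale.Agent.P225

open Matrix MvPolynomial

variable {σ : Type} [Fintype σ] [DecidableEq σ] {R : Type} [Field R]

theorem Fis_monomial (α : σ →₀ ℕ) (a : R) (q : MvPolynomial σ R) :
    Fis (monomial α a) q = a * ((∏ i, (α i).factorial : ℕ) : R) * coeff α q := by
  have e : monomial α a = a • basisMonomials σ R α := by simp [smul_monomial]
  rw [e, map_smul, Fis, Module.Basis.constr_basis]
  simp [mul_assoc]

theorem Fis_symm (p q : MvPolynomial σ R) : Fis p q = Fis q p := by
  induction p using MvPolynomial.induction_on' with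
  | add p p' h h' => rw [map_add, LinearMap.add_apply, map_add, h, h']
  | monomial α a =>
    induction q using MvPolynomial.induction_on' with
    | add q q' h h' => rw [map_add, map_add, LinearMap.add_apply, h, h']
    | monomial β b =>
      rw [Fis_monomial, Fis_monomial, coeff_monomial, coeff_monomial]
      by_cases h : α = β
      · subst h; simp only [if_true]; ring
      · simp [h, Ne.symm h]

theorem Fis_X_mul (i : σ) (p q : MvPolynomial σ R) :
    Fis (X i * p) q = Fis p (pderiv i q) := by
  induction p using MvPolynomial.induction_on' with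
  | add p p' h h' => simp only [mul_add, map_add, LinearMap.add_apply, h, h']
  | monomial α a =>
    rw [X, monomial_mul, one_mul, Fis_monomial, Fis_monomial, coeff_pderiv, add_comm α,
      ← Finset.mul_prod_erase _ _ (Finset.mem_univ i),
      ← Finset.mul_prod_erase _ (fun j => (α j).factorial) (Finset.mem_univ i),
      Finset.prod_congr rfl (g := fun j => (α j).factorial) fun j hj => by
        simp [Finsupp.single_eq_of_ne (Finset.ne_of_mem_erase hj)]]
    simp only [Finsupp.add_apply, Finsupp.single_eq_same, add_comm 1, Nat.factorial_succ]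
    push_cast; ring

theorem Fis_Xop (A : Matrix σ σ R) (p q : MvPolynomial σ R) :
    Fis (Xop A p) q = Fis p (Xop Aᵀ q) := by
  have e : ∀ i j, Fis (X j * pderiv i p) q = Fis p (X i * pderiv j q) := fun i j => by
    rw [Fis_X_mul, Fis_symm p, Fis_X_mul, Fis_symm]
  simp only [Xop_apply, lin, Finset.sum_mul, smul_mul_assoc, map_sum, map_smul,
    LinearMap.sum_apply, LinearMap.smul_apply, e, transpose_apply]
  exact Finset.sum_comm

theorem Fis_pos {p : MvPolynomial σ ℝ} (hp : p ≠ 0) : 0 < Fis p p := by
  nth_rewrite 1 [p.as_sum]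
  simp only [map_sum, LinearMap.sum_apply, Fis_monomial]
  refine Finset.sum_pos (fun α hα => ?_) (support_nonempty.2 hp)
  rw [mul_right_comm]
  exact mul_pos (mul_self_pos.2 (mem_support_iff.1 hα))
    (Nat.cast_pos.2 (Finset.prod_pos fun _ _ => Nat.factorial_pos _))

theorem Fis_cpx (p q : MvPolynomial σ ℝ) : Fis (cpx p) (cpx q) = ((Fis p q : ℝ) : ℂ) := by
  induction p using MvPolynomial.induction_on' with
  | add p p' h h' =>
    simp only [cpx] at h h'
    simp only [cpx, map_add, LinearMap.add_apply, h, h', Complex.ofReal_add]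
  | monomial α a =>
    simp only [cpx, map_monomial, Fis_monomial, coeff_map]
    simp

theorem Fis_lin_pow (a : σ → R) {p : MvPolynomial σ R} {l : ℕ} (hp : p.IsHomogeneous l) :
    Fis (lin a ^ l) p = l.factorial * eval a p := by
  induction l generalizing p with
  | zero =>
    rw [totalDegree_eq_zero_iff_eq_C.1 (Nat.le_zero.1 hp.totalDegree_le), pow_zero, ← C_1,
      ← monomial_zero', Fis_monomial]
    simp
  | succ l ih =>
    have e := congrArg (eval a) hp.sum_X_mul_pderiv
    simp only [map_sum, map_mul, eval_X, nsmul_eq_mul, map_natCast] at e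
    rw [pow_succ']
    nth_rewrite 1 [lin]
    simp only [Finset.sum_mul, smul_mul_assoc, map_sum, map_smul, LinearMap.sum_apply,
      LinearMap.smul_apply, Fis_X_mul, ih (show (pderiv _ p).IsHomogeneous l from hp.pderiv),
      smul_eq_mul, mul_left_comm (a _), ← Finset.mul_sum, e, Nat.factorial_succ]
    push_cast; ring

theorem Fis_sq_mul (p q : MvPolynomial σ R) :
    Fis ((∑ i, X i ^ 2) * p) q = Fis p (Lap q) := by
  simp only [Finset.sum_mul, sq, mul_assoc, map_sum, LinearMap.sum_apply, Fis_X_mul, Lap_apply]

end Vale.Agent.P225
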