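import Vale.Agent.P225.Xop

namespace Vale.Agent.P225

open Matrix MvPolynomial

variable {κ : Type} [Fintype κ] [DecidableEq κ] {i₁ i₂ i₃ : κ}

namespace PgenAux

section
variable {B : Type} [Ring B] [Algebra ℂ B]

/-- weight vectors -/
def Wt (H Z : B) (w : ℂ) : Prop := H * Z - Z * H = w • Z

theorem Wt.mul {H x y : B} {a b : ℂ} (hx : Wt H x a) (hy : Wt H y b) : Wt H (x * y) (a + b) := by
  have : H * (x * y) - x * y * H = (H * x - x * H) * y + x * (H * y - y * H) := by noncomm_ring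
  rw [Wt, this, hx, hy, smul_mul_assoc, mul_smul_comm, add_smul]

theorem Wt.pow {H x : B} {a : ℂ} (hx : Wt H x a) (n : ℕ) : Wt H (x ^ n) (n * a) := by
  induction n with
  | zero => simp [Wt]
  | succ n ih =>
    rw [pow_succ, Nat.cast_succ, add_mul, one_mul]
    exact ih.mul hx

theorem sq_mem (G : Submodule ℂ B) {E J : B} {c : ℂ} (hc : c ≠ 0) (h : Wt J E c) (hJ : J * J ∈ G)
    (hE : ∀ T ∈ G, E * T - T * E ∈ G) : E * E ∈ G := by
  have h1 := hE _ (hE _ hJ)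
  have e1 : E * (E * (J * J) - J * J * E) - (E * (J * J) - J * J * E) * E =
      ((J * E - E * J) * J + J * (J * E - E * J)) * E -
        E * ((J * E - E * J) * J + J * (J * E - E * J)) := by noncomm_ring
  have e2 : (E * J + J * E) * E - E * (E * J + J * E) =
      E * (J * E - E * J) + (J * E - E * J) * E := by noncomm_ring
  rw [e1, h, smul_mul_assoc, mul_smul_comm, ← smul_add, smul_mul_assoc, mul_smul_comm, ← smul_sub,
    e2, h, smul_mul_assoc, mul_smul_comm, ← add_smul, smul_smul] at h1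
  exact (G.smul_mem_iff (mul_ne_zero hc (by rw [← two_mul]; exact mul_ne_zero two_ne_zero hc))).1 h1

theorem step (G : ℕ → Submodule ℂ B)
    (hB : ∀ r r', ∀ T ∈ G r, ∀ T' ∈ G r', T * T' - T' * T ∈ G (r + r')) {E F Z : B} {w : ℂ}
    (hE : E * E ∈ G 1) (hF : ∀ r, ∀ T ∈ G r, F * T - T * F ∈ G r) (hc : Commute E Z)
    (hw : Wt (E * F - F * E) Z w) (h0 : w ≠ 0) (hZ : ∃ r, Z ∈ G r) : ∃ r, Z * E ∈ G r := by
  obtain ⟨r, hZ⟩ := hZ
  have h1 := hB _ _ _ hE _ (hF r Z hZ)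
  have e1 : E * (F * Z - Z * F) - (F * Z - Z * F) * E =
      (E * F - F * E) * Z - Z * (E * F - F * E) := by
    have : E * (F * Z - Z * F) - (F * Z - Z * F) * E = (E * F - F * E) * Z - Z * (E * F - F * E)
      + F * (E * Z - Z * E) - (E * Z - Z * E) * F := by noncomm_ring
    rw [this, hc.eq, sub_self, mul_zero, zero_mul, add_zero, sub_zero]
  have e2 : E * E * (F * Z - Z * F) - (F * Z - Z * F) * (E * E) =
      E * (E * (F * Z - Z * F) - (F * Z - Z * F) * E) +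
        (E * (F * Z - Z * F) - (F * Z - Z * F) * E) * E := by noncomm_ring
  rw [e2, e1, hw, smul_mul_assoc, mul_smul_comm, hc.eq, ← add_smul] at h1
  exact ⟨_, ((G _).smul_mem_iff (by rw [← two_mul]; exact mul_ne_zero two_ne_zero h0)).1 h1⟩

end

theorem wt_diag {d : κ ⊕ κ → ℂ} (hd : ∀ s, d s.swap = -d s) (t u : κ ⊕ κ) :
    Wt (Xop (diagonal d)) (Xop (el t u)) (d u - d t) := by
  have : el t u * diagonal d - diagonal d * el t u = (d u - d t) • el t u := by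
    ext a b
    simp only [el, Matrix.sub_apply, mul_diagonal, diagonal_mul, Matrix.smul_apply, single_apply,
      smul_eq_mul]
    split_ifs with h1 h2 h2
    · ring
    · rw [← h1.1, ← h1.2]; ring
    · rw [← h2.1, ← h2.2, hd, hd]; ring
    · ring
  rw [Wt, Xop_comm, this, Xop_smul]

theorem swap_ne {t u : κ ⊕ κ} (h : t ≠ u) : t.swap ≠ u.swap := fun e =>
  h (by rw [← Sum.swap_swap t, e, Sum.swap_swap])

theorem Xop_zero : Xop (0 : Matrix (κ ⊕ κ) (κ ⊕ κ) ℂ) = 0 := by simp [Xop]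

theorem comm {t u : κ ⊕ κ} (ht : t ≠ .inl i₁) (hu : u ≠ .inl i₁) :
    Commute (Xop (el t (.inl i₁))) (Xop (el u (.inl i₁))) := by
  have a1 := swap_ne ht
  have a2 := swap_ne hu
  have a3 : (Sum.inl i₁ : κ ⊕ κ) ≠ (Sum.inl i₁ : κ ⊕ κ).swap := by simp
  have : el u (.inl i₁) * el t (.inl i₁) - el t (.inl i₁) * el u (.inl i₁) = 0 := by
    simp only [el, mul_sub, sub_mul, single_mul_single_of_ne _ _ _ _ ht.symm,
      single_mul_single_of_ne _ _ _ _ hu.symm, single_mul_single_of_ne _ _ _ _ a1,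
      single_mul_single_of_ne _ _ _ _ a2, single_mul_single_of_ne _ _ _ _ a3]
    by_cases e : t.swap = u
    · subst e
      simp [Sum.swap_swap]
    · rw [single_mul_single_of_ne _ _ _ _ e, single_mul_single_of_ne _ _ _ _
        (show u.swap ≠ t from fun h => e (by rw [← h, Sum.swap_swap]))]
      simp
  exact sub_eq_zero.1 (by rw [Xop_comm, this, Xop_zero])

/-- the coroot -/
def hv (i : κ) (t s : κ ⊕ κ) : ℂ :=
  (if .inl i = s then 1 else 0) + (if t.swap = s then 1 else 0) -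
    ((if t = s then 1 else 0) + if .inr i = s then 1 else 0)

theorem wt_H {t : κ ⊕ κ} (h1 : t ≠ .inl i₁) (h2 : t ≠ .inr i₁) (u : κ ⊕ κ) :
    Wt (Xop (el t (.inl i₁)) * Xop (el (.inl i₁) t) - Xop (el (.inl i₁) t) * Xop (el t (.inl i₁)))
      (Xop (el u (.inl i₁))) (1 - hv i₁ t u) := by
  have a1 : t.swap ≠ .inl i₁ := swap_ne h2
  have : el (.inl i₁) t * el t (.inl i₁) - el t (.inl i₁) * el (.inl i₁) t = diagonal (hv i₁ t) := by
    simp only [el, mul_sub, sub_mul, Sum.swap_inl, single_mul_single_same,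
      single_mul_single_of_ne _ _ _ _ h2, single_mul_single_of_ne _ _ _ _ h2.symm,
      single_mul_single_of_ne _ _ _ _ a1, single_mul_single_of_ne _ _ _ _ a1.symm]
    ext a b
    by_cases e : a = b
    · subst e
      simp [hv, single_apply]
    · have : ∀ s : κ ⊕ κ, ¬(s = a ∧ s = b) := fun s h => e (h.1.symm.trans h.2)
      simp [single_apply, diagonal_apply_ne _ e, this]
  have h3 : hv i₁ t (.inl i₁) = 1 := by simp [hv, h1, a1]
  rw [Xop_comm, this, ← h3]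
  refine wt_diag (fun s => ?_) u _
  have b1 : (.inl i₁ = s.swap) = (.inr i₁ = s) := by cases s <;> simp
  have b2 : (.inr i₁ = s.swap) = (.inl i₁ = s) := by cases s <;> simp
  have b3 : (t.swap = s.swap) = (t = s) := by cases s <;> cases t <;> simp
  have b4 : (t = s.swap) = (t.swap = s) := by cases s <;> cases t <;> simp
  simp only [hv, b1, b2, b3, b4]
  ring

end PgenAux

open PgenAux

theorem pgen (h12 : i₁ ≠ i₂) (h13 : i₁ ≠ i₃) (h23 : i₂ ≠ i₃)
    (G : ℕ → Submodule ℂ (Module.End ℂ (MvPolynomial (κ ⊕ κ) ℂ)))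
    (hJ : ∀ ε : κ → ℝ, (∀ i, ε i = 1 ∨ ε i = -1) → Xop (Jd ε) * Xop (Jd ε) ∈ G 1)
    (hX : ∀ t u r, ∀ T ∈ G r, Xop (el t u) * T - T * Xop (el t u) ∈ G r)
    (hB : ∀ r r', ∀ T ∈ G r, ∀ T' ∈ G r', T * T' - T' * T ∈ G (r + r')) {l : ℕ} (hl : 3 ≤ l) :
    ∃ r, Pop i₁ i₂ i₃ l ∈ G r := by
  have hd : ∀ (ε : κ → ℝ) (s : κ ⊕ κ),
      Sum.elim (fun i => Complex.I * ε i) (fun i => -(Complex.I * ε i)) s.swap =
        -Sum.elim (fun i => Complex.I * ε i) (fun i => -(Complex.I * ε i)) s := fun ε s => by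
    cases s <;> simp
  have sw : ∀ j, Xop (el (.inr j) (.inl i₁)) * Xop (el (.inr j) (.inl i₁)) ∈ G 1 := fun j =>
    sq_mem _ (by simp) (wt_diag (hd 1) (.inr j) (.inl i₁)) (hJ 1 fun _ => Or.inl rfl) (hX _ _ 1)
  have sz : ∀ j, i₁ ≠ j → Xop (el (.inl j) (.inl i₁)) * Xop (el (.inl j) (.inl i₁)) ∈ G 1 :=
    fun j hj => sq_mem _ (by simp [hj.symm])
      (wt_diag (hd fun i => if i = i₁ then 1 else -1) (.inl j) (.inl i₁))
      (hJ _ fun i => by by_cases e : i = i₁ <;> simp [e]) (hX _ _ 1)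
  have h21 := h12.symm
  have h31 := h13.symm
  have h32 := h23.symm
  have a1 : (.inr i₂ : κ ⊕ κ) ≠ .inl i₁ := by simp
  have a2 : (.inr i₃ : κ ⊕ κ) ≠ .inl i₁ := by simp
  have a3 : (.inl i₃ : κ ⊕ κ) ≠ .inl i₁ := by simp [h31]
  have a4 : (.inl i₂ : κ ⊕ κ) ≠ .inl i₁ := by simp [h21]
  have b1 : (.inr i₂ : κ ⊕ κ) ≠ .inr i₁ := by simp [h21]
  have b2 : (.inr i₃ : κ ⊕ κ) ≠ .inr i₁ := by simp [h31]
  have b3 : (.inl i₃ : κ ⊕ κ) ≠ .inr i₁ := by simp
  have b4 : (.inl i₂ : κ ⊕ κ) ≠ .inr i₁ := by simp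
  have s1 : ∀ a : ℕ, ∃ r, Xop (el (.inr i₂) (.inl i₁)) ^ (a + 2) ∈ G r := fun a => by
    induction a with
    | zero => exact ⟨1, by rw [zero_add, pow_two]; exact sw i₂⟩
    | succ a ih =>
      rw [add_right_comm, pow_succ]
      refine step G hB (sw i₂) (hX _ _) ((comm a1 a1).pow_right _) ((wt_H a1 b1 _).pow _) ?_ ih
      refine mul_ne_zero (Nat.cast_ne_zero.2 (Nat.succ_ne_zero _)) ?_
      simp [hv, h12]
  obtain ⟨k, rfl⟩ : ∃ k, l = k + 2 + 1 := ⟨l - 3, by omega⟩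
  have hk : ((k + 2 : ℕ) : ℂ) ≠ 0 := Nat.cast_ne_zero.2 (Nat.succ_ne_zero _)
  have s2 := step G hB (sw i₃) (hX _ _) ((comm a2 a1).pow_right _) ((wt_H a2 b2 _).pow _)
    (mul_ne_zero hk (by simp [hv, h12, h32])) (s1 k)
  have s3 := step G hB (sz i₃ h13) (hX _ _) (((comm a3 a1).pow_right _).mul_right (comm a3 a2))
    (((wt_H a3 b3 _).pow _).mul (wt_H a3 b3 _)) (by simpa [hv, h12, h13, h32] using hk) s2
  rw [Pop, Nat.add_sub_cancel]
  generalize hm : k + 2 = m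
  nth_rewrite 1 [← hm]
  clear hm
  induction m with
  | zero => rwa [pow_zero, mul_one]
  | succ m ih =>
    rw [pow_succ _ m, ← mul_assoc]
    refine step G hB (sz i₂ h12) (hX _ _) (((((comm a4 a1).pow_right _).mul_right
      (comm a4 a2)).mul_right (comm a4 a3)).mul_right ((comm a4 a4).pow_right _))
      (((((wt_H a4 b4 _).pow _).mul (wt_H a4 b4 _)).mul (wt_H a4 b4 _)).mul
        ((wt_H a4 b4 _).pow _)) ?_ ih
    have : ((2 * m + 2 : ℕ) : ℂ) ≠ 0 := Nat.cast_ne_zero.2 (Nat.succ_ne_zero _)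
    refine fun h => this (Eq.trans ?_ h)
    simp [hv, h12, h13, h23]
    ring

end Vale.Agent.P225
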