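import Vale.Agent.P225.Xop

namespace Vale.Agent.P225

open Matrix MvPolynomial

variable {κ : Type} [Fintype κ] [DecidableEq κ] {i₁ i₂ i₃ : κ}

namespace PopAux

theorem Xop_el (t u : κ ⊕ κ) (p : MvPolynomial (κ ⊕ κ) ℂ) :
    Xop (el t u) p = X u * pderiv t p - X t.swap * pderiv u.swap p := by
  rw [el, Xop_sub, LinearMap.sub_apply, Xop_single, Xop_single]

/-- the weight -/
def wt (i : κ) (t : κ ⊕ κ) : ℤ := if t = .inl i then 2 else if t = .inr i then 0 else 1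

theorem raise {t : κ ⊕ κ} (h1 : t ≠ .inl i₁) (h2 : t ≠ .inr i₁) {p : MvPolynomial (κ ⊕ κ) ℂ}
    {n : ℤ} (hp : p.IsWeightedHomogeneous (wt i₁) n) :
    (Xop (el t (.inl i₁)) p).IsWeightedHomogeneous (wt i₁) (n + 1) := by
  have a1 : wt i₁ t = 1 := by rw [wt, if_neg h1, if_neg h2]
  have a2 : wt i₁ t.swap = 1 := by
    rw [wt, if_neg fun h => h2 (by rw [← Sum.swap_swap t, h]; rfl),
      if_neg fun h => h1 (by rw [← Sum.swap_swap t, h]; rfl)]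
  have a3 : wt i₁ (.inl i₁) = 2 := if_pos rfl
  have a4 : wt i₁ (.inr i₁) = 0 := by simp [wt]
  have b1 := (isWeightedHomogeneous_X ℂ (wt i₁) (.inl i₁)).mul
    (hp.pderiv (i := t) (n' := n - 1) (by rw [a1]; ring))
  have b2 := (isWeightedHomogeneous_X ℂ (wt i₁) t.swap).mul
    (hp.pderiv (i := .inr i₁) (n' := n) (by rw [a4]; ring))
  rw [a3, show 2 + (n - 1) = n + 1 by ring] at b1
  rw [a2, add_comm] at b2
  rw [Xop_el]
  exact b1.sub b2

theorem raise_pow {t : κ ⊕ κ} (h1 : t ≠ .inl i₁) (h2 : t ≠ .inr i₁) {p : MvPolynomial (κ ⊕ κ) ℂ}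
    {n : ℤ} (hp : p.IsWeightedHomogeneous (wt i₁) n) (k : ℕ) :
    ((Xop (el t (.inl i₁)) ^ k) p).IsWeightedHomogeneous (wt i₁) (n + k) := by
  induction k with
  | zero => simpa using hp
  | succ k ih =>
    rw [pow_succ', Module.End.mul_apply, Nat.cast_succ, ← add_assoc]
    exact raise h1 h2 ih

theorem homog_pow (A : Matrix (κ ⊕ κ) (κ ⊕ κ) ℂ) {p : MvPolynomial (κ ⊕ κ) ℂ} {d : ℕ}
    (hp : p.IsHomogeneous d) (k : ℕ) : ((Xop A ^ k) p).IsHomogeneous d := by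
  induction k with
  | zero => simpa using hp
  | succ k ih =>
    rw [pow_succ', Module.End.mul_apply]
    exact Xop_homog A ih

theorem kill (h12 : i₁ ≠ i₂) (h13 : i₁ ≠ i₃) {l : ℕ} (hl : 1 ≤ l) {α : κ ⊕ κ →₀ ℕ} (r : ℂ)
    (h : 2 * (α.degree : ℤ) < Finsupp.weight (wt i₁) α + 2 * l) :
    Pop i₁ i₂ i₃ l (monomial α r) = 0 := by
  have h1 : (Pop i₁ i₂ i₃ l (monomial α r)).IsHomogeneous α.degree :=
    homog_pow _ (Xop_homog _ (Xop_homog _ (homog_pow _ (isHomogeneous_monomial r rfl) _))) _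
  have h2 : (Pop i₁ i₂ i₃ l (monomial α r)).IsWeightedHomogeneous (wt i₁) _ :=
    raise_pow (by simp) (by simp [h12.symm]) (raise (by simp) (by simp [h13.symm])
      (raise (by simp [h13.symm]) (by simp) (raise_pow (by simp [h12.symm]) (by simp)
        (isWeightedHomogeneous_monomial (wt i₁) α r rfl) _))) _
  ext β
  by_contra hc
  have e1 : β.degree = α.degree := by
    by_contra e
    exact hc (h1.coeff_eq_zero e)
  have e2 := h2 hc
  have e3 : Finsupp.weight (wt i₁) β ≤ 2 * (β.degree : ℤ) := by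
    rw [Finsupp.weight_eq_sum, Finsupp.degree_eq_sum, Nat.cast_sum, Finset.mul_sum]
    refine Finset.sum_le_sum fun t _ => ?_
    rw [nsmul_eq_mul, mul_comm]
    refine mul_le_mul_of_nonneg_right ?_ (Nat.cast_nonneg _)
    rw [wt]
    split_ifs <;> norm_num
  rw [e1, e2] at e3
  omega

theorem wt_nonneg (i : κ) (t : κ ⊕ κ) : 0 ≤ wt i t := by
  rw [wt]
  split_ifs <;> norm_num

theorem weight_nonneg (i : κ) (α : κ ⊕ κ →₀ ℕ) : 0 ≤ Finsupp.weight (wt i) α := by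
  rw [Finsupp.weight_eq_sum]
  exact Finset.sum_nonneg fun t _ => nsmul_nonneg (wt_nonneg i t) _

theorem Xop_pow (A : Matrix (κ ⊕ κ) (κ ⊕ κ) ℂ) (x : MvPolynomial (κ ⊕ κ) ℂ) (n : ℕ) :
    Xop A (x ^ (n + 1)) = ((n + 1 : ℕ) : ℂ) • (x ^ n * Xop A x) := by
  induction n with
  | zero => simp
  | succ n ih =>
    rw [pow_succ, Xop_mul, ih, smul_eq_C_mul, smul_eq_C_mul]
    simp only [map_natCast]
    push_cast
    ring

theorem Xop_pow_zero (A : Matrix (κ ⊕ κ) (κ ⊕ κ) ℂ) {x : MvPolynomial (κ ⊕ κ) ℂ}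
    (h : Xop A x = 0) (n : ℕ) : Xop A (x ^ n) = 0 := by
  cases n with
  | zero => exact Xop_C A 1
  | succ n => rw [Xop_pow, h, mul_zero, smul_zero]

theorem iter (A : Matrix (κ ⊕ κ) (κ ⊕ κ) ℂ) {x y : MvPolynomial (κ ⊕ κ) ℂ} (hx : Xop A x = y)
    (hy : Xop A y = 0) (m k : ℕ) : ∀ z, Xop A z = 0 →
      ∃ c : ℂ, c ≠ 0 ∧ (Xop A ^ k) (x ^ (k + m) * z) = c • (x ^ m * (y ^ k * z)) := by
  induction k with
  | zero => exact fun z _ => ⟨1, one_ne_zero, by simp⟩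
  | succ k ih =>
    intro z hz
    obtain ⟨c, hc, h⟩ := ih (y * z) (by rw [Xop_mul, hy, hz, zero_mul, mul_zero, add_zero])
    refine ⟨((k + m + 1 : ℕ) : ℂ) * c, mul_ne_zero (Nat.cast_ne_zero.2 (Nat.succ_ne_zero _)) hc, ?_⟩
    rw [pow_succ, Module.End.mul_apply, add_right_comm, Xop_mul, hz, mul_zero, add_zero, Xop_pow,
      hx, smul_mul_assoc, map_smul, mul_assoc, h, mul_smul, pow_succ, mul_assoc]

theorem top_mono (h12 : i₁ ≠ i₂) (h13 : i₁ ≠ i₃) (h23 : i₂ ≠ i₃) (k : ℕ) :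
    ∃ c : ℂ, c ≠ 0 ∧ Pop i₁ i₂ i₃ (k + 1) (X (.inr i₁) ^ (k + 1)) = c • X (.inl i₁) ^ (k + 1) := by
  have h21 := h12.symm
  have h31 := h13.symm
  have h32 := h23.symm
  obtain ⟨c1, n1, e1⟩ := iter (el (.inl i₂) (.inl i₁)) (x := X (.inr i₁)) (y := -X (.inr i₂))
    (by simp [Xop_el, pderiv_X]) (by simp [Xop_el, pderiv_X, h21]) 1 k 1 (Xop_C _ 1)
  obtain ⟨c2, n2, e2⟩ := iter (el (.inr i₂) (.inl i₁)) (x := -X (.inr i₂)) (y := -X (.inl i₁))
    (by simp [Xop_el, pderiv_X, h21]) (by simp [Xop_el, pderiv_X]) 0 k (-X (.inl i₁))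
    (by simp [Xop_el, pderiv_X])
  have e3 : Xop (el (.inl i₃) (.inl i₁)) (X (.inr i₁) * (-X (.inr i₂)) ^ k) =
      -X (.inr i₃) * (-X (.inr i₂)) ^ k := by
    rw [Xop_mul, Xop_pow_zero _ (by simp [Xop_el, pderiv_X, h21])]
    simp [Xop_el, pderiv_X]
  have e4 : Xop (el (.inr i₃) (.inl i₁)) (-X (.inr i₃) * (-X (.inr i₂)) ^ k) =
      (-X (.inr i₂)) ^ k * -X (.inl i₁) := by
    rw [Xop_mul, Xop_pow_zero _ (by simp [Xop_el, pderiv_X, h21, h23]), mul_comm]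
    simp [Xop_el, pderiv_X, h31]
  simp only [mul_one, pow_one, add_zero, pow_zero, one_mul] at e1 e2
  refine ⟨c1 * c2 * (-1) ^ (k + 1), mul_ne_zero (mul_ne_zero n1 n2) (by simp), ?_⟩
  simp only [Pop, Module.End.mul_apply, Nat.add_sub_cancel]
  rw [e1, map_smul, map_smul, map_smul, e3, e4, e2, ← pow_succ, ← neg_one_smul ℂ, smul_pow,
    mul_smul, mul_smul]

theorem homog_ind {l : ℕ} (T T' : MvPolynomial (κ ⊕ κ) ℂ →ₗ[ℂ] MvPolynomial (κ ⊕ κ) ℂ)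
    (h : ∀ α : κ ⊕ κ →₀ ℕ, α.degree = l → T (monomial α 1) = T' (monomial α 1))
    {p : MvPolynomial (κ ⊕ κ) ℂ} (hp : p.IsHomogeneous l) : T p = T' p := by
  rw [p.as_sum, map_sum, map_sum]
  refine Finset.sum_congr rfl fun α hα => ?_
  have hd : α.degree = l := by
    by_contra e
    exact mem_support_iff.1 hα (hp.coeff_eq_zero e)
  rw [← mul_one (coeff α p), ← smul_eq_mul, ← smul_monomial, map_smul, map_smul, h α hd]

theorem weight_pos {α : κ ⊕ κ →₀ ℕ} {t : κ ⊕ κ} (ht : t ≠ .inr i₁) (h0 : α t ≠ 0) :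
    1 ≤ Finsupp.weight (wt i₁) α := by
  rw [Finsupp.weight_eq_sum]
  refine le_trans ?_ (Finset.single_le_sum (f := fun t => α t • wt i₁ t)
    (fun t _ => nsmul_nonneg (wt_nonneg i₁ t) _) (Finset.mem_univ t))
  rw [nsmul_eq_mul, wt, if_neg ht]
  split_ifs <;> omega

theorem eq_single {α : κ ⊕ κ →₀ ℕ} {u : κ ⊕ κ} (h0 : ∀ t, t ≠ u → α t = 0) :
    α = Finsupp.single u α.degree := by
  ext t
  by_cases e : t = u
  · rw [e, Finsupp.single_eq_same, Finsupp.degree_eq_sum,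
      Finset.sum_eq_single _ (fun t _ => h0 t) (by simp)]
  · rw [h0 t e, Finsupp.single_eq_of_ne e]

end PopAux

open PopAux

theorem pop_top (h12 : i₁ ≠ i₂) (h13 : i₁ ≠ i₃) (h23 : i₂ ≠ i₃) {l : ℕ} (hl : 1 ≤ l) :
    ∃ c : ℂ, c ≠ 0 ∧ ∀ p : MvPolynomial (κ ⊕ κ) ℂ, p.IsHomogeneous l →
      Pop i₁ i₂ i₃ l p = (c * eval (Pi.single (.inr i₁) 1) p) • X (.inl i₁) ^ l := by
  obtain ⟨k, rfl⟩ : ∃ k, l = k + 1 := ⟨l - 1, by omega⟩
  obtain ⟨c, hc, e5⟩ := top_mono h12 h13 h23 k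
  refine ⟨c, hc, fun p hp => ?_⟩
  rw [mul_comm, mul_smul, ← coe_aeval_eq_eval, RingHom.coe_coe, ← AlgHom.toLinearMap_apply,
    ← LinearMap.smulRight_apply]
  refine homog_ind _ _ (fun α hd => ?_) hp
  rw [LinearMap.smulRight_apply, AlgHom.toLinearMap_apply, aeval_monomial,
    map_one (algebraMap ℂ ℂ), one_mul]
  by_cases h0 : ∀ t, t ≠ .inr i₁ → α t = 0
  · rw [eq_single h0, hd, ← X_pow_eq_monomial, e5, Finsupp.prod_single_index (by exact pow_zero _),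
      Pi.single_eq_same, one_pow, one_smul]
  · push Not at h0
    obtain ⟨t, ht, h0⟩ := h0
    have h1 := weight_pos ht h0
    rw [kill h12 h13 hl 1 (by rw [hd]; omega), Finsupp.prod,
      Finset.prod_eq_zero (Finsupp.mem_support_iff.2 h0)
        (by rw [Pi.single_eq_of_ne ht, zero_pow h0]), zero_smul]

theorem pop_low (h12 : i₁ ≠ i₂) (h13 : i₁ ≠ i₃) {l d : ℕ} (hl : d < l)
    {p : MvPolynomial (κ ⊕ κ) ℂ} (hp : p.IsHomogeneous d) : Pop i₁ i₂ i₃ l p = 0 := by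
  refine homog_ind _ 0 (fun α hd => ?_) hp
  have := weight_nonneg i₁ α
  exact kill h12 h13 (by omega) 1 (by rw [hd]; omega)

end Vale.Agent.P225
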