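import Vale.Agent.P225.Mat
import Vale.Agent.P225.Frame
import Vale.Agent.P225.Pop
import Vale.Agent.P225.Pgen

namespace Vale.Agent.P225

open Matrix MvPolynomial

variable {σ : Type} [Fintype σ] [DecidableEq σ] {κ : Type} [Fintype κ] [DecidableEq κ]
  {I : Type} [Fintype I] [DecidableEq I]

namespace Gen1Aux

set_option linter.unusedSectionVars false

variable {O : Matrix (κ ⊕ κ) σ ℝ}

/-- conjugation by the change of coordinates -/
noncomputable def cj (O : Matrix (κ ⊕ κ) σ ℝ) :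
    Module.End ℂ (MvPolynomial (κ ⊕ κ) ℂ) →ₗ[ℂ] Module.End ℂ (MvPolynomial σ ℂ) where
  toFun T := (subst (Sfr O)).toLinearMap ∘ₗ T ∘ₗ (subst (Sinv O)).toLinearMap
  map_add' T T' := by ext1 p; simp [LinearMap.add_comp, LinearMap.comp_add]
  map_smul' c T := by ext1 p; simp [LinearMap.smul_comp, LinearMap.comp_smul]

theorem cj_apply (T : Module.End ℂ (MvPolynomial (κ ⊕ κ) ℂ)) (p : MvPolynomial σ ℂ) :
    cj O T p = subst (Sfr O) (T (subst (Sinv O) p)) := rfl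

theorem cj_mul (hO : IsFrame O) (T T' : Module.End ℂ (MvPolynomial (κ ⊕ κ) ℂ)) :
    cj O (T * T') = cj O T * cj O T' := by
  refine LinearMap.ext fun p => ?_
  simp only [Module.End.mul_apply, cj_apply, subst_subst_of hO.S_Sinv]

theorem cj_Xop (hO : IsFrame O) {A : Matrix σ σ ℂ} {A' : Matrix (κ ⊕ κ) (κ ⊕ κ) ℂ}
    (h : Sfr O * A = A' * Sfr O) : cj O (Xop A') = Xop A := by
  refine LinearMap.ext fun p => ?_
  rw [cj_apply, ← subst_Xop h, subst_subst_of hO.Sinv_S]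

variable {deg : I → ℕ} {N : I → ℕ} {b : ∀ l, Fin (N l) → MvPolynomial σ ℝ} {β : I → ℝ}
  {W : Submodule ℂ (Blk ℂ N)}

/-- the block matrix of an operator -/
noncomputable def bm (b : ∀ l, Fin (N l) → MvPolynomial σ ℝ) (β : I → ℝ) (n : ℕ) :
    Module.End ℂ (MvPolynomial σ ℂ) →ₗ[ℂ] Blk ℂ N where
  toFun T l := (β l : ℂ) ^ n • mat (fun i => cpx (b l i)) T
  map_add' T T' := by funext l; simp only [mat_add, smul_add, Pi.add_apply]
  map_smul' c T := by funext l; simp only [mat_smul, Pi.smul_apply, smul_comm c, RingHom.id_apply]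

theorem bm_apply (n : ℕ) (T : Module.End ℂ (MvPolynomial σ ℂ)) (l : I) :
    bm b β n T l = (β l : ℂ) ^ n • mat (fun i => cpx (b l i)) T := rfl

theorem bm_mul (hb : ∀ l, ONB (deg l) (b l)) (n n' : ℕ) (T : Module.End ℂ (MvPolynomial σ ℂ))
    {T' : Module.End ℂ (MvPolynomial σ ℂ)} (h : ∀ l, ∀ p ∈ Hsp ℂ σ l, T' p ∈ Hsp ℂ σ l) :
    bm b β (n + n') (T * T') = bm b β n T * bm b β n' T' := by
  funext l
  rw [Pi.mul_apply, bm_apply, bm_apply, bm_apply, (hb l).mat_mul_cpx _ (h _), smul_mul_assoc,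
    mul_smul_comm, smul_smul, pow_add]

/-- operators preserving harmonic polynomials -/
def pres (σ : Type) [Fintype σ] : Submodule ℂ (Module.End ℂ (MvPolynomial σ ℂ)) where
  carrier := {T | ∀ l, ∀ p ∈ Hsp ℂ σ l, T p ∈ Hsp ℂ σ l}
  add_mem' h h' l p hp := add_mem (h l p hp) (h' l p hp)
  zero_mem' _ _ _ := zero_mem _
  smul_mem' c _ h l p hp := Submodule.smul_mem _ c (h l p hp)

theorem pres_br {T T' : Module.End ℂ (MvPolynomial σ ℂ)} (h : T ∈ pres σ) (h' : T' ∈ pres σ) :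
    T * T' - T' * T ∈ pres σ :=
  fun l p hp => sub_mem (h l _ (h' l p hp)) (h' l _ (h l p hp))

theorem pop_mem (hO : IsFrame O) (hb : ∀ l, ONB (deg l) (b l))
    (hW : ∀ x ∈ W, ∀ y ∈ W, x * y - y * x ∈ W)
    (hK : ∀ J : Matrix σ σ ℝ, IsCx J → bm b β 1 (Xop (J.map (↑)) * Xop (J.map (↑))) ∈ W)
    (hX : ∀ A : Matrix σ σ ℂ, Aᵀ = -A → ∀ x ∈ W,
      bm b β 0 (Xop A) * x - x * bm b β 0 (Xop A) ∈ W) {i₁ i₂ i₃ : κ} (h12 : i₁ ≠ i₂)
    (h13 : i₁ ≠ i₃) (h23 : i₂ ≠ i₃) {l : ℕ} (hl : 3 ≤ l) :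
    ∃ n, bm b β n (cj O (Pop i₁ i₂ i₃ l)) ∈ W := by
  obtain ⟨n, -, hn⟩ := pgen h12 h13 h23 (fun n => (pres σ ⊓ W.comap (bm b β n)).comap (cj O))
    (fun ε hε => by
      have c := hO.cx hε
      have s : ((Jfr O ε).map ((↑) : ℝ → ℂ))ᵀ = -(Jfr O ε).map (↑) := by
        rw [← transpose_map, c.1]; ext i j; simp
      rw [Submodule.mem_comap, cj_mul hO, cj_Xop hO (hO.S_J ε)]
      exact ⟨fun l p hp => Xop_mem s (Xop_mem s hp), hK _ c⟩)
    (fun t u n T hT => by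
      have s := el_skew O t u
      have c : cj O (Xop (el t u)) = Xop (Sinv O * el t u * Sfr O) :=
        cj_Xop hO (by rw [← Matrix.mul_assoc, ← Matrix.mul_assoc, hO.S_Sinv, Matrix.one_mul])
      have m : Xop (Sinv O * el t u * Sfr O) ∈ pres σ := fun l p hp => Xop_mem s hp
      rw [Submodule.mem_comap, map_sub, cj_mul hO, cj_mul hO, c]
      refine ⟨pres_br m hT.1, ?_⟩
      have h1 := bm_mul (β := β) hb 0 n (Xop (Sinv O * el t u * Sfr O)) hT.1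
      have h2 := bm_mul (β := β) hb n 0 (cj O T) m
      rw [zero_add] at h1
      rw [add_zero] at h2
      rw [SetLike.mem_coe, Submodule.mem_comap, map_sub, h1, h2]
      exact hX _ s _ hT.2)
    (fun n n' T hT T' hT' => by
      rw [Submodule.mem_comap, map_sub, cj_mul hO, cj_mul hO]
      refine ⟨pres_br hT.1 hT'.1, ?_⟩
      have h2 := bm_mul (β := β) hb n' n (cj O T') hT.1
      rw [add_comm] at h2
      rw [SetLike.mem_coe, Submodule.mem_comap, map_sub, bm_mul hb n n' _ hT'.1, h2]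
      exact hW _ hT.2 _ hT'.2) hl
  exact ⟨n, hn⟩

end Gen1Aux

open Gen1Aux in
theorem rank_one (e : σ ≃ κ ⊕ κ) (hκ : 3 ≤ Fintype.card κ) (deg : I → ℕ) {N : I → ℕ}
    (b : ∀ l, Fin (N l) → MvPolynomial σ ℝ) (hb : ∀ l, ONB (deg l) (b l)) (β : I → ℝ)
    (hβ : ∀ l, β l ≠ 0) (W : Submodule ℂ (Blk ℂ N)) (hW : ∀ x ∈ W, ∀ y ∈ W, x * y - y * x ∈ W)
    (hK : ∀ J : Matrix σ σ ℝ, IsCx J → (fun l => (β l : ℂ) •
      mat (fun i => cpx (b l i)) (Xop (J.map (↑)) * Xop (J.map (↑)))) ∈ W)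
    (hX : ∀ A : Matrix σ σ ℂ, Aᵀ = -A → ∀ x ∈ W,
      (fun l => mat (fun i => cpx (b l i)) (Xop A)) * x
        - x * (fun l => mat (fun i => cpx (b l i)) (Xop A)) ∈ W)
    (l₀ : I) (hl : 3 ≤ deg l₀) {a : σ → ℂ} (ha : a ⬝ᵥ a = 0) :
    ∃ x ∈ W, x l₀ = vecMulVec (fun i => eval a (cpx (b l₀ i))) (fun i => eval a (cpx (b l₀ i))) ∧
      ∀ l, deg l < deg l₀ → x l = 0 := by
  have hm : ∀ l i, cpx (b l i) ∈ Hsp ℂ σ (deg l) := fun l i => cpx_mem ((hb l).mem i)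
  have hh : ∀ l i, (cpx (b l i)).IsHomogeneous (deg l) := fun l i => (mem_Hsp.1 (hm l i)).1
  by_cases h0 : a = 0
  · refine ⟨0, W.zero_mem, ?_, fun _ _ => rfl⟩
    ext i j
    have := eval_smul_homog (hh l₀ i) 0 a
    rw [zero_smul, zero_pow (by omega), zero_mul] at this
    rw [vecMulVec_apply, h0, this, zero_mul]; rfl
  obtain ⟨i₁, i₂, i₃, h12, h13, h23⟩ := Fintype.two_lt_card_iff.1 hκ
  obtain ⟨O, r, hO, r0, rfl⟩ := exists_frame_null e i₁ ha h0
  have e0 : ∀ T, bm b β 0 T = fun l => mat (fun i => cpx (b l i)) T := fun T => by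
    funext l; rw [bm_apply, pow_zero, one_smul]
  have e1 : ∀ T, bm b β 1 T = fun l => (β l : ℂ) • mat (fun i => cpx (b l i)) T := fun T => by
    funext l; rw [bm_apply, pow_one]
  obtain ⟨n, hn⟩ := pop_mem (β := β) hO hb hW (fun J hJ => by rw [e1]; exact hK J hJ)
    (fun A hA x hx => by rw [e0]; exact hX A hA x hx) h12 h13 h23 hl
  obtain ⟨c, c0, hc⟩ := pop_top h12 h13 h23 (l := deg l₀) (by omega)
  have β0 : (β l₀ : ℂ) ≠ 0 := by exact_mod_cast hβ l₀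
  have f0 : ((deg l₀).factorial : ℂ) ≠ 0 := by exact_mod_cast (deg l₀).factorial_ne_zero
  refine ⟨(r ^ deg l₀ * r ^ deg l₀ * 2 ^ deg l₀ / ((β l₀ : ℂ) ^ n * c * (deg l₀).factorial)) • _,
    W.smul_mem _ hn, ?_, fun l h => ?_⟩
  · ext i j
    have e1 : Sinv O *ᵥ Pi.single (.inr i₁) 1 = (1 / 2 : ℂ) • Sfr O (.inl i₁) := by
      funext k; simp [Sinv, div_eq_inv_mul]
    simp only [Pi.smul_apply, Matrix.smul_apply, smul_eq_mul, bm_apply, mat, of_apply, cj_apply,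
      vecMulVec_apply]
    rw [hc _ (subst_homog _ (hh l₀ j)), map_smul, map_pow, subst_X, map_smul, Fis_symm,
      Fis_lin_pow _ (hh l₀ i), eval_subst, e1, eval_smul_homog (hh l₀ j),
      eval_smul_homog (hh l₀ i), eval_smul_homog (hh l₀ j), smul_eq_mul, one_div, inv_pow]
    field_simp
  · ext i j
    simp only [Pi.smul_apply, Matrix.smul_apply, smul_eq_mul, bm_apply, mat, of_apply, cj_apply]
    rw [pop_low h12 h13 h (subst_homog _ (hh l j))]
    simp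

end Vale.Agent.P225
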