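import Vale.Agent.P225.Fis
import Vale.Agent.P225.Subst

namespace Vale.Agent.P225

open Matrix MvPolynomial

variable {σ : Type} [Fintype σ] [DecidableEq σ] {R : Type} [Field R]

namespace NullAux

theorem real {G q : MvPolynomial σ ℝ} (hG : Lap G = 0) (h : G = (∑ i, X i ^ 2) * q) : G = 0 := by
  by_contra h0
  have := Fis_pos h0
  nth_rewrite 1 [h] at this
  rw [Fis_sq_mul, hG, map_zero] at this
  exact lt_irrefl _ this

theorem split (i₀ : σ) (G : MvPolynomial σ ℂ) : ∃ q r₀ r₁ : MvPolynomial σ ℂ,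
    G = (∑ i, X i ^ 2) * q + r₀ + X i₀ * r₁ ∧
    (∀ y t, eval (Function.update y i₀ t) r₀ = eval y r₀) ∧
    ∀ y t, eval (Function.update y i₀ t) r₁ = eval y r₁ := by
  induction G using MvPolynomial.induction_on with
  | C a => exact ⟨0, C a, 0, by simp, by simp, by simp⟩
  | add p p' h h' =>
    obtain ⟨q, r₀, r₁, e, a, b⟩ := h
    obtain ⟨q', r₀', r₁', e', a', b'⟩ := h'
    exact ⟨q + q', r₀ + r₀', r₁ + r₁', by rw [e, e']; ring, by simp [a, a'], by simp [b, b']⟩
  | mul_X p n h =>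
    obtain ⟨q, r₀, r₁, e, a, b⟩ := h
    by_cases hn : n = i₀
    · subst hn
      refine ⟨q * X n + r₁, -(∑ i ∈ Finset.univ.erase n, X i ^ 2) * r₁, r₀, ?_, fun y t => ?_, a⟩
      · rw [e, ← Finset.add_sum_erase _ _ (Finset.mem_univ n)]; ring
      · simp only [map_mul, map_neg, map_sum, map_pow, eval_X, b]
        congr 2
        exact Finset.sum_congr rfl fun i hi => by
          rw [Function.update_of_ne (Finset.ne_of_mem_erase hi)]
    · exact ⟨q * X n, r₀ * X n, r₁ * X n, by rw [e]; ring, by simp [a, hn], by simp [b, hn]⟩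

theorem dot_update (i₀ : σ) (a y : σ → ℂ) (t : ℂ) :
    a ⬝ᵥ Function.update y i₀ t = a i₀ * t + ∑ i ∈ Finset.univ.erase i₀, a i * y i := by
  rw [dotProduct, ← Finset.add_sum_erase _ _ (Finset.mem_univ i₀), Function.update_self]
  congr 1
  exact Finset.sum_congr rfl fun i hi => by rw [Function.update_of_ne (Finset.ne_of_mem_erase hi)]

theorem self_update (i₀ : σ) (y : σ → ℂ) (t : ℂ) :
    Function.update y i₀ t ⬝ᵥ Function.update y i₀ t =
      t ^ 2 + ∑ i ∈ Finset.univ.erase i₀, y i ^ 2 := by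
  rw [dot_update, Function.update_self, sq]
  congr 1
  exact Finset.sum_congr rfl fun i hi => by
    rw [Function.update_of_ne (Finset.ne_of_mem_erase hi), sq]

end NullAux

theorem harm_dvd_eq_zero {G q : MvPolynomial σ ℂ} (hG : Lap G = 0) (h : G = (∑ i, X i ^ 2) * q) :
    G = 0 := by
  obtain ⟨G₁, G₂, rfl⟩ := exists_re_im G
  obtain ⟨q₁, q₂, rfl⟩ := exists_re_im q
  rw [map_add, map_smul, ← cpx_Lap, ← cpx_Lap] at hG
  obtain ⟨h1, h2⟩ := re_im_eq_zero hG
  have e : ∀ G q : MvPolynomial σ ℝ, cpx (G - (∑ i, X i ^ 2) * q) =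
      cpx G - (∑ i, X i ^ 2) * cpx q := fun G q => by simp [cpx]
  obtain ⟨h3, h4⟩ := re_im_eq_zero (p₁ := G₁ - (∑ i, X i ^ 2) * q₁) (p₂ := G₂ - (∑ i, X i ^ 2) * q₂)
    (by rw [e, e, smul_sub, sub_add_sub_comm, h, mul_add, mul_smul_comm, sub_self])
  rw [NullAux.real h1 (sub_eq_zero.1 h3), NullAux.real h2 (sub_eq_zero.1 h4)]
  simp [cpx]

theorem null_vanish (hn : 3 ≤ Fintype.card σ) {G : MvPolynomial σ ℂ} (hG : Lap G = 0)
    {a : σ → ℂ} (ha : a ≠ 0) (h : ∀ b : σ → ℂ, b ⬝ᵥ b = 0 → (a ⬝ᵥ b) * eval b G = 0) :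
    G = 0 := by
  obtain ⟨i₀, j, k, h1, h2, h3⟩ := Fintype.two_lt_card_iff.1 hn
  obtain ⟨q, r₀, r₁, e, f0, f1⟩ := NullAux.split i₀ G
  obtain ⟨s, hs⟩ : ∃ s : MvPolynomial σ ℂ, ∀ y, eval y s = ∑ i ∈ Finset.univ.erase i₀, y i ^ 2 :=
    ⟨∑ i ∈ Finset.univ.erase i₀, X i ^ 2, fun y => by simp⟩
  obtain ⟨α, hα⟩ : ∃ α : MvPolynomial σ ℂ, ∀ y,
      eval y α = ∑ i ∈ Finset.univ.erase i₀, a i * y i :=
    ⟨∑ i ∈ Finset.univ.erase i₀, C (a i) * X i, fun y => by simp⟩
  have ev : ∀ (y : σ → ℂ) (t : ℂ), t ^ 2 = -eval y s →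
      (a i₀ * t + eval y α) * (eval y r₀ + t * eval y r₁) = 0 := fun y t ht => by
    have n0 : Function.update y i₀ t ⬝ᵥ Function.update y i₀ t = 0 := by
      rw [NullAux.self_update, ht, hs, neg_add_cancel]
    have := h _ n0
    have n1 : eval (Function.update y i₀ t) (∑ i, X i ^ 2 : MvPolynomial σ ℂ) = 0 := by
      rw [← n0]; simp [dotProduct, sq]
    rwa [NullAux.dot_update, ← hα, e, map_add, map_add, map_mul, map_mul, n1, f0, f1, eval_X,
      Function.update_self, zero_mul, zero_add] at this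
  have key : ∀ y, eval y ((α ^ 2 + C (a i₀ ^ 2) * s) * r₀) = 0 ∧
      eval y ((α ^ 2 + C (a i₀ ^ 2) * s) * (s * r₁)) = 0 := fun y => by
    obtain ⟨t, ht⟩ := IsAlgClosed.exists_pow_nat_eq (-eval y s) two_pos
    have a1 := ev y t ht
    have a2 := ev y (-t) (by rw [neg_sq, ht])
    have e1 : eval y s = -t ^ 2 := by rw [ht, neg_neg]
    simp only [map_mul, map_add, map_pow, eval_C, e1]
    constructor
    · linear_combination (eval y α - a i₀ * t) / 2 * a1 + (eval y α + a i₀ * t) / 2 * a2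
    · linear_combination -t * (eval y α - a i₀ * t) / 2 * a1 + t * (eval y α + a i₀ * t) / 2 * a2
  have k0 : (α ^ 2 + C (a i₀ ^ 2) * s) * r₀ = 0 :=
    MvPolynomial.funext fun y => by rw [(key y).1, map_zero]
  have k1 : (α ^ 2 + C (a i₀ ^ 2) * s) * (s * r₁) = 0 :=
    MvPolynomial.funext fun y => by rw [(key y).2, map_zero]
  have s1 : ∀ j, j ≠ i₀ → eval (Pi.single j 1) s = 1 := fun j hj => by
    rw [hs, Finset.sum_eq_single j] <;> simp +contextual [hj]
  have a1 : ∀ j, j ≠ i₀ → eval (Pi.single j 1) α = a j := fun j hj => by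
    rw [hα, Finset.sum_eq_single j] <;> simp +contextual [hj]
  have s0 : s ≠ 0 := fun h0 => by simpa [h0] using s1 j h1.symm
  have n0 : α ^ 2 + C (a i₀ ^ 2) * s ≠ 0 := fun h0 => by
    have b : ∀ y, eval y α ^ 2 + a i₀ ^ 2 * eval y s = 0 := fun y => by
      simpa using congrArg (eval y) h0
    have b1 : ∀ j, j ≠ i₀ → a j ^ 2 + a i₀ ^ 2 = 0 := fun j hj => by
      simpa [s1 j hj, a1 j hj] using b (Pi.single j 1)
    have b2 := b (Pi.single j 1 + Pi.single k 1)
    have c1 : eval (Pi.single j 1 + Pi.single k 1) α = a j + a k := by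
      rw [← a1 j h1.symm, ← a1 k h2.symm, hα, hα, hα, ← Finset.sum_add_distrib]
      simp only [Pi.add_apply, mul_add]
    have c2 : eval (Pi.single j 1 + Pi.single k 1) s = 1 + 1 := by
      nth_rewrite 3 [← s1 j h1.symm]
      nth_rewrite 4 [← s1 k h2.symm]
      rw [hs, hs, hs, ← Finset.sum_add_distrib]
      refine Finset.sum_congr rfl fun i _ => ?_
      by_cases p1 : i = j
      · subst p1; simp [h3]
      · simp [p1]
    rw [c1, c2] at b2
    have d1 := b1 j h1.symm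
    have d2 := b1 k h2.symm
    have d3 : a j * a k = 0 := by linear_combination (b2 - d1 - d2) / 2
    have d4 : a i₀ ^ 2 = 0 := by
      rcases mul_eq_zero.1 d3 with d | d
      · simpa [d] using d1
      · simpa [d] using d2
    refine ha (_root_.funext fun i => ?_)
    by_cases p : i = i₀
    · rw [p]; exact pow_eq_zero_iff two_ne_zero |>.1 d4
    · have := b1 i p
      rw [d4, add_zero] at this
      exact pow_eq_zero_iff two_ne_zero |>.1 this
  rw [(mul_eq_zero.1 k0).resolve_left n0,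
    (mul_eq_zero.1 ((mul_eq_zero.1 k1).resolve_left n0)).resolve_left s0, mul_zero, add_zero,
    add_zero] at e
  exact harm_dvd_eq_zero hG e

end Vale.Agent.P225
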