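import Vale.Agent.P225.GDefs

namespace Vale.Agent.P225

open Matrix

variable {n : Type} [Fintype n] [DecidableEq n]

namespace SoSlAux

theorem deriv1 {M : Type} [NormedRing M] [NormedAlgebra ℝ M] [FiniteDimensional ℝ M]
    (B : M →ₗ[ℝ] M →ₗ[ℝ] ℝ) (A J : M)
    (h : ∀ t : ℝ, B (NormedSpace.exp (t • A) * J * NormedSpace.exp (t • (-A)))
      (NormedSpace.exp (t • A) * J * NormedSpace.exp (t • (-A))) = 0) :
    B (A * J - J * A) J + B J (A * J - J * A) = 0 := by
  haveI := FiniteDimensional.complete ℝ M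
  let B' : M →L[ℝ] M →L[ℝ] ℝ := LinearMap.toContinuousLinearMap
    ((LinearMap.toContinuousLinearMap (𝕜 := ℝ) (E := M) (F' := ℝ)).toLinearMap ∘ₗ B)
  have hB : ∀ x y, B' x y = B x y := fun x y => rfl
  have h1 := ((hasDerivAt_exp_smul_const (𝕂 := ℝ) A 0).mul_const J).mul
    (hasDerivAt_exp_smul_const (𝕂 := ℝ) (-A) 0)
  have h2 := (B'.hasFDerivAt.comp_hasDerivAt (0 : ℝ) h1).clm_apply h1
  have h3 := h2.unique ((hasDerivAt_const (0 : ℝ) (0 : ℝ)).congr_of_eventuallyEq
    (Filter.Eventually.of_forall fun t => h t))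
  simp only [zero_smul, NormedSpace.exp_zero, one_mul, mul_one, Function.comp, Pi.mul_apply, hB,
    mul_neg, ← sub_eq_add_neg] at h3
  exact h3

theorem deriv0 (B : Matrix n n ℝ →ₗ[ℝ] Matrix n n ℝ →ₗ[ℝ] ℝ) (A J : Matrix n n ℝ)
    (h : ∀ t : ℝ, B (NormedSpace.exp (t • A) * J * NormedSpace.exp (t • (-A)))
      (NormedSpace.exp (t • A) * J * NormedSpace.exp (t • (-A))) = 0) :
    B (A * J - J * A) J + B J (A * J - J * A) = 0 :=
  open scoped Matrix.Norms.Operator in deriv1 B A J h

theorem top_of_dot (U : Submodule ℂ (n → ℂ)) (h : ∀ v, (∀ u ∈ U, v ⬝ᵥ u = 0) → v = 0) :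
    U = ⊤ := by
  by_contra hU
  obtain ⟨φ, h0, hφ⟩ := Submodule.exists_dual_map_eq_bot_of_lt_top (lt_top_iff_ne_top.2 hU)
    inferInstance
  have e : ∀ u, (fun i => φ fun j => if i = j then 1 else 0) ⬝ᵥ u = φ u := fun u => by
    rw [LinearMap.pi_apply_eq_sum_univ φ u]
    exact Finset.sum_congr rfl fun i _ => mul_comm _ _
  have := h _ fun u hu => (e u).trans
    ((Submodule.mem_bot ℂ).1 (hφ ▸ Submodule.mem_map_of_mem hu))
  exact h0 (LinearMap.ext fun u => by rw [← e u, this, zero_dotProduct, LinearMap.zero_apply])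

/-- the wedge product with a fixed vector -/
def wedge (y : n → ℂ) : (n → ℂ) →ₗ[ℂ] Matrix n n ℂ where
  toFun x := vecMulVec x y - vecMulVec y x
  map_add' x x' := by
    ext i j; simp only [Matrix.sub_apply, Matrix.add_apply, vecMulVec_apply, Pi.add_apply]; ring
  map_smul' c x := by
    ext i j
    simp only [Matrix.sub_apply, Matrix.smul_apply, vecMulVec_apply, Pi.smul_apply, smul_eq_mul,
      RingHom.id_apply]
    ring

theorem ad4 {B : Type} [Ring B] {K : B} (T : B) (h : K * K * K + K = 0) :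
    (K * (K * (K * (K * T - T * K) - (K * T - T * K) * K)
        - (K * (K * T - T * K) - (K * T - T * K) * K) * K)
      - (K * (K * (K * T - T * K) - (K * T - T * K) * K)
        - (K * (K * T - T * K) - (K * T - T * K) * K) * K) * K)
      + (K * (K * T - T * K) - (K * T - T * K) * K) = 6 • (K * K * T * (K * K) + K * T * K) := by
  have : (K * (K * (K * (K * T - T * K) - (K * T - T * K) * K)
        - (K * (K * T - T * K) - (K * T - T * K) * K) * K)
      - (K * (K * (K * T - T * K) - (K * T - T * K) * K)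
        - (K * (K * T - T * K) - (K * T - T * K) * K) * K) * K)
      + (K * (K * T - T * K) - (K * T - T * K) * K) = 6 • (K * K * T * (K * K) + K * T * K)
      + (K * K * K + K) * (K * T - 4 • (T * K)) + (T * K - 4 • (K * T)) * (K * K * K + K) := by
    noncomm_ring
  rw [this, h, zero_mul, mul_zero, add_zero, add_zero]

end SoSlAux

open SoSlAux

theorem cx_deriv {W : Type} [AddCommGroup W] [Module ℝ W]
    (Q : Matrix n n ℝ →ₗ[ℝ] Matrix n n ℝ →ₗ[ℝ] W) (S : Submodule ℝ W)
    (hS : ∀ J, IsCx J → Q J J ∈ S) {A J : Matrix n n ℝ} (hA : Aᵀ = -A) (hJ : IsCx J) :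
    Q (A * J - J * A) J + Q J (A * J - J * A) ∈ S := by
  rw [← Subspace.forall_mem_dualAnnihilator_apply_eq_zero_iff]
  intro φ hφ
  rw [map_add]
  refine deriv0 (Q.compr₂ φ) A J fun t => (Submodule.mem_dualAnnihilator φ).1 hφ _ (hS _ ⟨?_, ?_⟩)
  · rw [transpose_mul, transpose_mul, ← exp_transpose, ← exp_transpose, transpose_smul,
      transpose_smul, transpose_neg, hA, neg_neg, hJ.1, Matrix.neg_mul, Matrix.mul_neg,
      Matrix.mul_assoc]
  · have e : NormedSpace.exp (t • (-A)) * NormedSpace.exp (t • A) = 1 := by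
      rw [← Matrix.exp_add_of_commute, smul_neg, neg_add_cancel, NormedSpace.exp_zero]
      exact ((Commute.refl A).neg_left.smul_left t).smul_right t
    have e' : NormedSpace.exp (t • A) * NormedSpace.exp (t • (-A)) = 1 := mul_eq_one_comm.1 e
    calc _ = NormedSpace.exp (t • A) * (J * (NormedSpace.exp (t • (-A)) * NormedSpace.exp (t • A))
          * J) * NormedSpace.exp (t • (-A)) := by simp only [Matrix.mul_assoc]
      _ = -1 := by rw [e, Matrix.mul_one, hJ.2, Matrix.mul_neg, Matrix.mul_one, Matrix.neg_mul, e']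

theorem lie_reduce {B α : Type} [Ring B] [Algebra ℝ B] (G : Set B) (D : α → B)
    (hD : ∀ a, ∀ g ∈ G, D a * g - g * D a ∈ Submodule.span ℝ G)
    (h : ∀ W : Submodule ℝ B, (∀ x ∈ W, ∀ y ∈ W, x * y - y * x ∈ W) → G ⊆ W →
      (∀ a, ∀ x ∈ W, D a * x - x * D a ∈ W) → W = ⊤)
    (W : Submodule ℝ B) (hW : ∀ x ∈ W, ∀ y ∈ W, x * y - y * x ∈ W) (hG : G ⊆ W) : W = ⊤ := by
  set W0 : Submodule ℝ B := sInf {V | (∀ x ∈ V, ∀ y ∈ V, x * y - y * x ∈ V) ∧ G ⊆ V} with hW0
  have l0 : ∀ x ∈ W0, ∀ y ∈ W0, x * y - y * x ∈ W0 := fun x hx y hy =>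
    Submodule.mem_sInf.2 fun V hV =>
      hV.1 x (Submodule.mem_sInf.1 hx V hV) y (Submodule.mem_sInf.1 hy V hV)
  have g0 : G ⊆ W0 := fun g hg => Submodule.mem_sInf.2 fun V hV => hV.2 hg
  let W1 : Submodule ℝ B := W0 ⊓ ⨅ a, W0.comap
    (LinearMap.mulLeft ℝ (D a) - LinearMap.mulRight ℝ (D a))
  have m1 : ∀ x, x ∈ W1 ↔ x ∈ W0 ∧ ∀ a, D a * x - x * D a ∈ W0 := fun x => by
    simp only [W1, Submodule.mem_inf, Submodule.mem_iInf, Submodule.mem_comap, LinearMap.sub_apply,
      LinearMap.mulLeft_apply, LinearMap.mulRight_apply]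
  have le1 : W0 ≤ W1 := by
    refine sInf_le ⟨fun x hx y hy => ?_, fun g hg =>
      (m1 g).2 ⟨g0 hg, fun a => Submodule.span_le.2 g0 (hD a g hg)⟩⟩
    obtain ⟨x0, x1⟩ := (m1 x).1 hx
    obtain ⟨y0, y1⟩ := (m1 y).1 hy
    refine (m1 _).2 ⟨l0 x x0 y y0, fun a => ?_⟩
    have e : D a * (x * y - y * x) - (x * y - y * x) * D a =
        ((D a * x - x * D a) * y - y * (D a * x - x * D a)) +
          (x * (D a * y - y * D a) - (D a * y - y * D a) * x) := by noncomm_ring
    rw [e]
    exact W0.add_mem (l0 _ (x1 a) y y0) (l0 x x0 _ (y1 a))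
  exact top_le_iff.1 ((h W0 l0 g0 fun a x hx => ((m1 x).1 (le1 hx)).2 a).ge.trans
    (sInf_le ⟨hW, hG⟩))

theorem top_of_so (W : Submodule ℝ (Matrix n n ℝ)) (hW : ∀ x ∈ W, ∀ y ∈ W, x * y - y * x ∈ W)
    (h1 : (1 : Matrix n n ℝ) ∈ W) (hA : ∀ i j, Matrix.single i j (1 : ℝ) - Matrix.single j i 1 ∈ W)
    {T : Matrix n n ℝ} (hT : T ∈ W) (hs : Tᵀ = T) (ht : T.trace = 0) (h0 : T ≠ 0) : W = ⊤ := by
  have hsm : ∀ {c : ℝ} {x : Matrix n n ℝ}, c ≠ 0 → c • x ∈ W → x ∈ W := fun hc hx =>
    (W.smul_mem_iff hc).1 hx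
  have hsy : ∀ i j, T j i = T i j := fun i j => congrFun (congrFun hs i) j
  obtain ⟨i, j, hij, hne⟩ : ∃ i j, i ≠ j ∧ (T i i - T j j) ^ 2 + (2 * T i j) ^ 2 ≠ 0 := by
    by_contra hc
    push Not at hc
    refine h0 (Matrix.ext fun i j => ?_)
    have hd : ∀ j, T j j = T i i := fun j => by
      by_cases e : i = j
      · rw [e]
      · nlinarith [hc i j e, sq_nonneg (T i i - T j j), sq_nonneg (2 * T i j)]
    by_cases e : i = j
    · subst e
      have : (Fintype.card n : ℝ) * T i i = 0 := by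
        rw [← ht, Matrix.trace]
        simp [hd]
      exact (mul_eq_zero.1 this).resolve_left
        (Nat.cast_ne_zero.2 (Fintype.card_pos_iff.2 ⟨i⟩).ne')
    · have := hc i j e
      rw [Matrix.zero_apply]
      nlinarith [sq_nonneg (T i i - T j j), sq_nonneg (2 * T i j)]
  have hS : ∀ {i j : n}, i ≠ j →
      (single i j (1 : ℝ) - single j i 1) * (single i j (1 : ℝ) + single j i 1) -
      (single i j (1 : ℝ) + single j i 1) * (single i j (1 : ℝ) - single j i 1) =
      (2 : ℝ) • (single i i (1 : ℝ) - single j j 1) := fun {i j} hij => by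
    simp only [mul_add, add_mul, mul_sub, sub_mul, single_mul_single_same,
      single_mul_single_of_ne _ _ _ _ hij, single_mul_single_of_ne _ _ _ _ hij.symm, mul_one]
    module
  have hH : (single i j (1 : ℝ) - single j i 1) * (single i i (1 : ℝ) - single j j 1) -
      (single i i (1 : ℝ) - single j j 1) * (single i j (1 : ℝ) - single j i 1) =
      (-2 : ℝ) • (single i j (1 : ℝ) + single j i 1) := by
    simp only [mul_add, add_mul, mul_sub, sub_mul, single_mul_single_same,
      single_mul_single_of_ne _ _ _ _ hij, single_mul_single_of_ne _ _ _ _ hij.symm, mul_one]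
    module
  have hK2 : (single i j (1 : ℝ) - single j i 1) * (single i j (1 : ℝ) - single j i 1) =
      -(single i i (1 : ℝ) + single j j 1) := by
    simp only [mul_add, add_mul, mul_sub, sub_mul, single_mul_single_same,
      single_mul_single_of_ne _ _ _ _ hij, single_mul_single_of_ne _ _ _ _ hij.symm, mul_one]
    module
  have hK3 : (single i j (1 : ℝ) - single j i 1) * (single i j (1 : ℝ) - single j i 1) *
      (single i j (1 : ℝ) - single j i 1) + (single i j (1 : ℝ) - single j i 1) = 0 := by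
    rw [hK2]
    simp only [neg_mul, mul_add, add_mul, mul_sub, sub_mul, single_mul_single_same,
      single_mul_single_of_ne _ _ _ _ hij, single_mul_single_of_ne _ _ _ _ hij.symm, mul_one]
    module
  have hk := hA i j
  have hX : (T i i - T j j) • (single i i (1 : ℝ) - single j j 1) +
      (2 * T i j) • (single i j (1 : ℝ) + single j i 1) ∈ W := by
    have := W.add_mem (hW _ hk _ (hW _ hk _ (hW _ hk _ (hW _ hk _ hT)))) (hW _ hk _ (hW _ hk _ hT))
    rw [ad4 T hK3, hK2, ← Nat.cast_smul_eq_nsmul ℝ] at this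
    have := hsm (by norm_num) this
    have e : ∀ (a b : n) (c : ℝ), single a b c = c • single a b (1 : ℝ) := fun a b c => by
      rw [smul_single, smul_eq_mul, mul_one]
    simp only [neg_mul, mul_neg, neg_neg, mul_add, add_mul, mul_sub, sub_mul, single_mul_mul_single,
      one_mul, mul_one, hsy i j] at this
    rw [e i i, e i j, e j i, e j j, e i i (T j j), e j j (T i i)] at this
    refine (congrArg (· ∈ W) ?_).mp this
    module
  have hij' : single i j (1 : ℝ) + single j i 1 ∈ W := by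
    have h2 := hW _ hk _ hX
    rw [mul_add, add_mul, mul_smul_comm, mul_smul_comm, smul_mul_assoc, smul_mul_assoc,
      add_sub_add_comm, ← smul_sub, ← smul_sub, hH, hS hij] at h2
    refine hsm (mul_ne_zero two_ne_zero hne) ((congrArg (· ∈ W) ?_).mp
      (W.sub_mem (W.smul_mem (2 * (2 * T i j)) hX) (W.smul_mem (T i i - T j j) h2)))
    module
  have step : ∀ {i j k : n}, i ≠ j → i ≠ k → single i j (1 : ℝ) + single j i 1 ∈ W →
      single k i (1 : ℝ) + single i k 1 ∈ W := fun {i j k} hij hik h => by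
    by_cases hjk : j = k
    · rw [← hjk, add_comm]; exact h
    · have := hW _ (hA k j) _ h
      simp only [mul_add, add_mul, mul_sub, sub_mul, single_mul_single_same,
        single_mul_single_of_ne _ _ _ _ hij, single_mul_single_of_ne _ _ _ _ hij.symm,
        single_mul_single_of_ne _ _ _ _ hik, single_mul_single_of_ne _ _ _ _ hik.symm,
        single_mul_single_of_ne _ _ _ _ hjk, single_mul_single_of_ne _ _ _ _ (Ne.symm hjk),
        mul_one] at this
      refine (congrArg (· ∈ W) ?_).mp this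
      module
  have all : ∀ {k l : n}, k ≠ l → single k l (1 : ℝ) + single l k 1 ∈ W := fun {k l} hkl => by
    rw [add_comm]
    by_cases hk : i = k
    · exact step (hk ▸ hij) hkl (hk ▸ hij')
    · exact step (Ne.symm hk) hkl (step hij hk hij')
  have one : ∀ k l : n, single k l (1 : ℝ) ∈ W := fun k l => by
    by_cases hkl : k = l
    · subst hkl
      have h2 : ∀ l, single k k (1 : ℝ) - single l l 1 ∈ W := fun l => by
        by_cases e : k = l
        · rw [e, sub_self]; exact W.zero_mem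
        · exact hsm two_ne_zero (hS e ▸ hW _ (hA k l) _ (all e))
      have h3 := W.add_mem h1 (W.sum_mem fun l (_ : l ∈ Finset.univ) => h2 l)
      have h4 : ∑ l : n, single l l (1 : ℝ) = 1 := by
        ext a b
        simp [Matrix.sum_apply, single_apply, one_apply, ite_and, eq_comm]
      rw [Finset.sum_sub_distrib, h4, add_sub_cancel, Finset.sum_const,
        ← Nat.cast_smul_eq_nsmul ℝ] at h3
      exact hsm (Nat.cast_ne_zero.2 (Finset.card_pos.2 ⟨k, Finset.mem_univ k⟩).ne') h3
    · refine hsm two_ne_zero ((congrArg (· ∈ W) ?_).mp (W.add_mem (all hkl) (hA k l)))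
      module
  refine eq_top_iff.2 fun x _ => ?_
  rw [matrix_eq_sum_single x]
  refine W.sum_mem fun k _ => W.sum_mem fun l _ => ?_
  have := W.smul_mem (x k l) (one k l)
  rwa [smul_single, smul_eq_mul, mul_one] at this

theorem antisym_of {α : Type} (W : Submodule ℂ (Matrix n n ℂ))
    (hW : ∀ x ∈ W, ∀ y ∈ W, x * y - y * x ∈ W) (w : α → n → ℂ)
    (hw : ∀ a, vecMulVec (w a) (w a) ∈ W) (h1 : ∀ v, (∀ b, v ⬝ᵥ w b = 0) → v = 0)
    (h2 : ∀ a, w a ≠ 0 → ∀ v, (∀ b, (w a ⬝ᵥ w b) * (v ⬝ᵥ w b) = 0) → v = 0) (x y : n → ℂ) :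
    vecMulVec x y - vecMulVec y x ∈ W := by
  have s1 : ∀ a y, wedge (w a) y ∈ W := fun a y => by
    by_cases h0 : w a = 0
    · have : wedge (w a) y = 0 := by
        ext i j; simp [wedge, h0]
      rw [this]; exact W.zero_mem
    · have : W.comap (wedge (w a)) = ⊤ := top_of_dot _ fun v hv => h2 a h0 v fun b => by
        rw [← smul_eq_mul, ← dotProduct_smul]
        refine hv _ ((congrArg (· ∈ W) ?_).mp (hW _ (hw b) _ (hw a)))
        ext i j
        simp only [vecMulVec_mul_vecMulVec, wedge, LinearMap.coe_mk, AddHom.coe_mk,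
          Matrix.sub_apply, vecMulVec_apply, Pi.smul_apply, smul_eq_mul, dotProduct_comm (w b)]
        ring
      exact (this.ge Submodule.mem_top :)
  have : W.comap (wedge y) = ⊤ := top_of_dot _ fun v hv => h1 v fun b => hv _ (by
    have := W.neg_mem (s1 b y)
    rwa [show -wedge (w b) y = wedge y (w b) from neg_sub _ _] at this)
  exact (this.ge Submodule.mem_top :)

end Vale.Agent.P225
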