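import Vale.Agent.P225.Gen1
import Vale.Agent.P225.Null
import Vale.Agent.P225.SoSl

namespace Vale.Agent.P225

open Matrix MvPolynomial

variable {σ : Type} [Fintype σ] [DecidableEq σ] {κ : Type} [Fintype κ] [DecidableEq κ]
  {I : Type} [Fintype I] [DecidableEq I]

namespace Gen2Aux

section
variable {B Bc : Type} [Ring B] [Algebra ℝ B] [Ring Bc] [Algebra ℂ Bc] (ι : B →+* Bc)
  (hι : ∀ (r : ℝ) (u : B), ι (r • u) = (r : ℂ) • ι u) (W : Submodule ℝ B)

/-- complexification of a real subspace -/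
def cx : Submodule ℂ Bc where
  carrier := {x | ∃ u ∈ W, ∃ v ∈ W, x = ι u + Complex.I • ι v}
  add_mem' := by
    rintro _ _ ⟨u, hu, v, hv, rfl⟩ ⟨u', hu', v', hv', rfl⟩
    exact ⟨_, add_mem hu hu', _, add_mem hv hv', by simp only [map_add, smul_add]; abel⟩
  zero_mem' := ⟨0, zero_mem _, 0, zero_mem _, by simp⟩
  smul_mem' := by
    rintro c _ ⟨u, hu, v, hv, rfl⟩
    refine ⟨_, sub_mem (W.smul_mem c.re hu) (W.smul_mem c.im hv), _,
      add_mem (W.smul_mem c.im hu) (W.smul_mem c.re hv), ?_⟩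
    simp only [map_add, map_sub, hι]
    nth_rewrite 1 [← Complex.re_add_im c]
    match_scalars
    · ring
    · linear_combination (c.im : ℂ) * Complex.I_mul_I

theorem cx_br {u v u' v' : B} (h1 : u * u' - u' * u ∈ W) (h2 : v * v' - v' * v ∈ W)
    (h3 : u * v' - v' * u ∈ W) (h4 : v * u' - u' * v ∈ W) :
    (ι u + Complex.I • ι v) * (ι u' + Complex.I • ι v') -
      (ι u' + Complex.I • ι v') * (ι u + Complex.I • ι v) ∈ cx ι hι W := by
  refine ⟨_, sub_mem h1 h2, _, add_mem h3 h4, ?_⟩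
  simp only [map_add, map_sub, map_mul, mul_add, add_mul, smul_mul_assoc, mul_smul_comm, smul_smul,
    Complex.I_mul_I, smul_add, smul_sub, neg_smul, one_smul]
  abel

theorem cx_lie (hW : ∀ x ∈ W, ∀ y ∈ W, x * y - y * x ∈ W) :
    ∀ x ∈ cx ι hι W, ∀ y ∈ cx ι hι W, x * y - y * x ∈ cx ι hι W := by
  rintro _ ⟨u, hu, v, hv, rfl⟩ _ ⟨u', hu', v', hv', rfl⟩
  exact cx_br ι hι W (hW _ hu _ hu') (hW _ hv _ hv') (hW _ hu _ hv') (hW _ hv _ hu')

end

/-- complexification of matrices -/
noncomputable def im (n : Type) [Fintype n] [DecidableEq n] : Matrix n n ℝ →+* Matrix n n ℂ :=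
  Complex.ofRealHom.mapMatrix

theorem im_smul {n : Type} [Fintype n] [DecidableEq n] (r : ℝ) (u : Matrix n n ℝ) :
    im n (r • u) = (r : ℂ) • im n u := by
  ext i j; simp [im]

theorem im_entry {n : Type} [Fintype n] [DecidableEq n] (u v : Matrix n n ℝ) (i j : n) :
    ((im n u + Complex.I • im n v) i j).re = u i j ∧
      ((im n u + Complex.I • im n v) i j).im = v i j := by
  simp [im]

/-- complexification of block matrices -/
noncomputable def ib (N : I → ℕ) : Blk ℝ N →+* Blk ℂ N :=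
  RingHom.pi fun l => (im (Fin (N l))).comp (Pi.evalRingHom _ l)

omit [Fintype I] [DecidableEq I] in
theorem ib_smul (N : I → ℕ) (r : ℝ) (u : Blk ℝ N) : ib N (r • u) = (r : ℂ) • ib N u :=
  funext fun l => im_smul r (u l)

theorem block (hn : 3 ≤ Fintype.card σ) {l N : ℕ} (hl : 3 ≤ l) {b : Fin N → MvPolynomial σ ℝ}
    (hb : ONB l b) (W : Submodule ℝ (Matrix (Fin N) (Fin N) ℝ))
    (hW : ∀ x ∈ W, ∀ y ∈ W, x * y - y * x ∈ W) (h1 : (1 : Matrix (Fin N) (Fin N) ℝ) ∈ W)
    (hw : ∀ a : σ → ℂ, a ⬝ᵥ a = 0 → vecMulVec (fun i => eval a (cpx (b i)))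
      (fun i => eval a (cpx (b i))) ∈ cx (im _) im_smul W) : W = ⊤ := by
  have hm : ∀ i, cpx (b i) ∈ Hsp ℂ σ l := fun i => cpx_mem (hb.mem i)
  have f0 : (l.factorial : ℂ) ≠ 0 := by exact_mod_cast l.factorial_ne_zero
  have van : ∀ a : σ → ℂ, a ≠ 0 → ∀ v : Fin N → ℂ, (∀ c : σ → ℂ, c ⬝ᵥ c = 0 →
      (a ⬝ᵥ c) * (v ⬝ᵥ fun i => eval c (cpx (b i))) = 0) → v = 0 := fun a ha v h =>
    hb.comb_eq_zero (null_vanish hn (mem_Hsp.1 (Submodule.sum_mem _ fun i _ =>
      Submodule.smul_mem _ (v i) (hm i))).2 ha fun c hc => by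
        rw [← h c hc]
        simp [dotProduct])
  have k1 : ∀ v : Fin N → ℂ, (∀ c : {a : σ → ℂ // a ⬝ᵥ a = 0},
      (v ⬝ᵥ fun i => eval c.1 (cpx (b i))) = 0) → v = 0 := fun v h => by
    have : Nonempty σ := Fintype.card_pos_iff.1 (by omega)
    exact van 1 one_ne_zero v fun c hc => by rw [h ⟨c, hc⟩, mul_zero]
  have an := antisym_of (α := {a : σ → ℂ // a ⬝ᵥ a = 0}) _ (cx_lie (im _) im_smul W hW)
    (fun a i => eval a.1 (cpx (b i))) (fun a => hw a.1 a.2) k1 fun a ha v h => by
      refine van a.1 (fun h0 => ha (_root_.funext fun i => ?_)) v fun c hc => ?_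
      · have := eval_smul_homog (mem_Hsp.1 (hm i)).1 0 a.1
        rw [zero_smul, zero_pow (by omega), zero_mul] at this
        rw [h0, this]; rfl
      · rcases mul_eq_zero.1 (h ⟨c, hc⟩) with h2 | h2
        · have := hb.w_dot a.2 c
          rw [h2, mul_zero] at this
          rw [pow_eq_zero_iff (by omega) |>.1 this.symm, zero_mul]
        · rw [h2, mul_zero]
  have hA : ∀ i j, Matrix.single i j (1 : ℝ) - Matrix.single j i 1 ∈ W := fun i j => by
    obtain ⟨u, hu, v, -, e⟩ := an (Pi.single i 1) (Pi.single j 1)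
    convert hu using 1
    ext p q
    rw [← (im_entry u v p q).1, ← e]
    rw [← Matrix.single_eq_single_vecMulVec_single, ← Matrix.single_eq_single_vecMulVec_single]
    simp only [Matrix.sub_apply, Matrix.single, of_apply, Complex.sub_re]
    split_ifs <;> simp
  by_cases hz : ∀ a : {a : σ → ℂ // a ⬝ᵥ a = 0}, (fun i => eval a.1 (cpx (b i))) = 0
  · refine eq_top_iff.2 fun x _ => ?_
    convert W.zero_mem
    ext i j
    have := congrFun (k1 (Pi.single i 1) fun c => by rw [hz c, dotProduct_zero]) i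
    simp at this
  push Not at hz
  obtain ⟨a, ha⟩ := hz
  obtain ⟨u, hu, v, hv, e⟩ := hw a.1 a.2
  have t := hb.w_dot a.2 a.1
  rw [a.2, zero_pow (by omega), mul_eq_zero, or_iff_right f0] at t
  generalize (fun i => eval a.1 (cpx (b i))) = w at *
  have e1 : ∀ i j, u i j = (w i * w j).re := fun i j => by rw [← (im_entry u v i j).1, ← e]; rfl
  have e2 : ∀ i j, v i j = (w i * w j).im := fun i j => by rw [← (im_entry u v i j).2, ← e]; rfl
  by_cases u0 : u = 0
  · refine top_of_so W hW h1 hA hv ?_ ?_ fun v0 => ha (_root_.funext fun i => ?_)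
    · ext i j; rw [transpose_apply, e2, e2, mul_comm]
    · simp only [trace, diag, e2, ← Complex.im_sum]
      exact congrArg Complex.im t
    · refine mul_self_eq_zero.1 (Complex.ext ?_ ?_)
      · rw [← e1, u0]; rfl
      · rw [← e2, v0]; rfl
  · refine top_of_so W hW h1 hA hu ?_ ?_ u0
    · ext i j; rw [transpose_apply, e1, e1, mul_comm]
    · simp only [trace, diag, e1, ← Complex.re_sum]
      exact congrArg Complex.re t

end Gen2Aux

open Gen2Aux in
theorem gen_inv (e : σ ≃ κ ⊕ κ) (hκ : 3 ≤ Fintype.card κ) (deg : I → ℕ)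
    (hd : Function.Injective deg) (h3 : ∀ l, 3 ≤ deg l) {N : I → ℕ}
    (b : ∀ l, Fin (N l) → MvPolynomial σ ℝ) (hb : ∀ l, ONB (deg l) (b l)) (β : I → ℝ)
    (hβ : ∀ l, β l ≠ 0) (W : Submodule ℝ (Blk ℝ N)) (hW : ∀ x ∈ W, ∀ y ∈ W, x * y - y * x ∈ W)
    (hK : ∀ J : Matrix σ σ ℝ, IsCx J → (fun l => β l • mat (b l) (Xop J * Xop J)) ∈ W)
    (hZ : ∀ f : I → ℝ, (fun l => f l • (1 : Matrix (Fin (N l)) (Fin (N l)) ℝ)) ∈ W)
    (hX : ∀ A : Matrix σ σ ℝ, Aᵀ = -A → ∀ x ∈ W,
      (fun l => mat (b l) (Xop A)) * x - x * (fun l => mat (b l) (Xop A)) ∈ W) : W = ⊤ := by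
  have hn : 3 ≤ Fintype.card σ := by rw [Fintype.card_congr e, Fintype.card_sum]; omega
  have r1 := rank_one e hκ deg b hb β hβ (cx (ib N) (ib_smul N) W) (cx_lie _ _ W hW)
    (fun J hJ => ⟨_, hK J hJ, 0, zero_mem _, by
      rw [map_zero, smul_zero, add_zero]
      funext l
      rw [mat_cpx_Xop_sq]
      exact (im_smul _ _).symm⟩)
    (by
      rintro A hA _ ⟨u, hu, v, hv, rfl⟩
      have s1 : (A.map Complex.re)ᵀ = -A.map Complex.re := by
        rw [← transpose_map, hA]; ext i j; simp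
      have s2 : (A.map Complex.im)ᵀ = -A.map Complex.im := by
        rw [← transpose_map, hA]; ext i j; simp
      have eA : A = (A.map Complex.re).map (↑) + Complex.I • (A.map Complex.im).map (↑) := by
        ext i j; simp [mul_comm Complex.I]
      have e2 : (fun l => mat (fun i => cpx (b l i)) (Xop A)) =
          ib N (fun l => mat (b l) (Xop (A.map Complex.re))) +
            Complex.I • ib N (fun l => mat (b l) (Xop (A.map Complex.im))) := by
        funext l
        nth_rewrite 1 [eA]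
        rw [Xop_add, Xop_smul, mat_add, mat_smul, mat_cpx_Xop, mat_cpx_Xop]
        rfl
      rw [e2]
      exact cx_br _ _ W (hX _ s1 _ hu) (hX _ s2 _ hv) (hX _ s1 _ hv) (hX _ s2 _ hu))
  have key : ∀ n l₀, Finset.univ.sup deg - deg l₀ = n → ∀ M, Pi.single l₀ M ∈ W := by
    intro n
    induction n using Nat.strong_induction_on with
    | _ n ih =>
      intro l₀ hl₀
      have cut : ∀ x ∈ W, (∀ l, deg l < deg l₀ → x l = 0) → Pi.single l₀ (x l₀) ∈ W := by
        intro x hx h
        have e1 := Finset.univ_sum_single x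
        rw [← Finset.add_sum_erase _ _ (Finset.mem_univ l₀)] at e1
        rw [eq_sub_of_add_eq e1]
        refine sub_mem hx (Submodule.sum_mem _ fun l hl => ?_)
        rcases lt_or_gt_of_ne (hd.ne (Finset.ne_of_mem_erase hl)) with h1 | h1
        · rw [h l h1, Pi.single_zero]; exact zero_mem _
        · have : deg l ≤ Finset.univ.sup deg := Finset.le_sup (Finset.mem_univ l)
          exact ih _ (by omega) l rfl _
      have top := block hn (h3 l₀) (hb l₀)
        (W.comap (LinearMap.single ℝ (fun l => Matrix (Fin (N l)) (Fin (N l)) ℝ) l₀))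
        (fun x hx y hy => by
          have := hW _ hx _ hy
          simp only [LinearMap.coe_single, ← Pi.single_mul, ← Pi.single_sub] at this
          exact this)
        (by
          have := cut _ (hZ (Pi.single l₀ 1)) fun l h => by
            rw [Pi.single_eq_of_ne (fun h' => by rw [h'] at h; exact lt_irrefl _ h), zero_smul]
          simpa using this)
        fun a ha => by
          obtain ⟨_, ⟨u, hu, v, hv, rfl⟩, e1, e2⟩ := r1 l₀ (h3 l₀) ha
          refine ⟨u l₀, cut u hu fun l h => ?_, v l₀, cut v hv fun l h => ?_, e1.symm⟩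
          · ext i j
            rw [← (im_entry (u l) (v l) i j).1]
            exact congrArg (fun M : Matrix _ _ ℂ => (M i j).re) (e2 l h)
          · ext i j
            rw [← (im_entry (u l) (v l) i j).2]
            exact congrArg (fun M : Matrix _ _ ℂ => (M i j).im) (e2 l h)
      exact fun M => (eq_top_iff.1 top : _) (Submodule.mem_top (x := M))
  refine eq_top_iff.2 fun x _ => ?_
  rw [← Finset.univ_sum_single x]
  exact Submodule.sum_mem _ fun l _ => key _ l rfl _

end Vale.Agent.P225
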