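import Vale.Agent.P225.Cycle
import Vale.Agent.P225.GlobA

namespace Vale.Agent.P225

open Set Filter NormedSpace
open scoped ContDiff Topology

variable {A ι I : Type} [NormedRing A] [NormedAlgebra ℝ A] [FiniteDimensional ℝ A] [Fintype ι]
  [Fintype I] [DecidableEq ι]

namespace GlobAux

theorem lam_congr (D : Diag A ι I) (m : ℕ) (lam : I → ℝ) {e : ℝ} {k k' : A} (h : e = 0 ∨ k = k') :
    D.Lam m lam e k = D.Lam m lam e k' := by
  rcases h with rfl | rfl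
  · simp [Diag.Lam, vs]
  · rfl

theorem rr_nonneg {m : ℕ} {c' e' w τ₀ τ t L C : ℝ} (hw : 0 < w) (h0 : 0 < τ₀) (hτ : τ₀ ≤ τ)
    (ht0 : 0 ≤ t) (ht : t ≤ L * τ) (hc : c' ≤ -(w / 2 * τ₀ / (τ₀ ^ 2 + t ^ 2)))
    (he : |e'| ≤ C / τ) (hC : 4 * m * C ^ 2 * (1 + L ^ 2) / w ≤ τ₀) : 0 ≤ RR m c' e' := by
  have hτ' : 0 < τ := h0.trans_le hτ
  have h1 : e' ^ 2 ≤ C ^ 2 / τ ^ 2 := by
    rw [← div_pow, ← sq_abs e']
    exact pow_le_pow_left₀ (abs_nonneg _) he 2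
  have h2 : τ₀ ^ 2 + t ^ 2 ≤ (1 + L ^ 2) * τ ^ 2 := by
    nlinarith [pow_le_pow_left₀ h0.le hτ 2, pow_le_pow_left₀ ht0 ht 2]
  have h3 : 2 * m * (C ^ 2 / τ ^ 2) ≤ w / 2 * τ₀ / (τ₀ ^ 2 + t ^ 2) := by
    refine le_trans ?_ (div_le_div_of_nonneg_left (by positivity) (by positivity) h2)
    rw [div_le_iff₀ hw] at hC
    rw [le_div_iff₀ (by positivity)]
    field_simp
    linarith
  have h4 : 2 * m * e' ^ 2 ≤ 2 * m * (C ^ 2 / τ ^ 2) :=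
    mul_le_mul_of_nonneg_left h1 (by positivity)
  rw [RR, neg_mul, ← mul_neg]
  exact mul_nonneg (by positivity) (by linarith)

theorem deriv_shift (f : ℝ → ℝ) (a : ℝ) : deriv (fun t => f (t - a)) = fun t => deriv f (t - a) :=
  funext fun t => deriv_comp_sub_const f a t

end GlobAux

open GlobAux in
theorem glob (D : Diag A ι I) {L : Type} (K : L → A) (j₀ : L) {m : ℕ} (hm : 0 < m)
    {c₁ c₂ es k lb : ℝ} (hc₂ : 0 < c₂) (hc : c₂ < c₁) (hc₁ : c₁ < 1) (hes : 0 < es) (hk : 0 < k)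
    (hric : 2 * m * c₁ ^ 2 < (2 * m + 2) * Real.exp (2 * es) - 2 * Real.exp ((4 * m + 4) * es))
    (deg : I → ℝ) (hd : ∀ l, 0 < deg l) (ν : ι → ℝ) (hK : K j₀ = D.dg ν)
    (hν : ∀ i, -deg (D.blk i) ^ 2 ≤ ν i ∧ ν i ≤ 0) (hgen : D.Gen K)
    {g : A} (hg : g ∈ Submonoid.closure (range (exp : A → A))) (π : ι → ι)
    (hπ : ∀ i, g * D.dg (Pi.single i 1) = D.dg (Pi.single (π i) 1) * g) (S : Set ι)
    (hS : ∀ i ∈ S, π i ∈ S) {G : ι → ℝ} (hG : ∀ i, 0 ≤ G i)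
    (hl : ∀ i ∈ S, Real.exp (2 * es) * (deg (D.blk (π i)) * (deg (D.blk (π i)) + 2 * m))
      + vs m es * ν (π i) ≤ lb + G (π i) - G i) (hlb : lb < c₂ ^ 2 * (k * (k + 2 * m))) :
    ∃ (c η : ℝ → ℝ) (J : ℝ → L) (U V : ℝ → A) (B : ℝ), ContDiff ℝ ∞ c ∧ ContDiff ℝ ∞ η ∧
      (∀ s ≤ 0, c s = 1 ∧ η s = 0) ∧ (∀ s, c₂ ≤ c s ∧ c s ≤ 1 ∧ |η s| ≤ B) ∧
      (∀ t, ∀ᶠ u in 𝓝 t, η u = 0 ∨ J u = J t) ∧
      (∀ s, 0 ≤ RH m (c s) (deriv c s) (η s) (deriv η s) (deriv (deriv η) s) ∧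
        0 ≤ RV m (c s) (deriv c s) (η s) (deriv η s) (deriv (deriv η) s) ∧
        0 ≤ RR m (deriv c s) (deriv η s)) ∧
      Sol (fun s => 2 * m * c s)
        (fun s => D.Lam m (fun l => deg l * (deg l + 2 * m)) (η s) (K (J s))) U V ∧
      ContDiff ℝ ∞ U ∧ (∀ s ≤ 0, U s = D.z fun l => Real.exp (deg l * s)) ∧
      ∀ i ∈ S, ∃ C : ℝ, ∀ s ≥ 0, ‖U s * D.dg (Pi.single i 1)‖ ≤ C * Real.exp (k * c₂ * s) := by
  have : CompleteSpace A := FiniteDimensional.complete ℝ A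
  have hm' : (0 : ℝ) < m := by exact_mod_cast hm
  have hc₁' : 0 < c₁ := hc₂.trans hc
  obtain ⟨α, hα, hαd⟩ : ∃ α : I → ℝ, (∀ l, 0 < α l) ∧
      ∀ l, α l ^ 2 + 2 * m * c₁ * α l = deg l * (deg l + 2 * m) := by
    refine ⟨fun l => √((m * c₁) ^ 2 + deg l * (deg l + 2 * m)) - m * c₁, fun l => ?_, fun l => ?_⟩
    · have := hd l
      exact sub_pos.2 (Real.lt_sqrt_of_sq_lt (lt_add_of_pos_right _ (by positivity)))
    · have := hd l
      have h := Real.sq_sqrt (show 0 ≤ (m * c₁) ^ 2 + deg l * (deg l + 2 * m) by positivity)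
      linear_combination h
  obtain ⟨M, lab, S', C, ε, hε, w, hw, τ₁, hτ₁, hcyc⟩ := cycle D K j₀ hm hc₂ hc.le hes.le
    (κ := k * c₂) (by positivity) α hα ν hK (fun i => ⟨by
      rw [hαd]
      nlinarith [(hν i).1, mul_pos (hd (D.blk i)) hm'], (hν i).2⟩) hgen hg
  simp only [hαd] at hcyc
  obtain ⟨Θ, hΘ, e, he, hcol⟩ := col_growth D g π hπ S hS (lam := fun i => Real.exp (2 * es) *
    (deg (D.blk i) * (deg (D.blk i) + 2 * m)) + vs m es * ν i) hG hl (κ := k * c₂)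
    (d₀ := 2 * m * c₂) (by positivity) (by positivity) (by linarith) C M
  obtain ⟨w', hw', a₀, ha₀, hinit⟩ := init_phase D hm hc₂ deg α hd hα hαd hε
  obtain ⟨εr, hεr, hr⟩ := ric_small hm hc₁ hes hric
  obtain ⟨Cη, hCη, hη⟩ := etaC_bound m M S' hes.le
  obtain ⟨w₀, hw₀, hw1, hw2, hw3⟩ : ∃ w₀ > 0, w₀ ≤ w ∧ w₀ ≤ w' ∧ w₀ ≤ c₁ - c₂ :=
    ⟨min (min w w') (c₁ - c₂), lt_min (lt_min hw hw') (sub_pos.2 hc),
      (min_le_left _ _).trans (min_le_left _ _), (min_le_left _ _).trans (min_le_right _ _),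
      min_le_right _ _⟩
  set T : ℝ := M + 3 + Θ with hT
  have hT3 : 3 ≤ T := by have : (0 : ℝ) ≤ M := Nat.cast_nonneg M; linarith
  obtain ⟨τ₀, h1, h2, h3, h4⟩ : ∃ τ₀, τ₁ ≤ τ₀ ∧ a₀ ≤ τ₀ ∧ Cη / εr ≤ τ₀ ∧
      4 * m * Cη ^ 2 * (1 + (1 + T * (1 + e) / e) ^ 2) / w₀ ≤ τ₀ :=
    ⟨max (max τ₁ a₀) (max _ _), le_max_of_le_left (le_max_left _ _),
      le_max_of_le_left (le_max_right _ _), le_max_of_le_right (le_max_left _ _),
      le_max_of_le_right (le_max_right _ _)⟩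
  have hτ₀ : 1 ≤ τ₀ := hτ₁.trans h1
  have hτ₀' : 0 < τ₀ := one_pos.trans_le hτ₀
  obtain ⟨c, hcs, hc0, hc1, hc2⟩ := exists_cfun hc₁ hw₀ hτ₀'
  have hcw : ∀ s ≥ 1, |c s - c₁| ≤ w₀ := fun s hs =>
    abs_le.2 ⟨by linarith [(hc1 s).2.1], by linarith [(hc2 s hs).1]⟩
  have hcc : ∀ s, c₂ ≤ c s ∧ c s ≤ 1 := fun s => ⟨by linarith [(hc1 s).2.1], (hc1 s).2.2⟩
  have hdc : ContDiff ℝ ∞ fun s => 2 * m * c s := contDiff_const.mul hcs
  have hτ : ∀ j : ℕ, τ₀ ≤ τ₀ * (1 + e) ^ j := fun j =>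
    le_mul_of_one_le_right hτ₀'.le (one_le_pow₀ (by linarith))
  obtain ⟨s, hs0, hs, hs'⟩ : ∃ s : ℕ → ℝ, s 0 = τ₀ ∧ (∀ j, s (j + 1) = s j + T * (τ₀ * (1 + e) ^ j)) ∧
      ∀ j, s (j + 1) ≤ (1 + T * (1 + e) / e) * (τ₀ * (1 + e) ^ j) := by
    refine ⟨fun j => τ₀ + T * (τ₀ * (1 + e) ^ j - τ₀) / e, by simp, fun j => ?_, fun j => ?_⟩
    · field_simp
      ring
    · have : 0 ≤ T * τ₀ / e := by positivity
      have h5 : T * (τ₀ * (1 + e) ^ (j + 1) - τ₀) / e =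
          T * (1 + e) / e * (τ₀ * (1 + e) ^ j) - T * τ₀ / e := by ring
      simp only [h5]
      linarith [hτ j]
  have hstep : ∀ j, s j + 1 ≤ s (j + 1) := fun j => by
    rw [hs]
    nlinarith [hτ j]
  have hsm : StrictMono s := strictMono_nat_of_lt_succ fun j => by linarith [hstep j]
  have hs1 : ∀ j : ℕ, (j : ℝ) + 1 ≤ s j := fun j => by
    induction j with
    | zero => simpa [hs0] using hτ₀
    | succ j ih => push_cast; linarith [hstep j]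
  have hst : Tendsto s atTop atTop := tendsto_atTop_mono (fun j => by linarith [hs1 j])
    tendsto_natCast_atTop_atTop
  have hs1' : ∀ j, 1 ≤ s j := fun j => by
    have : (0 : ℝ) ≤ j := Nat.cast_nonneg j
    linarith [hs1 j]
  obtain ⟨U₀, V₀, hs₀, hU₀, hV₀⟩ := sol_exists (Λ := fun _ => D.z fun l => deg l * (deg l + 2 * m))
    hdc.continuous continuous_const 0 1 (D.z deg)
  obtain ⟨-, ⟨f₀, hf₀⟩, B₀, hB₀, hVB₀⟩ := hinit τ₀ h2 c _ U₀ V₀ hcs.continuous continuous_const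
    hc0 hcc (fun s hs => (hcw s hs).trans hw2) (fun _ _ => rfl) hs₀ hU₀ hV₀
  have hcyc' := fun (j : ℕ) (B : {B : A // ‖B‖ ≤ ε}) => hcyc _ (h1.trans (hτ j)) Θ hΘ (s j) c B.1
    hcs.continuous (fun t ht => ⟨(hcc t).1, (hcw t ((hs1' j).trans ht.1)).trans hw1⟩) B.2
  simp only [← hT, ← hs] at hcyc'
  choose p W W' y nx hp hsol k1 k2 k3 k4 k5 k6 k7 using hcyc'
  obtain ⟨Bs, hB0, hBs⟩ : ∃ Bs : ℕ → {B : A // ‖B‖ ≤ ε}, (Bs 0).1 = B₀ ∧
      ∀ j, (Bs (j + 1)).1 = nx j (Bs j) :=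
    ⟨fun j => Nat.rec ⟨B₀, hB₀⟩ (fun j B => ⟨nx j B, k4 j B⟩) j, rfl, fun _ => rfl⟩
  have hτp : ∀ j : ℕ, 0 < τ₀ * (1 + e) ^ j := fun j => hτ₀'.trans_le (hτ j)
  obtain ⟨η, J, hηs, hη0, hηc, hloc, hηl⟩ := glue j₀ hsm hst
    (fun j t => etaC m es M Θ (τ₀ * (1 + e) ^ j) (p j (Bs j)) (t - s j))
    (fun j t => labC lab j₀ M (τ₀ * (1 + e) ^ j) (t - s j))
    (fun j => (contDiff_etaC _ _ _ _ _ _).comp (contDiff_id.sub contDiff_const))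
    (fun j => by
      filter_upwards [Iio_mem_nhds (show s j < s j + τ₀ * (1 + e) ^ j / 4 by linarith [hτp j])]
        with t ht
      exact etaC_eq_zero (hτp j) hΘ (Or.inl (by linarith [mem_Iio.1 ht])))
    (fun j => by
      filter_upwards [Ioi_mem_nhds (show s (j + 1) - τ₀ * (1 + e) ^ j < s (j + 1) by
        linarith [hτp j])] with t ht
      refine etaC_eq_zero (hτp j) hΘ (Or.inr ?_)
      have := mem_Ioi.1 ht
      rw [hs, hT] at this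
      linarith)
    (fun j t => (continuous_sub_right (s j)).continuousAt.eventually
      (labC_loc lab j₀ (hτp j) (t - s j)))
  have hΛ := lam_smooth D m (fun l => deg l * (deg l + 2 * m)) K hηs hloc
  obtain ⟨U, V, hsU, hU0, hV0⟩ := sol_exists hdc.continuous hΛ.continuous 0 1 (D.z deg)
  have hΛ0 : ∀ t ≤ τ₀, D.Lam m (fun l => deg l * (deg l + 2 * m)) (η t) (K (J t)) =
      D.z fun l => deg l * (deg l + 2 * m) := fun t ht => by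
    simp [Diag.Lam, vs, hη0 t (hs0 ▸ ht)]
  have hu0 := hsU.unique hs₀ hdc.continuous hΛ.continuous (left_mem_Icc.2 hτ₀'.le)
    (fun t ht => ⟨rfl, hΛ0 t ht.2⟩) (hU0.trans hU₀.symm) (hV0.trans hV₀.symm) τ₀
    (right_mem_Icc.2 hτ₀'.le)
  have key : ∀ j, V (s j) = (D.z α + (Bs j).1) * U (s j) → ∀ t ∈ Icc (s j) (s (j + 1)),
      U t = W j (Bs j) t * U (s j) ∧ V t = W' j (Bs j) t * U (s j) := fun j hj =>
    hsU.unique ((hsol j (Bs j)).mul_right (U (s j))) hdc.continuous hΛ.continuous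
      (left_mem_Icc.2 (hsm.monotone j.le_succ)) (fun t ht => ⟨rfl, by
        rw [← (hηc j t ht).1]
        exact lam_congr D m _ ((hηc j t ht).2.imp id (congrArg K))⟩)
      (by rw [k1, one_mul]) (by rw [k2, hj])
  have hind : ∀ j, V (s j) = (D.z α + (Bs j).1) * U (s j) := fun j => by
    induction j with
    | zero => rw [hs0, hu0.1, hu0.2, hB0, hVB₀]
    | succ j ih =>
      have := key j ih _ (right_mem_Icc.2 (hsm.monotone j.le_succ))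
      rw [this.2, this.1, k5, hBs, mul_assoc]
  have hUs := (hsU.smooth hdc hΛ).1
  have hεC : ∀ j : ℕ, Cη / (τ₀ * (1 + e) ^ j) ≤ εr := fun j => by
    rw [div_le_iff₀ (hτp j)]
    rw [div_le_iff₀ hεr] at h3
    nlinarith [hτ j]
  refine ⟨c, η, J, U, V, max es εr, hcs, hηs, fun t ht => ⟨hc0 t ht, hη0 t (by
    linarith [hs1' 0])⟩, fun t => ⟨(hcc t).1, (hcc t).2, ?_⟩, hloc, fun t => ?_, hsU, hUs,
    (hinit τ₀ h2 c _ U V hcs.continuous hΛ.continuous hc0 hcc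
      (fun s hs => (hcw s hs).trans hw2) hΛ0 hsU hU0 hV0).1, fun i hi => ?_⟩
  · rcases hηl t with h | ⟨j, -, h⟩
    · rw [h.eq_of_nhds]
      simpa using Or.inl hes.le
    · obtain ⟨b1, b2, -⟩ := hη Θ hΘ _ (hτ₀.trans (hτ j)) _ (hp j (Bs j)) (t - s j)
      rw [h.eq_of_nhds]
      exact abs_le.2 ⟨by linarith [hεC j, le_max_right es εr],
        b2.trans (max_le_max le_rfl (hεC j))⟩
  · rcases hηl t with h | ⟨j, ht, h⟩
    · have e1 : deriv η =ᶠ[𝓝 t] 0 := h.deriv.trans (by simp [Pi.zero_def])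
      have e2 : deriv (deriv η) =ᶠ[𝓝 t] 0 := e1.deriv.trans (by simp [Pi.zero_def])
      rw [h.eq_of_nhds, e1.eq_of_nhds, e2.eq_of_nhds]
      exact ric_round m (hc₂.le.trans (hcc t).1) (hcc t).2 (hc1 t).1
    · obtain ⟨b1, b2, b3, b4⟩ := hη Θ hΘ _ (hτ₀.trans (hτ j)) _ (hp j (Bs j)) (t - s j)
      have t1 := (hs1' j).trans ht.1
      rw [h.eq_of_nhds, h.deriv.eq_of_nhds, h.deriv.deriv.eq_of_nhds, deriv_shift, deriv_shift]
      have := hr (c t) (deriv c t) _ _ _ (hc₂.le.trans (hcc t).1) (hc2 t t1).1 (hc1 t).1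
        ((neg_le_neg (hεC j)).trans b1) (b2.trans (max_le_max le_rfl (hεC j))) (b3.trans (hεC j))
        (b4.trans (hεC j))
      exact ⟨this.1, this.2, rr_nonneg hw₀ hτ₀' (hτ j) (zero_le_one.trans t1) (ht.2.trans (hs' j))
        (hc2 t t1).2 b3 h4⟩
  · exact hcol τ₀ hτ₀ s U (fun j => W j (Bs j)) (fun j => y j (Bs j)) hUs.continuous
      (zero_le_one.trans (hs1' 0)) hs ⟨f₀, by rw [hs0, hu0.1, hf₀]⟩
      (fun j t ht => ⟨(key j (hind j) t ht).1, k7 j _ t ht⟩) (fun j => k3 j _) (fun j => k6 j _) i hi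

end Vale.Agent.P225
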