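import Vale.Agent.P225.ChrF

namespace Vale.Agent.P225

open Vale.Agent.P255 Matrix Filter
open scoped ContDiff Topology

variable {σ : Type} [Fintype σ] [DecidableEq σ] {m : ℕ} {h η : ℝ → ℝ} {J : Matrix σ σ ℝ}

namespace LapFAux

variable {x : σ → ℝ}

theorem inv (hJ : IsCx J) (hx : x ≠ 0) : (metM m h η J x)⁻¹ =
    (Real.exp (-2 * h (sl x)) * Real.exp (2 * η (sl x))) • (1 : Matrix σ σ ℝ) +
    (Real.exp (-2 * h (sl x)) * (1 - Real.exp (2 * η (sl x))) / (x ⬝ᵥ x)) • vecMulVec x x +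
    (Real.exp (-2 * h (sl x)) * (Real.exp (-(4 * m * η (sl x))) - Real.exp (2 * η (sl x))) /
      (x ⬝ᵥ x)) • vecMulVec (J *ᵥ x) (J *ᵥ x) := by
  have p := (dot_self_pos hx).ne'
  have p1 := (Real.exp_pos (2 * η (sl x))).ne'
  have p2 := (Real.exp_pos (4 * m * η (sl x))).ne'
  have p3 := (Real.exp_pos (2 * h (sl x))).ne'
  refine inv_eq_right_inv ?_
  simp only [metM, mul_add, add_mul, smul_mul_assoc, mul_smul_comm, one_mul, mul_one,
    vecMulVec_mul_vecMulVec, hJ.dot_dot, hJ.dot_self, dotProduct_comm (J *ᵥ x) x, zero_smul,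
    vecMulVec_zero, vecMulVec_smul, neg_mul, Real.exp_neg]
  match_scalars <;> field_simp <;> ring

theorem expand (B : (σ → ℝ) →L[ℝ] (σ → ℝ) →L[ℝ] ℝ) (a : σ → ℝ) :
    ∑ i, ∑ j, a i * a j * B (Pi.single i 1) (Pi.single j 1) = B a a := by
  conv_rhs => rw [pi_eq_sum_univ' a]
  simp only [map_sum, map_smul, _root_.sum_apply, _root_.smul_apply, smul_eq_mul, Finset.mul_sum]
  rw [Finset.sum_comm]
  exact Finset.sum_congr rfl fun i _ => Finset.sum_congr rfl fun j _ => by ring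

theorem contr (B : (σ → ℝ) →L[ℝ] (σ → ℝ) →L[ℝ] ℝ) (c c1 c2 : ℝ) (a b : σ → ℝ) :
    ∑ i, ∑ j, (c • (1 : Matrix σ σ ℝ) + c1 • vecMulVec a a + c2 • vecMulVec b b) i j *
      B (Pi.single i 1) (Pi.single j 1) =
      c * ∑ i, B (Pi.single i 1) (Pi.single i 1) + c1 * B a a + c2 * B b b := by
  rw [← expand B a, ← expand B b]
  simp [add_mul, Finset.sum_add_distrib, Finset.mul_sum, vecMulVec_apply, one_apply, mul_assoc]

theorem trG (hJ : IsCx J) (hx : x ≠ 0) (q : Fin 6 → ℝ → ℝ) :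
    ∑ i, GamQ q J x (Pi.single i 1) (Pi.single i 1) =
      ((2 * q 0 (sl x) - 2 * q 1 (sl x) + Fintype.card σ * q 2 (sl x) + q 3 (sl x) + q 4 (sl x)) /
        (x ⬝ᵥ x)) • x := by
  have p := (dot_self_pos hx).ne'
  have a1 : ∀ a : σ → ℝ, ∑ i, (a ⬝ᵥ Pi.single i 1) • (Pi.single i 1 : σ → ℝ) = a := fun a => by
    simp only [dotProduct_single_one]; exact (pi_eq_sum_univ' a).symm
  have a2 : ∑ i, ((J *ᵥ x) ⬝ᵥ Pi.single i 1) • J *ᵥ (Pi.single i 1 : σ → ℝ) = -x := by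
    simp only [← mulVec_smul, ← mulVec_sum, a1, hJ.sq]
  have a3 : ∀ a b : σ → ℝ, ∑ i, (a ⬝ᵥ Pi.single i 1) * (b ⬝ᵥ Pi.single i 1) = a ⬝ᵥ b :=
    fun a b => by simp only [dotProduct_single_one]; rfl
  have a4 : ∑ i, (Pi.single i 1 : σ → ℝ) ⬝ᵥ Pi.single i 1 = Fintype.card σ := by simp
  simp only [GamQ, Finset.sum_add_distrib, ← Finset.smul_sum, ← Finset.sum_smul, ← Finset.mul_sum,
    a1, a2, a3, a4, hJ.dot_dot, hJ.dot_self]
  match_scalars <;> field_simp <;> ring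

end LapFAux

theorem lap_met (hp : Prof h η) (hJ : IsCx J) (hc : Fintype.card σ = 2 * m + 2) {x : σ → ℝ}
    (hx : x ≠ 0) {u : (σ → ℝ) → ℝ} (hu : ContDiffAt ℝ 2 u x) :
    lap (met m h η J) u x = Real.exp (-2 * h (sl x)) / (x ⬝ᵥ x) *
      (Real.exp (2 * η (sl x)) * ((x ⬝ᵥ x) * ∑ i, D2 u x (Pi.single i 1) (Pi.single i 1)
          - D2 u x x x - D2 u x (J *ᵥ x) (J *ᵥ x))
        + D2 u x x x + Real.exp (-(4 * m * η (sl x))) * D2 u x (J *ᵥ x) (J *ᵥ x)
        - (Real.exp (-(4 * m * η (sl x))) + 2 * m * Real.exp (2 * η (sl x)) - 1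
          - 2 * m * (1 + deriv h (sl x))) * fderiv ℝ u x x) := by
  have hg := met_isMetric (m := m) hp hJ
  have p := (dot_self_pos hx).ne'
  have e1 : ∀ a b, D2 u x a b = fderiv ℝ (fderiv ℝ u) x a b := fun a b => by
    rw [D2, fderiv_clm_apply ((hu.fderiv_right (m := 1) (by norm_num)).differentiableAt (by simp))
      (differentiableAt_const b)]
    simp
  set B : (σ → ℝ) →L[ℝ] (σ → ℝ) →L[ℝ] ℝ := fderiv ℝ (fderiv ℝ u) x -
    (ContinuousLinearMap.compL ℝ _ _ _ (fderiv ℝ u x)).comp (chrL (met m h η J) x) with hB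
  have e2 : ∀ a b, B a b = D2 u x a b - fderiv ℝ u x (GamQ (qf m h η) J x a b) := fun a b => by
    rw [e1, ← chr_met hp hJ hx]; rfl
  have e3 : lap (met m h η J) u x = ∑ i, ∑ j, (metM m h η J x)⁻¹ i j *
      B (Pi.single i 1) (Pi.single j 1) := by
    have : (Matrix.of fun a b => met m h η J x (Pi.single a 1) (Pi.single b 1)) = metM m h η J x := by
      ext a b
      simp [met, bil_apply]
    simp only [lap, this, e2, chr_met hp hJ hx, D2]
  rw [e3, LapFAux.inv hJ hx, LapFAux.contr]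
  simp only [e2, Finset.sum_sub_distrib, ← map_sum, LapFAux.trG hJ hx, hc]
  have e : ∀ a b c : ℝ, c = 4 * m * a - 2 * b → Real.exp (c * η (sl x)) =
      Real.exp (4 * m * η (sl x) * a) * Real.exp (-2 * η (sl x) * b) := fun a b c e => by
    rw [← Real.exp_add, e]; congr 1; ring
  have e4 := e 1 (-1) (4 * m + 2) (by ring)
  have e5 := e 0 (-1) 2 (by ring)
  rw [mul_neg (-2 * η (sl x)), Real.exp_neg] at e4 e5
  simp only [mul_one, mul_zero, Real.exp_zero] at e4 e5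
  have p2 := (Real.exp_pos (-2 * η (sl x))).ne'
  have p3 := (Real.exp_pos (4 * m * η (sl x))).ne'
  simp only [GamQ, qf, cons_val_zero, cons_val_one, cons_val, e4, e5, Real.exp_neg, hJ.dot_dot,
    hJ.dot_self, dotProduct_comm (J *ᵥ x) x, hJ.sq, map_add, map_smul, map_neg, smul_eq_mul]
  generalize Real.exp (-2 * η (sl x)) = E at *
  generalize Real.exp (4 * m * η (sl x)) = F at *
  push_cast
  field_simp
  ring

end Vale.Agent.P225
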