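import Vale.Agent.P225.PDefs

namespace Vale.Agent.P225

open Matrix MvPolynomial

variable {σ : Type} [Fintype σ] [DecidableEq σ] {R : Type} [Field R]

namespace XopAux

omit [Fintype σ] in
theorem pderiv_comm (i j : σ) (p : MvPolynomial σ R) :
    pderiv i (pderiv j p) = pderiv j (pderiv i p) := by
  by_cases h : i = j
  · rw [h]
  ext m
  simp only [coeff_pderiv, Finsupp.add_apply, Finsupp.single_eq_of_ne h,
    Finsupp.single_eq_of_ne (Ne.symm h), add_zero, add_right_comm m]
  ring

theorem pderiv_lin (i : σ) (a : σ → R) : pderiv i (lin a) = C (a i) := by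
  simp [lin, Pi.single_apply, C_eq_smul_one]

omit [DecidableEq σ] in
theorem lin_mul {τ : Type} [Fintype τ] (B : Matrix τ σ R) (c : τ → R) :
    ∑ i, C (c i) * lin (B i) = lin (c ᵥ* B) := by
  simp only [lin, Finset.mul_sum, vecMul, dotProduct, Finset.sum_smul, C_mul', smul_smul]
  exact Finset.sum_comm

end XopAux

open XopAux

theorem Xop_apply (A : Matrix σ σ R) (p : MvPolynomial σ R) :
    Xop A p = ∑ i, lin (A i) * pderiv i p := by
  simp [Xop, lin, LinearMap.sum_apply, Finset.sum_mul]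

theorem Xop_X (A : Matrix σ σ R) (i : σ) : Xop A (X i) = lin (A i) := by
  simp [Xop_apply, Pi.single_apply]

theorem Xop_C (A : Matrix σ σ R) (a : R) : Xop A (C a) = 0 := by
  simp [Xop_apply]

theorem Xop_mul (A : Matrix σ σ R) (p q : MvPolynomial σ R) :
    Xop A (p * q) = Xop A p * q + p * Xop A q := by
  simp only [Xop_apply, pderiv_mul, Finset.sum_mul, Finset.mul_sum, ← Finset.sum_add_distrib]
  exact Finset.sum_congr rfl fun i _ => by ring

theorem Xop_add (A B : Matrix σ σ R) : Xop (A + B) = Xop A + Xop B := by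
  simp only [Xop, Matrix.add_apply, add_smul, Finset.sum_add_distrib]

theorem Xop_smul (a : R) (A : Matrix σ σ R) : Xop (a • A) = a • Xop A := by
  simp only [Xop, Matrix.smul_apply, smul_eq_mul, mul_smul, Finset.smul_sum]

theorem Xop_sub (A B : Matrix σ σ R) : Xop (A - B) = Xop A - Xop B := by
  rw [eq_sub_iff_add_eq, ← Xop_add, sub_add_cancel]

theorem Xop_single (i j : σ) (p : MvPolynomial σ R) :
    Xop (Matrix.single i j (1 : R)) p = X j * pderiv i p := by
  rw [Xop_apply, Finset.sum_eq_single i (fun k _ hk => by simp [lin, Matrix.single, hk.symm])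
    (by simp)]
  simp [lin, Matrix.single]

theorem Xop_comm (A B : Matrix σ σ R) :
    Xop A * Xop B - Xop B * Xop A = Xop (B * A - A * B) := by
  have key : ∀ (A B : Matrix σ σ R) (p : MvPolynomial σ R), Xop A (Xop B p) = Xop (B * A) p
      + ∑ i, ∑ k, lin (A i) * lin (B k) * pderiv i (pderiv k p) := by
    intro A B p
    have e : ∀ k, lin ((B * A) k) = ∑ i, C (B k i) * lin (A i) := fun k => by rw [lin_mul]; rfl
    rw [Xop_apply, Xop_apply, Xop_apply]
    simp only [map_sum, pderiv_mul, pderiv_lin, Finset.mul_sum, e, Finset.sum_mul, mul_add,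
      Finset.sum_add_distrib]
    rw [Finset.sum_comm]
    refine congrArg₂ (· + ·) ?_ ?_ <;>
      exact Finset.sum_congr rfl fun i _ => Finset.sum_congr rfl fun k _ => by ring
  refine LinearMap.ext fun p => ?_
  rw [Xop_sub, LinearMap.sub_apply, LinearMap.sub_apply, Module.End.mul_apply, Module.End.mul_apply,
    key, key, Finset.sum_comm]
  have : ∑ y, ∑ x, lin (A x) * lin (B y) * pderiv x (pderiv y p)
      = ∑ y, ∑ x, lin (B y) * lin (A x) * pderiv y (pderiv x p) :=
    Finset.sum_congr rfl fun _ _ => Finset.sum_congr rfl fun _ _ => by rw [pderiv_comm]; ring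
  rw [this]; ring

theorem lin_homog (a : σ → R) : (lin a).IsHomogeneous 1 :=
  IsHomogeneous.sum _ _ _ fun i _ => by
    rw [← C_mul']; exact isHomogeneous_C_mul_X _ _

theorem Xop_homog (A : Matrix σ σ R) {p : MvPolynomial σ R} {l : ℕ} (hp : p.IsHomogeneous l) :
    (Xop A p).IsHomogeneous l := by
  cases l with
  | zero =>
    rw [totalDegree_eq_zero_iff_eq_C.1 (Nat.le_zero.1 hp.totalDegree_le), Xop_C]
    exact isHomogeneous_zero _ _ _
  | succ l =>
    rw [Xop_apply, add_comm]
    exact IsHomogeneous.sum _ _ _ fun i _ => (lin_homog _).mul hp.pderiv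

theorem Lap_apply (p : MvPolynomial σ R) : Lap p = ∑ i, pderiv i (pderiv i p) := by
  simp [Lap, LinearMap.sum_apply]

theorem mem_Hsp {l : ℕ} {p : MvPolynomial σ R} :
    p ∈ Hsp R σ l ↔ p.IsHomogeneous l ∧ Lap p = 0 := Iff.rfl

theorem Lap_Xop {A : Matrix σ σ R} (hA : Aᵀ = -A) (p : MvPolynomial σ R) :
    Lap (Xop A p) = Xop A (Lap p) := by
  have e : ∀ i j, C (A j i) = -(C (A i j) : MvPolynomial σ R) := fun i j => by
    rw [← map_neg]; exact congrArg C (congrFun (congrFun hA i) j)
  have z : ∑ k, ∑ i, C (A i k) * pderiv k (pderiv i p)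
      + ∑ k, ∑ i, C (A i k) * pderiv k (pderiv i p) = 0 := by
    nth_rewrite 1 [Finset.sum_comm]
    simp only [← Finset.sum_add_distrib]
    refine Finset.sum_eq_zero fun k _ => Finset.sum_eq_zero fun i _ => ?_
    rw [e k i, pderiv_comm]; ring
  rw [Lap_apply, Lap_apply, Xop_apply, Xop_apply]
  simp only [map_sum, pderiv_mul, pderiv_lin, map_add, pderiv_C, zero_mul, zero_add,
    Finset.sum_add_distrib, Finset.mul_sum]
  rw [← add_assoc, z, zero_add, Finset.sum_comm]
  exact Finset.sum_congr rfl fun i _ => Finset.sum_congr rfl fun k _ => by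
    rw [pderiv_comm k i, pderiv_comm k i]

theorem Xop_mem {A : Matrix σ σ R} (hA : Aᵀ = -A) {l : ℕ} {p : MvPolynomial σ R}
    (hp : p ∈ Hsp R σ l) : Xop A p ∈ Hsp R σ l :=
  mem_Hsp.2 ⟨Xop_homog A (mem_Hsp.1 hp).1, by rw [Lap_Xop hA, (mem_Hsp.1 hp).2, map_zero]⟩

theorem eval_lin (x a : σ → R) : eval x (lin a) = a ⬝ᵥ x := by
  simp [lin, dotProduct]

theorem eval_Xop (A : Matrix σ σ R) (x : σ → R) (p : MvPolynomial σ R) :
    eval x (Xop A p) = ∑ i, (A *ᵥ x) i * eval x (pderiv i p) := by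
  simp only [Xop_apply, map_sum, map_mul, eval_lin]; rfl

theorem lin_pow_mem {a : σ → R} (ha : a ⬝ᵥ a = 0) (l : ℕ) : lin a ^ l ∈ Hsp R σ l := by
  refine mem_Hsp.2 ⟨by simpa using (lin_homog a).pow l, ?_⟩
  have e : ∀ i, pderiv i (pderiv i (lin a ^ l))
      = (l : MvPolynomial σ R) * (((l - 1 : ℕ) : MvPolynomial σ R) * lin a ^ (l - 1 - 1))
        * C (a i * a i) := fun i => by
    rw [pderiv_pow, pderiv_lin, pderiv_mul, pderiv_mul, pderiv_pow, pderiv_lin, pderiv_C,
      Derivation.map_natCast, map_mul]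
    ring
  simp only [Lap_apply, e, ← Finset.mul_sum, ← map_sum]
  rw [show ∑ i, a i * a i = 0 from ha, map_zero, mul_zero]

theorem finite_Hsp (l : ℕ) : Module.Finite R (Hsp R σ l) := by
  haveI : Module.Finite R (homogeneousSubmodule σ R l) :=
    Module.Finite.iff_fg.2 (homogeneousSubmodule_fg σ R l)
  exact Submodule.finiteDimensional_of_le (inf_le_left : Hsp R σ l ≤ homogeneousSubmodule σ R l)

theorem eval_smul_homog {p : MvPolynomial σ R} {l : ℕ} (hp : p.IsHomogeneous l) (c : R)
    (x : σ → R) : eval (c • x) p = c ^ l * eval x p := by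
  rw [eval_eq', eval_eq', Finset.mul_sum]
  refine Finset.sum_congr rfl fun d hd => ?_
  have h : ∑ i, d i = l := by
    by_contra h
    exact mem_support_iff.1 hd (hp.coeff_eq_zero (by rwa [Finsupp.degree_eq_sum]))
  simp only [Pi.smul_apply, smul_eq_mul, mul_pow, Finset.prod_mul_distrib,
    Finset.prod_pow_eq_pow_sum, h]
  ring

end Vale.Agent.P225
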