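import Vale.Agent.P225.Met
import Vale.Agent.P225.Xop

namespace Vale.Agent.P225

open Matrix MvPolynomial Filter
open scoped ContDiff Topology

variable {σ : Type} [Fintype σ] [DecidableEq σ]

set_option linter.unusedSectionVars false

theorem contDiff_eval (P : MvPolynomial σ ℝ) : ContDiff ℝ ∞ fun y : σ → ℝ => eval y P := by
  induction P using MvPolynomial.induction_on with
  | C a => simpa using contDiff_const
  | add p q hp hq => simpa using hp.add hq
  | mul_X p i hp => simpa using hp.mul (contDiff_apply ℝ ℝ i)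

theorem fderiv_eval (P : MvPolynomial σ ℝ) (x v : σ → ℝ) :
    fderiv ℝ (fun y : σ → ℝ => eval y P) x v = ∑ i, v i * eval x (pderiv i P) := by
  have d := fun P : MvPolynomial σ ℝ => (contDiff_eval P).differentiable (by simp) x
  induction P using MvPolynomial.induction_on with
  | C a => simp
  | add p q hp hq =>
    simp only [map_add, fderiv_fun_add (d p) (d q), _root_.add_apply, hp, hq, mul_add,
      Finset.sum_add_distrib]
  | mul_X p i hp =>
    have h := ((d p).hasFDerivAt.fun_mul (hasFDerivAt_apply (𝕜 := ℝ) i x)).fderiv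
    simp only [map_mul, eval_X, h, _root_.add_apply, _root_.smul_apply, hp, pderiv_mul, map_add,
      pderiv_X, mul_add, Finset.sum_add_distrib, smul_eq_mul, ContinuousLinearMap.proj_apply,
      Finset.mul_sum]
    rw [add_comm, Finset.sum_eq_single i (f := fun j => v j * (eval x p * _))
      (fun j _ hj => by simp [hj.symm]) (by simp)]
    congr 1
    · exact Finset.sum_congr rfl fun j _ => by ring
    · simp [mul_comm]

theorem D2_eval (P : MvPolynomial σ ℝ) (x a b : σ → ℝ) :
    D2 (fun y : σ → ℝ => eval y P) x a b =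
      ∑ i, ∑ j, a i * b j * eval x (pderiv i (pderiv j P)) := by
  have : (fun y => fderiv ℝ (fun y : σ → ℝ => eval y P) y b) =
      fun y => eval y (∑ j, b j • pderiv j P) := funext fun y => by simp [fderiv_eval]
  rw [D2, this, fderiv_eval]
  simp [Finset.mul_sum, mul_assoc]

theorem D2_eval_Lap (P : MvPolynomial σ ℝ) (x : σ → ℝ) :
    ∑ i, D2 (fun y : σ → ℝ => eval y P) x (Pi.single i 1) (Pi.single i 1) = eval x (Lap P) := by
  simp [D2_eval, Lap_apply, Pi.single_apply]

theorem fderiv_eval_self {P : MvPolynomial σ ℝ} {l : ℕ} (hP : P.IsHomogeneous l) (x : σ → ℝ) :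
    fderiv ℝ (fun y : σ → ℝ => eval y P) x x = l * eval x P := by
  have := congrArg (eval x) hP.sum_X_mul_pderiv
  simpa [fderiv_eval] using this

theorem PolyCAux.rot (P : MvPolynomial σ ℝ) (A : Matrix σ σ ℝ) (x : σ → ℝ) :
    D2 (fun y : σ → ℝ => eval y P) x (A *ᵥ x) (A *ᵥ x) = eval x (Xop A (Xop A P)) -
      fderiv ℝ (fun y : σ → ℝ => eval y P) x (A *ᵥ A *ᵥ x) := by
  rw [eval_Xop, D2_eval, fderiv_eval, eq_sub_iff_add_eq]
  simp only [Xop_apply, map_sum, pderiv_mul, XopAux.pderiv_lin, map_add, map_mul, eval_lin, eval_C,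
    Finset.mul_sum, mul_add, Finset.sum_add_distrib]
  rw [add_comm]
  congr 1
  · rw [Finset.sum_comm]
    refine Finset.sum_congr rfl fun i _ => ?_
    rw [mulVec, dotProduct, Finset.sum_mul]
    exact Finset.sum_congr rfl fun j _ => by ring
  · exact Finset.sum_congr rfl fun i _ => Finset.sum_congr rfl fun j _ => mul_assoc _ _ _

theorem D2_eval_self {P : MvPolynomial σ ℝ} {l : ℕ} (hP : P.IsHomogeneous l) (x : σ → ℝ) :
    D2 (fun y : σ → ℝ => eval y P) x x x = l * (l - 1) * eval x P := by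
  have e : Xop 1 P = (l : ℝ) • P := MvPolynomial.funext fun y => by
    rw [eval_Xop, ← fderiv_eval, one_mulVec, fderiv_eval_self hP, smul_eval]
  have := PolyCAux.rot P 1 x
  simp only [one_mulVec, e, map_smul, smul_eval, fderiv_eval_self hP] at this
  rw [this]; ring

theorem D2_eval_rot (P : MvPolynomial σ ℝ) (A : Matrix σ σ ℝ) (x : σ → ℝ) :
    D2 (fun y : σ → ℝ => eval y P) x (A *ᵥ x) (A *ᵥ x) = eval x (Xop A (Xop A P)) -
      fderiv ℝ (fun y : σ → ℝ => eval y P) x (A *ᵥ A *ᵥ x) := PolyCAux.rot P A x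

theorem eval_bound {P : MvPolynomial σ ℝ} {l : ℕ} (hP : P.IsHomogeneous l) :
    ∃ C : ℝ, ∀ x : σ → ℝ, |eval x P| ≤ C * Real.exp (l * sl x) := by
  obtain ⟨C, hC⟩ := (isCompact_closedBall (0 : σ → ℝ) 1).exists_bound_of_continuousOn
    (contDiff_eval P).continuous.continuousOn
  refine ⟨C, fun x => ?_⟩
  have p := Real.exp_pos (sl x)
  have h1 : (Real.exp (sl x))⁻¹ • x ∈ Metric.closedBall (0 : σ → ℝ) 1 := by
    by_cases hx : x = 0
    · simp [hx]
    rw [mem_closedBall_zero_iff, norm_smul, norm_inv, Real.norm_of_nonneg p.le, inv_mul_le_iff₀ p,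
      mul_one]
    refine (pi_norm_le_iff_of_nonneg p.le).2 fun i => abs_le_of_sq_le_sq' ?_ p.le |> abs_le.2
    rw [← Real.exp_nat_mul, Nat.cast_ofNat, exp_two_sl hx, sq]
    exact Finset.single_le_sum (f := fun i => x i * x i) (fun _ _ => mul_self_nonneg _)
      (Finset.mem_univ i)
  conv_lhs => rw [← smul_inv_smul₀ p.ne' x, eval_smul_homog hP]
  rw [abs_mul, Real.exp_nat_mul, abs_of_pos (by positivity), mul_comm]
  exact mul_le_mul_of_nonneg_right (hC _ h1) (by positivity)

theorem indep_core {I : Type} (deg : I → ℕ) (hd : Function.Injective deg) {N : I → ℕ}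
    (b : ∀ l, Fin (N l) → MvPolynomial σ ℝ) (hb : ∀ l, ONB (deg l) (b l))
    (u : (Σ l, Fin (N l)) → (σ → ℝ) → ℝ)
    (hu : ∀ i x, x ⬝ᵥ x ≤ 1 → u i x = eval x (b i.1 i.2)) : LinearIndependent ℝ u := by
  classical
  refine linearIndependent_iff'.2 fun s g hg ⟨l, j⟩ hi => ?_
  have n0 : (0 : ℝ) ≤ Fintype.card σ := Nat.cast_nonneg _
  have e : ∑ i ∈ s, g i • b i.1 i.2 = 0 := by
    refine funext_set (fun _ => Set.Ioo 0 (1 / (Fintype.card σ + 1)))
      (fun _ => Set.Ioo_infinite (by positivity)) fun x hx => ?_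
    have h1 : x ⬝ᵥ x ≤ 1 := by
      have : ∀ i, x i * x i ≤ 1 / (Fintype.card σ + 1) := fun i => by
        obtain ⟨a, b⟩ := hx i trivial
        have : 1 / (Fintype.card σ + 1 : ℝ) ≤ 1 := by rw [div_le_one (by positivity)]; linarith
        nlinarith
      refine (Finset.sum_le_sum fun i _ => this i).trans ?_
      rw [Finset.sum_const, Finset.card_univ, nsmul_eq_mul, mul_one_div, div_le_one (by positivity)]
      linarith
    simpa [hu _ x h1] using congrFun hg x
  have := congrArg (fun p => Fis (b l j) (homogeneousComponent (deg l) p)) e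
  simp only [map_sum, map_smul, map_zero, homogeneousComponent_of_mem ((hb _).mem _).1] at this
  rw [Finset.sum_eq_single_of_mem _ hi] at this
  · simpa [(hb l).orth] using this
  rintro ⟨l', j'⟩ _ hne
  by_cases h : l = l'
  · subst h
    have : j ≠ j' := fun e => hne (by rw [e])
    simp [(hb l).orth, this]
  · simp [hd.ne h]

end Vale.Agent.P225
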