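import Vale.Agent.P225.LapF
import Vale.Agent.P225.PolyC
import Vale.Agent.P225.ODefs

namespace Vale.Agent.P225

open Matrix MvPolynomial Filter
open scoped ContDiff Topology

variable {σ : Type} [Fintype σ] [DecidableEq σ] {m : ℕ} {h η : ℝ → ℝ} {J : Matrix σ σ ℝ}

namespace LapPAux

variable {x : σ → ℝ} {φ : ℝ → ℝ} {F : (σ → ℝ) → ℝ}

theorem d1 (hx : x ≠ 0) (hφ : ContDiff ℝ ∞ φ) (hF : ContDiff ℝ ∞ F) (b : σ → ℝ) :
    fderiv ℝ (fun y => φ (sl y) * F y) x b =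
      deriv φ (sl x) * (x ⬝ᵥ b / x ⬝ᵥ x) * F x + φ (sl x) * fderiv ℝ F x b := by
  refine ChrFAux.fd (((hφ.contDiffAt.comp x (contDiffAt_sl hx)).mul hF.contDiffAt).differentiableAt
    (by simp)) (((ChrFAux.comp hx (hφ.differentiable (by simp) _).hasDerivAt b).fun_mul
      ((hF.differentiable (by simp) x).hasFDerivAt.hasLineDerivAt b)).congr_deriv ?_)
  simp

theorem d2 (hx : x ≠ 0) (hφ : ContDiff ℝ ∞ φ) (hF : ContDiff ℝ ∞ F) (a b : σ → ℝ) :
    D2 (fun y => φ (sl y) * F y) x a b =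
      (deriv (deriv φ) (sl x) - 2 * deriv φ (sl x)) / (x ⬝ᵥ x) ^ 2 * F x * ((x ⬝ᵥ a) * (x ⬝ᵥ b))
      + deriv φ (sl x) / (x ⬝ᵥ x) * F x * (a ⬝ᵥ b)
      + deriv φ (sl x) / (x ⬝ᵥ x) * ((x ⬝ᵥ b) * fderiv ℝ F x a)
      + deriv φ (sl x) / (x ⬝ᵥ x) * ((x ⬝ᵥ a) * fderiv ℝ F x b) + φ (sl x) * D2 F x a b := by
  have p := (dot_self_pos hx).ne'
  have ev : ∀ᶠ y in 𝓝 x, y ≠ 0 := isOpen_compl_singleton.mem_nhds hx
  have k : ∀ {G : (σ → ℝ) → ℝ}, ContDiffAt ℝ ∞ G x →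
      DifferentiableAt ℝ (fun y => fderiv ℝ G y b) x := fun h =>
    ((h.fderiv_right (m := ∞) (by simp)).clm_apply
      contDiffAt_const).differentiableAt (by simp)
  refine ChrFAux.fd (k ((hφ.contDiffAt.comp x (contDiffAt_sl hx)).mul hF.contDiffAt)) ?_
  refine HasDerivAt.congr_of_eventuallyEq ?_ (Tendsto.eventually
    (Continuous.tendsto' (f := fun t : ℝ => x + t • a) (by fun_prop) _ _ (by simp))
    (ev.mono fun y hy => d1 hy hφ hF b))
  refine ((((ChrFAux.comp hx ((hφ.iterate_deriv 1).differentiable (by simp) _).hasDerivAt a).fun_mul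
    ((ChrFAux.dot x a b).fun_div (ChrFAux.rho x a) (by simpa using p))).fun_mul
    ((hF.differentiable (by simp) x).hasFDerivAt.hasLineDerivAt a)).fun_add
    ((ChrFAux.comp hx (hφ.differentiable (by simp) _).hasDerivAt a).fun_mul
      ((k hF.contDiffAt).hasFDerivAt.hasLineDerivAt a))).congr_deriv ?_
  simp only [zero_smul, add_zero, Function.iterate_one, D2]
  field_simp
  ring

end LapPAux

theorem lap_sep (hp : Prof h η) (hJ : IsCx J) (hc : Fintype.card σ = 2 * m + 2) {x : σ → ℝ}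
    (hx : x ≠ 0) {φ : ℝ → ℝ} (hφ : ContDiff ℝ ∞ φ) {l : ℕ} {P : MvPolynomial σ ℝ}
    (hP : P ∈ Hsp ℝ σ l) :
    lap (met m h η J) (fun y => φ (sl y) * eval y P) x = Real.exp (-2 * h (sl x)) / (x ⬝ᵥ x) *
      ((deriv (deriv φ) (sl x) + (2 * l + 2 * m * (1 + deriv h (sl x))) * deriv φ (sl x)
          + (l ^ 2 + 2 * m * (1 + deriv h (sl x)) * l
            - Real.exp (2 * η (sl x)) * (l * (l + 2 * m))) * φ (sl x)) * eval x P
        - vs m (η (sl x)) * φ (sl x) * eval x (Xop J (Xop J P))) := by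
  have p := (dot_self_pos hx).ne'
  obtain ⟨h1, h2⟩ := mem_Hsp.1 hP
  have hF := contDiff_eval P
  have a1 : ∑ i, (x ⬝ᵥ Pi.single i 1) * fderiv ℝ (fun y => eval y P) x (Pi.single i 1) =
      l * eval x P := by
    rw [← fderiv_eval_self h1]
    conv_rhs => rw [pi_eq_sum_univ' x]
    simp only [dotProduct_single_one, map_sum, map_smul, smul_eq_mul]
    rw [← pi_eq_sum_univ' x]
  have a2 : ∑ i, (x ⬝ᵥ Pi.single i 1) * (x ⬝ᵥ Pi.single i 1) = x ⬝ᵥ x := by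
    simp only [dotProduct_single_one]; rfl
  have a3 : ∑ i, (Pi.single i 1 : σ → ℝ) ⬝ᵥ Pi.single i 1 = 2 * m + 2 := by simp [hc]
  refine (lap_met hp hJ hc hx (((hφ.contDiffAt.comp x (contDiffAt_sl hx)).mul hF.contDiffAt).of_le
    (WithTop.coe_le_coe.2 (le_top : (2 : ℕ∞) ≤ ⊤)))).trans ?_
  simp only [Function.comp_def]
  simp only [LapPAux.d2 hx hφ hF, LapPAux.d1 hx hφ hF, Finset.sum_add_distrib, ← Finset.mul_sum,
    a1, a2, a3, D2_eval_Lap, h2, map_zero, D2_eval_self h1, D2_eval_rot, hJ.sq, map_neg,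
    fderiv_eval_self h1, hJ.dot_dot, hJ.dot_self, vs]
  field_simp
  ring

end Vale.Agent.P225
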