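import Vale.Agent.P225.GDefs

namespace Vale.Agent.P225

open Vale.Agent.P255 Matrix Filter
open scoped ContDiff Topology

variable {σ : Type} [Fintype σ] [DecidableEq σ] {m : ℕ} {h η : ℝ → ℝ} {J : Matrix σ σ ℝ}

set_option linter.unusedSectionVars false

omit [DecidableEq σ] in
theorem MetAux.nn (x : σ → ℝ) : 0 ≤ x ⬝ᵥ x := Finset.sum_nonneg fun _ _ => mul_self_nonneg _

omit [DecidableEq σ] in
theorem MetAux.sm : ContDiff ℝ ∞ fun y : σ → ℝ => y ⬝ᵥ y := by unfold dotProduct; fun_prop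

theorem MetAux.fd (x : σ → ℝ) :
    HasFDerivAt (fun y : σ → ℝ => y ⬝ᵥ y) ((2 : ℝ) • bil (1 : Matrix σ σ ℝ) x) x := by
  have := (bil (1 : Matrix σ σ ℝ)).hasFDerivAt_of_bilinear (hasFDerivAt_id x) (hasFDerivAt_id x)
  simp only [id, bil_apply, one_mulVec] at this
  refine this.congr_fderiv (ContinuousLinearMap.ext fun u => ?_)
  simp [bil_apply, dotProduct_comm u x, two_mul]

theorem sl_nonpos {x : σ → ℝ} (hx : x ⬝ᵥ x ≤ 1) : sl x ≤ 0 :=   div_nonpos_of_nonpos_of_nonneg (Real.log_nonpos (MetAux.nn x) hx) zero_le_two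

theorem sl_nonneg {x : σ → ℝ} (hx : 1 ≤ x ⬝ᵥ x) : 0 ≤ sl x := div_nonneg (Real.log_nonneg hx) zero_le_two

theorem dot_self_pos {x : σ → ℝ} (hx : x ≠ 0) : 0 < x ⬝ᵥ x := (MetAux.nn x).lt_of_ne' fun e => hx (dotProduct_self_eq_zero.1 e)

theorem exp_two_sl {x : σ → ℝ} (hx : x ≠ 0) : Real.exp (2 * sl x) = x ⬝ᵥ x := by
  rw [sl, mul_div_cancel₀ _ two_ne_zero, Real.exp_log (dot_self_pos hx)]

theorem contDiffAt_sl {x : σ → ℝ} (hx : x ≠ 0) : ContDiffAt ℝ ∞ sl x := (MetAux.sm.contDiffAt.log (dot_self_pos hx).ne').div_const 2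

theorem fderiv_sl {x : σ → ℝ} (hx : x ≠ 0) (u : σ → ℝ) :
    fderiv ℝ sl x u = (x ⬝ᵥ u) / (x ⬝ᵥ x) := by
  have := (((MetAux.fd x).log (dot_self_pos hx).ne').mul_const (1 / 2 : ℝ)).fderiv
  rw [show sl = fun y : σ → ℝ => Real.log (y ⬝ᵥ y) * (1 / 2) from funext fun y => by rw [sl]; ring,
    this]
  simp only [_root_.smul_apply, bil_apply, one_mulVec, smul_eq_mul]
  ring

theorem IsCx.dot_left (hJ : IsCx J) (x y : σ → ℝ) : (J *ᵥ x) ⬝ᵥ y = -(x ⬝ᵥ J *ᵥ y) := by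
  rw [dotProduct_mulVec, ← mulVec_transpose, hJ.1, neg_mulVec, neg_dotProduct, neg_neg]

theorem IsCx.sq (hJ : IsCx J) (x : σ → ℝ) : J *ᵥ J *ᵥ x = -x := by rw [mulVec_mulVec, hJ.2, neg_mulVec, one_mulVec]

theorem IsCx.dot_dot (hJ : IsCx J) (x y : σ → ℝ) : (J *ᵥ x) ⬝ᵥ (J *ᵥ y) = x ⬝ᵥ y := by
  rw [hJ.dot_left, hJ.sq, dotProduct_neg, neg_neg]

theorem IsCx.dot_self (hJ : IsCx J) (x : σ → ℝ) : x ⬝ᵥ J *ᵥ x = 0 := by
  have := hJ.dot_left x x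
  rw [dotProduct_comm] at this
  linarith

theorem IsCx.diag (hJ : IsCx J) (i : σ) : J i i = 0 := by
  have := congrFun (congrFun hJ.1 i) i
  rw [transpose_apply, Matrix.neg_apply] at this
  linarith

theorem IsCx.bessel (hJ : IsCx J) (x v : σ → ℝ) :
    (x ⬝ᵥ v) ^ 2 + ((J *ᵥ x) ⬝ᵥ v) ^ 2 ≤ (x ⬝ᵥ x) * (v ⬝ᵥ v) := by
  by_cases hx : x = 0
  · simp [hx]
  have p := dot_self_pos hx
  have := MetAux.nn ((x ⬝ᵥ x) • v - (x ⬝ᵥ v) • x - ((J *ᵥ x) ⬝ᵥ v) • J *ᵥ x)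
  simp only [sub_dotProduct, dotProduct_sub, smul_dotProduct, dotProduct_smul, smul_eq_mul,
    hJ.dot_dot, hJ.dot_self, dotProduct_comm (J *ᵥ x) x, dotProduct_comm v x,
    dotProduct_comm v (J *ᵥ x)] at this
  nlinarith

theorem met_core (hp : Prof h η) (J : Matrix σ σ ℝ) {x : σ → ℝ} (hx : x ⬝ᵥ x ≤ 1) :
    met m h η J x = bil 1 := by
  simp [met, metM, hp.h0 _ (sl_nonpos hx), hp.e0 _ (sl_nonpos hx)]

theorem MetAux.ev0 (hp : Prof h η) (J : (σ → ℝ) → Matrix σ σ ℝ) :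
    (fun y => met m h η (J y) y) =ᶠ[𝓝 0] fun _ => bil 1 :=
  (MetAux.sm.continuous.continuousAt.eventually_lt continuousAt_const (by simp)).mono
    fun y hy => met_core hp _ (le_of_lt hy)

theorem MetAux.perp (hJ : IsCx J) (x v : σ → ℝ) :
    0 ≤ v ⬝ᵥ v - (x ⬝ᵥ v) ^ 2 / (x ⬝ᵥ x) - ((J *ᵥ x) ⬝ᵥ v) ^ 2 / (x ⬝ᵥ x) := by
  rw [sub_sub, ← add_div, sub_nonneg]
  exact div_le_of_le_mul₀ (MetAux.nn x) (MetAux.nn v) ((hJ.bessel x v).trans_eq (mul_comm _ _))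

theorem MetAux.diag (x v : σ → ℝ) : met m h η J x v v = Real.exp (2 * h (sl x)) *
    (Real.exp (-2 * η (sl x)) * (v ⬝ᵥ v - (x ⬝ᵥ v) ^ 2 / (x ⬝ᵥ x) - ((J *ᵥ x) ⬝ᵥ v) ^ 2 / (x ⬝ᵥ x))
      + (x ⬝ᵥ v) ^ 2 / (x ⬝ᵥ x) + Real.exp (4 * m * η (sl x)) * (((J *ᵥ x) ⬝ᵥ v) ^ 2 / (x ⬝ᵥ x))) := by
  rw [met_apply]; ring

theorem MetAux.dec (hJ : IsCx J) (x v : σ → ℝ) : ∃ a b c : ℝ, 0 ≤ a ∧ 0 ≤ b ∧ 0 ≤ c ∧
    met m h η J x v v = Real.exp (2 * h (sl x)) * (Real.exp (-2 * η (sl x)) * a + b +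
      Real.exp (4 * m * η (sl x)) * c) ∧ v ⬝ᵥ v = a + b + c :=
  ⟨_, _, _, MetAux.perp hJ x v, div_nonneg (sq_nonneg _) (MetAux.nn x),
    div_nonneg (sq_nonneg _) (MetAux.nn x), MetAux.diag x v, by ring⟩

theorem met_lower (hJ : IsCx J) {B : ℝ} {x : σ → ℝ} (hB : |η (sl x)| ≤ B) (v : σ → ℝ) :
    Real.exp (2 * h (sl x)) * Real.exp (-((4 * m + 2) * B)) * (v ⬝ᵥ v) ≤ met m h η J x v v := by
  obtain ⟨a, b, c, ha, hb, hc, e1, e2⟩ := MetAux.dec (m := m) (h := h) (η := η) hJ x v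
  obtain ⟨b1, b2⟩ := abs_le.1 hB
  have B0 : 0 ≤ B := (abs_nonneg _).trans hB
  have m0 : (0 : ℝ) ≤ m := Nat.cast_nonneg m
  rw [e1, e2, mul_assoc]
  have k1 : Real.exp (-((4 * m + 2) * B)) ≤ Real.exp (-2 * η (sl x)) :=
    Real.exp_le_exp.2 (by nlinarith)
  have k2 : Real.exp (-((4 * m + 2) * B)) ≤ 1 := Real.exp_le_one_iff.2 (by nlinarith)
  have k3 : Real.exp (-((4 * m + 2) * B)) ≤ Real.exp (4 * m * η (sl x)) :=
    Real.exp_le_exp.2 (by nlinarith)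
  refine mul_le_mul_of_nonneg_left ?_ (Real.exp_pos _).le
  nlinarith

theorem met_upper (hJ : IsCx J) {B : ℝ} {x : σ → ℝ} (hB : |η (sl x)| ≤ B) (v : σ → ℝ) :
    met m h η J x v v ≤ Real.exp (2 * h (sl x)) * Real.exp ((4 * m + 2) * B) * (v ⬝ᵥ v) := by
  obtain ⟨a, b, c, ha, hb, hc, e1, e2⟩ := MetAux.dec (m := m) (h := h) (η := η) hJ x v
  obtain ⟨b1, b2⟩ := abs_le.1 hB
  have B0 : 0 ≤ B := (abs_nonneg _).trans hB
  have m0 : (0 : ℝ) ≤ m := Nat.cast_nonneg m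
  rw [e1, e2, mul_assoc (Real.exp _)]
  have k1 : Real.exp (-2 * η (sl x)) ≤ Real.exp ((4 * m + 2) * B) :=
    Real.exp_le_exp.2 (by nlinarith)
  have k2 : 1 ≤ Real.exp ((4 * m + 2) * B) := Real.one_le_exp (by nlinarith)
  have k3 : Real.exp (4 * m * η (sl x)) ≤ Real.exp ((4 * m + 2) * B) :=
    Real.exp_le_exp.2 (by nlinarith)
  refine mul_le_mul_of_nonneg_left ?_ (Real.exp_pos _).le
  nlinarith

theorem met_rad (hJ : IsCx J) (x v : σ → ℝ) :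
    Real.exp (2 * h (sl x)) * ((x ⬝ᵥ v) ^ 2 / (x ⬝ᵥ x)) ≤ met m h η J x v v := by
  have := MetAux.perp hJ x v
  have p : 0 ≤ ((J *ᵥ x) ⬝ᵥ v) ^ 2 / (x ⬝ᵥ x) := div_nonneg (sq_nonneg _) (MetAux.nn x)
  rw [MetAux.diag]
  refine mul_le_mul_of_nonneg_left ?_ (Real.exp_pos _).le
  nlinarith [Real.exp_pos (-2 * η (sl x)), Real.exp_pos (4 * m * η (sl x))]

theorem met_isMetric (hp : Prof h η) (hJ : IsCx J) : IsMetric (met m h η J) := by
  refine ⟨contDiff_iff_contDiffAt.2 fun x => ?_, fun x v w => ?_, fun x v hv => ?_⟩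
  · by_cases hx : x = 0
    · exact contDiffAt_const.congr_of_eventuallyEq (hx ▸ MetAux.ev0 hp fun _ => J)
    refine ContDiffOn.contDiffAt (contDiffOn_clm_apply.2 fun v => contDiffOn_clm_apply.2
      fun w x hx => ContDiffAt.contDiffWithinAt ?_) (isOpen_compl_singleton.mem_nhds hx)
    have s := contDiffAt_sl hx
    have s1 := hp.hs.contDiffAt.comp x s
    have s2 := hp.es.contDiffAt.comp x s
    have s3 := (MetAux.sm (σ := σ)).contDiffAt (x := x)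
    have s4 := (dot_self_pos hx).ne'
    have c : ∀ a : σ → ℝ, ContDiffAt ℝ ∞ (fun y : σ → ℝ => y ⬝ᵥ a) x := fun a => by
      unfold dotProduct; fun_prop
    have c' : ∀ a : σ → ℝ, ContDiffAt ℝ ∞ (fun y : σ → ℝ => (J *ᵥ y) ⬝ᵥ a) x := fun a => by
      simp only [hJ.dot_left]; exact (c _).neg
    simp only [met_apply]
    exact (contDiffAt_const.mul s1).exp.mul
      ((((contDiffAt_const.mul s2).exp.mul contDiffAt_const).add
        (((contDiffAt_const.sub (contDiffAt_const.mul s2).exp).div s3 s4).mul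
          ((c v).mul (c w)))).add ((((contDiffAt_const.mul s2).exp.sub
            (contDiffAt_const.mul s2).exp).div s3 s4).mul ((c' v).mul (c' w))))
  · rw [met_apply, met_apply, dotProduct_comm v w]; ring
  · have := dot_self_pos hv
    exact lt_of_lt_of_le (by positivity) (met_lower hJ le_rfl v)

theorem gmet_ev (hp : Prof h η) {Js : ℝ → Matrix σ σ ℝ} (ha : Adm η Js) (x : σ → ℝ) :
    gmet m h η Js =ᶠ[𝓝 x] met m h η (Js (sl x)) := by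
  by_cases hx : x = 0
  · exact hx ▸ (MetAux.ev0 hp fun y => Js (sl y)).trans (MetAux.ev0 hp fun _ => _).symm
  filter_upwards [(contDiffAt_sl hx).continuousAt.eventually (ha.loc (sl x))] with y hy
  rcases hy with e | e
  · simp [gmet, met, metM, e]
  · rw [gmet, e]

theorem gmet_isMetric (hp : Prof h η) {Js : ℝ → Matrix σ σ ℝ} (ha : Adm η Js) :
    IsMetric (gmet m h η Js) :=   ⟨contDiff_iff_contDiffAt.2 fun x =>
    (met_isMetric hp (ha.cx _)).smooth.contDiffAt.congr_of_eventuallyEq (gmet_ev hp ha x),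
    fun x => (met_isMetric hp (ha.cx _)).symm x, fun x => (met_isMetric hp (ha.cx _)).pos x⟩

omit [DecidableEq σ] in
theorem MetAux.chr_ev {g g' : Met σ} {x : σ → ℝ} (hg : g =ᶠ[𝓝 x] g') (v w : σ → ℝ) :
    (fun y => chr g y v w) =ᶠ[𝓝 x] fun y => chr g' y v w := by
  filter_upwards [hg, hg.fderiv (𝕜 := ℝ)] with y h1 h2
  simp only [chr, h1, h2]

theorem ric_congr {g g' : Met σ} {x : σ → ℝ} (hg : g =ᶠ[𝓝 x] g') (v w : σ → ℝ) :
    ric g x v w = ric g' x v w := by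
  have e := fun a b => MetAux.chr_ev hg a b
  simp only [ric, curv, (e _ _).fderiv_eq, (e _ _).eq_of_nhds]

theorem lap_congr {g g' : Met σ} {u u' : (σ → ℝ) → ℝ} {x : σ → ℝ} (hg : g =ᶠ[𝓝 x] g')
    (hu : u =ᶠ[𝓝 x] u') : lap g u x = lap g' u' x := by
  have e : ∀ b, (fun y => fderiv ℝ u y b) =ᶠ[𝓝 x] fun y => fderiv ℝ u' y b := fun b =>
    (hu.fderiv (𝕜 := ℝ)).mono fun y hy => by simp only [hy]
  simp only [lap, (e _).fderiv_eq, (MetAux.chr_ev hg _ _).eq_of_nhds, hg.eq_of_nhds, hu.fderiv_eq]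

theorem ric_flat (x v w : σ → ℝ) : ric (fun _ => bil (1 : Matrix σ σ ℝ)) x v w = 0 := by simp [ric, curv, chr]

theorem lap_flat (u : (σ → ℝ) → ℝ) (x : σ → ℝ) :
    lap (fun _ => bil (1 : Matrix σ σ ℝ)) u x = ∑ i, D2 u x (Pi.single i 1) (Pi.single i 1) := by
  have e : (Matrix.of fun a b : σ => bil (1 : Matrix σ σ ℝ) (Pi.single a 1) (Pi.single b 1)) = 1 := by
    ext a b
    simp [bil_apply, one_apply]
  simp [lap, e, chr, one_apply, D2]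

theorem lap_sum {α : Type} (S : Finset α) (g : Met σ) {u : α → (σ → ℝ) → ℝ} {x : σ → ℝ}
    (hu : ∀ a ∈ S, ContDiffAt ℝ 2 (u a) x) :
    lap g (fun y => ∑ a ∈ S, u a y) x = ∑ a ∈ S, lap g (u a) x := by
  have e1 : ∀ᶠ y in 𝓝 x, fderiv ℝ (fun y => ∑ a ∈ S, u a y) y = ∑ a ∈ S, fderiv ℝ (u a) y := by
    filter_upwards [(eventually_all_finset S).2 fun a ha => (hu a ha).eventually (by simp)]
      with y hy
    exact fderiv_fun_sum fun a ha => (hy a ha).differentiableAt (by simp)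
  have e2 : ∀ b, fderiv ℝ (fun y => fderiv ℝ (fun y => ∑ a ∈ S, u a y) y b) x =
      ∑ a ∈ S, fderiv ℝ (fun y => fderiv ℝ (u a) y b) x := fun b => by
    rw [← fderiv_fun_sum fun a ha => (((hu a ha).fderiv_right (m := 1) (by norm_num)).clm_apply
      contDiffAt_const).differentiableAt (by simp)]
    exact EventuallyEq.fderiv_eq (e1.mono fun y hy => by simp only [hy, _root_.sum_apply])
  simp only [lap, e2, e1.self_of_nhds, _root_.sum_apply, ← Finset.sum_sub_distrib, Finset.mul_sum]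
  exact (Finset.sum_congr rfl fun i _ => Finset.sum_comm).trans Finset.sum_comm

end Vale.Agent.P225
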