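import Vale.Agent.P225.GDefs

/-! Rotation fields, the Laplacian and the Fischer form on polynomials. -/

namespace Vale.Agent.P225

open Matrix MvPolynomial

variable {σ : Type} [Fintype σ] [DecidableEq σ] {R : Type} [Field R]

/-- the derivation `p ↦ (x ↦ Dp(x) (A x))` -/
noncomputable def Xop (A : Matrix σ σ R) : Module.End R (MvPolynomial σ R) :=
  ∑ i, ∑ j, A i j • (LinearMap.mulLeft R (X j) ∘ₗ (pderiv i).toLinearMap)

noncomputable def Lap : Module.End R (MvPolynomial σ R) :=
  ∑ i, (pderiv i).toLinearMap ∘ₗ (pderiv i).toLinearMap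

/-- harmonic homogeneous polynomials of degree `l` -/
noncomputable def Hsp (R σ : Type) [Fintype σ] [Field R] (l : ℕ) : Submodule R (MvPolynomial σ R) :=
  homogeneousSubmodule σ R l ⊓ LinearMap.ker Lap

/-- the Fischer form -/
noncomputable def Fis : MvPolynomial σ R →ₗ[R] MvPolynomial σ R →ₗ[R] R :=
  (basisMonomials σ R).constr R fun α => ((∏ i, (α i).factorial : ℕ) : R) • lcoeff R α

/-- the linear form `a · x` -/
noncomputable def lin (a : σ → R) : MvPolynomial σ R := ∑ i, a i • X i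

/-- orthonormal basis of the real harmonic polynomials of degree `l` -/
structure ONB (l : ℕ) {N : ℕ} (b : Fin N → MvPolynomial σ ℝ) : Prop where
  mem : ∀ i, b i ∈ Hsp ℝ σ l
  orth : ∀ i j, Fis (b i) (b j) = if i = j then 1 else 0
  span : ∀ p ∈ Hsp ℝ σ l, p = ∑ i, Fis (b i) p • b i

/-- matrix of an operator -/
noncomputable def mat {N : ℕ} (b : Fin N → MvPolynomial σ R)
    (T : Module.End R (MvPolynomial σ R)) : Matrix (Fin N) (Fin N) R :=
  Matrix.of fun i j => Fis (b i) (T (b j))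

/-- complexification of a real polynomial -/
noncomputable def cpx (p : MvPolynomial σ ℝ) : MvPolynomial σ ℂ := map (algebraMap ℝ ℂ) p

/-- linear substitution -/
noncomputable def subst {τ : Type} (S : Matrix τ σ R) : MvPolynomial τ R →ₐ[R] MvPolynomial σ R :=
  aeval fun t => lin (S t)

variable {κ : Type} [Fintype κ] [DecidableEq κ]

/-- orthonormal frame -/
def IsFrame (O : Matrix (κ ⊕ κ) σ ℝ) : Prop := O * Oᵀ = 1 ∧ Oᵀ * O = 1

/-- the complex structure of a frame with signs `ε` -/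
def Jfr (O : Matrix (κ ⊕ κ) σ ℝ) (ε : κ → ℝ) : Matrix σ σ ℝ :=
  Oᵀ * fromBlocks 0 (-diagonal ε) (diagonal ε) 0 * O

/-- the complex coordinates `z = p + i q` (left) and `w = p - i q` (right) of a frame -/
def Sfr (O : Matrix (κ ⊕ κ) σ ℝ) : Matrix (κ ⊕ κ) σ ℂ :=
  Matrix.of fun t j => Sum.elim (fun i => (O (.inl i) j : ℂ) + Complex.I * O (.inr i) j)
    (fun i => (O (.inl i) j : ℂ) - Complex.I * O (.inr i) j) t

/-- the complex structure in complex coordinates -/
def Jd (ε : κ → ℝ) : Matrix (κ ⊕ κ) (κ ⊕ κ) ℂ :=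
  diagonal (Sum.elim (fun i => Complex.I * ε i) (fun i => -(Complex.I * ε i)))

/-- root vectors in complex coordinates -/
def el (t u : κ ⊕ κ) : Matrix (κ ⊕ κ) (κ ⊕ κ) ℂ :=
  Matrix.single t u 1 - Matrix.single u.swap t.swap 1

/-- an operator of rank one on polynomials of degree `l` that kills lower degrees -/
noncomputable def Pop (i₁ i₂ i₃ : κ) (l : ℕ) : Module.End ℂ (MvPolynomial (κ ⊕ κ) ℂ) :=
  Xop (el (.inr i₂) (.inl i₁)) ^ (l - 1) * Xop (el (.inr i₃) (.inl i₁)) *
    Xop (el (.inl i₃) (.inl i₁)) * Xop (el (.inl i₂) (.inl i₁)) ^ (l - 1)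

/-- the algebra of block matrices -/
abbrev Blk (R : Type) {I : Type} (N : I → ℕ) : Type := ∀ l, Matrix (Fin (N l)) (Fin (N l)) R

end Vale.Agent.P225
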